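import Vale.Agent.P106.U.H428.Cls

/-!
# P106 / U / H428 : number of classes, alphabet (helper428)

Complement of `Cls.lean`.

* `alp` : helper465's alphabet hypothesis with `M ≥ 2 B`.
* `cuts_le` : the number of drift cuts at all depths and levels `< n` is at most `n`.
* `cuts_path` : along a path `x a ≤ rho a - 1 - k` there are at most `2 (number of stretches) + 8 #V B ^ (-k)` cuts.
* `card_ix` : there are at most `3 N + RI N + 1` classes.
-/

set_option autoImplicit false
set_option linter.unusedSectionVars false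

namespace Vale.Agent.P106.U.H428.Cls

open Finset Vale.Agent.P127 Vale.Agent.P127.Stk

namespace Dt

variable {Ω : Type} {d : Dt Ω}

/-! ### alphabet -/

lemma card_Icc_le {u v : ℝ} {M : ℕ} (h : v - u + 2 ≤ M) : (Icc ⌊u⌋ ⌊v⌋).card ≤ M := by
  rw [Int.card_Icc]
  have h1 := Int.floor_le v
  have h2 := Int.lt_floor_add_one u
  have h3 : ((⌊v⌋ + 1 - ⌊u⌋ : ℤ) : ℝ) ≤ ((M : ℤ) : ℝ) := by
    push_cast
    linarith
  have h4 : ⌊v⌋ + 1 - ⌊u⌋ ≤ (M : ℤ) := by exact_mod_cast h3
  omega

/-- **alphabet** : given the value of the parent a class has at most `2 B` values -/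
theorem alp [Fintype Ω] {P : Law Ω} (hs : d.Su P) {c : ℝ} {M : ℕ} (hM : 2 * d.B ≤ M) :
    (d.clD c).Alp P M := by
  classical
  intro p ω hω
  obtain ⟨⟨f, x⟩, hp⟩ := p
  obtain ⟨hf, hx, hρ, hr⟩ := d.mem_cls.1 hp
  have hB := d.hB8
  by_cases hq : (d.rep f (x - 1), x - 1) ∈ d.cls
  · -- a parent
    have hpa : d.pa ⟨(f, x), hp⟩ = some ⟨_, hq⟩ := by
      unfold pa
      rw [dif_pos hq]
    set v : ℤ := d.A ⟨_, hq⟩ ω with hv
    refine ⟨Icc ⌊d.B * ((v : ℝ) - 1 / 4)⌋ ⌊d.B * ((v : ℝ) + 5 / 4)⌋, ?_, ?_⟩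
    · refine card_Icc_le ?_
      nlinarith
    · intro ω' hω' he
      have h1 : d.A ⟨_, hq⟩ ω' = v := he _ hpa
      have h2 : (v : ℝ) ≤ d.z (d.rep f (x - 1)) (x - 1) ω' := by
        rw [← h1]; exact Int.floor_le _
      have h3 : d.z (d.rep f (x - 1)) (x - 1) ω' < v + 1 := by
        rw [← h1]; exact Int.lt_floor_add_one _
      have h4 := abs_le.1 (hs.z_rep (a := f) (x := x - 1) hω')
      have h5 : d.z f x ω' = d.B * d.z f (x - 1) ω' := by
        unfold z
        rw [mul_left_comm, ← zpow_one_add₀ d.B0.ne']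
        congr 2
        ring
      have h6 : d.B * ((v : ℝ) - 1 / 4) ≤ d.z f x ω' := by
        rw [h5]
        exact mul_le_mul_of_nonneg_left (by linarith [h4.1]) d.B0.le
      have h7 : d.z f x ω' ≤ d.B * ((v : ℝ) + 5 / 4) := by
        rw [h5]
        exact mul_le_mul_of_nonneg_left (by linarith [h4.2]) d.B0.le
      exact Finset.mem_Icc.2 ⟨Int.floor_mono h6, Int.floor_mono h7⟩
  · -- no parent : the lowest depth
    have hxN : x = -(d.N : ℤ) := by
      by_contra hne
      exact hq (d.rep_mem hf (by omega) (by omega))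
    refine ⟨Icc ⌊(-1 : ℝ)⌋ ⌊(1 : ℝ)⌋, card_Icc_le (by linarith), ?_⟩
    intro ω' hω' _
    have h1 := hs.bd f ω' hω'
    have h2 : d.B ^ ((f : ℕ) : ℤ) ≤ d.B ^ (-x) := d.zp_mono (by omega)
    have h3 : |d.z f x ω'| ≤ 1 := by
      unfold z
      rw [abs_mul, abs_of_pos (d.zp x)]
      have h6 : d.B ^ (-x) * d.B ^ x = 1 := by rw [d.zp_mul]; simp
      have h7 := mul_le_mul_of_nonneg_right (h1.trans h2) (d.zp x).le
      rwa [h6] at h7
    have h4 := abs_le.1 h3
    exact Finset.mem_Icc.2 ⟨Int.floor_mono h4.1, Int.floor_mono h4.2⟩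

/-! ### number of cuts -/

open Classical in
/-- there is a drift cut at the level `a + 1` -/
noncomputable def cu (d : Dt Ω) (a : ℕ) (x : ℤ) : ℝ := if x ≤ d.rho a - 2 ∧ d.rep (a + 1) x = a + 1 then 1 else 0

open Classical in
/-- the drift at the depths known to the ray -/
noncomputable def dm (d : Dt Ω) (a : ℕ) (x : ℤ) : ℝ := if x ≤ d.rho a - 2 then d.dr a x else 0

/-- potential, one step -/
lemma pot_one (a : ℕ) (x : ℤ) : 1 / 8 * d.cu a x + d.acc (a + 1) x ≤ d.acc a x + d.dm a x := by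
  classical
  have h0 := d.acc_nonneg a x
  rcases d.st_succ a x with ⟨h1, h2, h3⟩ | ⟨h1, h2, h3⟩
  · have h4 : d.cu a x = 0 := by
      unfold cu
      rw [if_neg]
      rintro ⟨_, h5⟩
      have := d.rep_le a x
      omega
    have h5 : x ≤ d.rho a - 2 := by
      by_contra hcon
      exact h1 (d.cut_gt (by omega))
    have h6 : d.dm a x = d.dr a x := by
      unfold dm
      rw [if_pos h5]
    rw [h3, h4, h6]
    linarith
  · rw [h3]
    by_cases h5 : x ≤ d.rho a - 2
    · have h4 : d.cu a x = 1 := by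
        unfold cu
        rw [if_pos ⟨h5, h2⟩]
      have h6 : d.dm a x = d.dr a x := by
        unfold dm
        rw [if_pos h5]
      have h7 := h1 x le_rfl h5
      rw [h4, h6]
      linarith
    · have h4 : d.cu a x = 0 := by
        unfold cu
        rw [if_neg (fun h => h5 h.1)]
      have h6 : d.dm a x = 0 := by
        unfold dm
        rw [if_neg h5]
      rw [h4, h6]
      linarith

/-- potential -/
lemma pot (x : ℤ) (n : ℕ) : 1 / 8 * ∑ a ∈ range n, d.cu a x + d.acc n x ≤ ∑ a ∈ range n, d.dm a x := by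
  induction n with
  | zero => simp [d.acc_zero]
  | succ n ih =>
    rw [Finset.sum_range_succ, Finset.sum_range_succ]
    have := d.pot_one n x
    linarith

/-- the drift of one level at all depths -/
lemma dm_sum (a : ℕ) (y : ℤ) (K : ℕ) : ∑ k ∈ range K, d.dm a (y + k) ≤ 1 / 8 := by
  classical
  have key : ∀ K : ℕ, ∑ k ∈ range K, d.dm a (y + k) ≤ d.B ^ (y + K - d.rho a) ∧
      ∑ k ∈ range K, d.dm a (y + k) ≤ d.B ^ (-1 : ℤ) := by
    intro K
    induction K with
    | zero =>
      rw [Finset.sum_range_zero]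
      exact ⟨(d.zp _).le, (d.zp _).le⟩
    | succ K ih =>
      rw [Finset.sum_range_succ]
      have h3 : d.B ^ (y + ((K + 1 : ℕ) : ℤ) - d.rho a) = d.B * d.B ^ (y + (K : ℤ) - d.rho a) := by
        rw [← zpow_one_add₀ d.B0.ne']
        congr 1
        push_cast
        ring
      have h4 := d.zp (y + (K : ℤ) - d.rho a)
      by_cases h5 : y + (K : ℤ) ≤ d.rho a - 2
      · have h6 : d.dm a (y + K) = (d.B - 1) * d.B ^ (y + (K : ℤ) - d.rho a) := by
          unfold dm dr
          rw [if_pos h5]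
        have h7 : ∑ k ∈ range K, d.dm a (y + k) + d.dm a (y + K) ≤
            d.B ^ (y + ((K + 1 : ℕ) : ℤ) - d.rho a) := by
          rw [h3, h6]
          linarith [ih.1]
        refine ⟨h7, h7.trans (d.zp_mono ?_)⟩
        push_cast
        omega
      · have h6 : d.dm a (y + K) = 0 := by
          unfold dm
          rw [if_neg h5]
        rw [h6, add_zero]
        refine ⟨ih.1.trans ?_, ih.2⟩
        rw [h3]
        nlinarith [d.B1]
  refine (key K).2.trans ?_
  rw [zpow_neg_one]
  have h4 : d.B⁻¹ ≤ 8⁻¹ := inv_anti₀ (by norm_num) d.hB8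
  norm_num at h4 ⊢
  exact h4

/-- **the number of drift cuts** at all depths is at most the number of levels -/
theorem cuts_le (y : ℤ) (K n : ℕ) : ∑ k ∈ range K, ∑ a ∈ range n, d.cu a (y + k) ≤ n := by
  have h1 : ∀ k ∈ range K, ∑ a ∈ range n, d.cu a (y + k) ≤ 8 * ∑ a ∈ range n, d.dm a (y + k) := by
    intro k _
    have h2 := pot (d := d) (y + k) n
    have h3 := d.acc_nonneg n (y + k)
    linarith
  refine (Finset.sum_le_sum h1).trans ?_
  rw [← Finset.mul_sum, Finset.sum_comm]
  have h2 : ∑ a ∈ range n, ∑ k ∈ range K, d.dm a (y + k) ≤ ∑ _a ∈ range n, (1 / 8 : ℝ) :=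
    Finset.sum_le_sum fun a _ => dm_sum a y K
  rw [Finset.sum_const, Finset.card_range, nsmul_eq_mul] at h2
  linarith

open Classical in
/-- **the number of cuts along a path** : at depths `x a ≤ rho a - 1 - k` at most twice the number of ends of stretches
plus `8 #V B ^ (-k)` -/
theorem cuts_path (x : ℕ → ℤ) (V : Finset ℕ) {k : ℤ} (hk : 1 ≤ k) (hV : ∀ a ∈ V, x a ≤ d.rho a - 1 - k) :
    ((V.filter fun a => d.rep (a + 1) (x a) = a + 1).card : ℝ) ≤
      2 * ((V.filter fun a => ¬ (a + 1 ∈ V ∧ x (a + 1) = x a)).card : ℝ) + 8 * V.card * d.B ^ (-k) := by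
  -- one step
  have h1 : ∀ a ∈ V, 1 / 8 * (if d.rep (a + 1) (x a) = a + 1 then (1 : ℝ) else 0) + d.acc (a + 1) (x a) ≤
      d.acc a (x a) + d.B ^ (-k) := by
    intro a ha
    have h2 := d.pot_one a (x a)
    have h3 : d.cu a (x a) = if d.rep (a + 1) (x a) = a + 1 then (1 : ℝ) else 0 := by
      unfold cu
      have h4 : x a ≤ d.rho a - 2 := by have := hV a ha; omega
      by_cases h5 : d.rep (a + 1) (x a) = a + 1
      · rw [if_pos ⟨h4, h5⟩, if_pos h5]
      · rw [if_neg (fun h => h5 h.2), if_neg h5]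
    have h4 : d.dm a (x a) ≤ d.B ^ (-k) := by
      unfold dm
      rw [if_pos (by have := hV a ha; omega)]
      have h5 := d.dr_le (a := a) (x := x a) (k := 1 + k) (by have := hV a ha; omega)
      have e : (1 : ℤ) - (1 + k) = -k := by ring
      rwa [e] at h5
    rw [h3] at h2
    linarith
  have h2 := Finset.sum_le_sum h1
  rw [Finset.sum_add_distrib, Finset.sum_add_distrib, ← Finset.mul_sum, Finset.sum_const, nsmul_eq_mul,
    Finset.sum_boole] at h2
  -- good levels
  set g : Finset ℕ := V.filter fun a => a + 1 ∈ V ∧ x (a + 1) = x a with hg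
  set g' : Finset ℕ := g.image fun a => a + 1 with hg'
  have h3 : g' ⊆ V := by
    intro b hb
    rw [hg', Finset.mem_image] at hb
    obtain ⟨a, ha, rfl⟩ := hb
    exact (Finset.mem_filter.1 ha).2.1
  have h4 : g'.card = g.card := Finset.card_image_of_injective _ (add_left_injective 1)
  have h5 : ∑ b ∈ g', d.acc b (x b) = ∑ a ∈ g, d.acc (a + 1) (x a) := by
    rw [hg', Finset.sum_image (fun a _ b _ h => by simpa using h)]
    refine Finset.sum_congr rfl fun a ha => ?_
    rw [(Finset.mem_filter.1 ha).2.2]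
  have h6 : ∑ a ∈ g, d.acc (a + 1) (x a) ≤ ∑ a ∈ V, d.acc (a + 1) (x a) :=
    Finset.sum_le_sum_of_subset_of_nonneg (Finset.filter_subset _ _) fun a _ _ => d.acc_nonneg _ _
  have h7 : ∑ b ∈ V, d.acc b (x b) = ∑ b ∈ g', d.acc b (x b) + ∑ b ∈ V \ g', d.acc b (x b) := by
    rw [add_comm, Finset.sum_sdiff h3]
  have h8 : ∑ b ∈ V \ g', d.acc b (x b) ≤ ((V \ g').card : ℝ) * (1 / 4) := by
    have := Finset.sum_le_card_nsmul (V \ g') (fun b => d.acc b (x b)) (1 / 4) fun b _ => d.acc_le b (x b)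
    rwa [nsmul_eq_mul] at this
  have h9 : (V \ g').card = (V.filter fun a => ¬ (a + 1 ∈ V ∧ x (a + 1) = x a)).card := by
    have e1 : (V \ g').card + g'.card = V.card := Finset.card_sdiff_add_card_eq_card h3
    have e2 := Finset.card_filter_add_card_filter_not (s := V) (fun a => a + 1 ∈ V ∧ x (a + 1) = x a)
    rw [h4] at e1
    rw [← hg] at e2
    omega
  rw [h9] at h8
  rw [h7, h5] at h2
  linarith

/-! ### number of classes -/

/-- **the number of classes** -/
theorem card_ix (d : Dt Ω) : Fintype.card d.Ix ≤ 3 * d.N + d.RI d.N + 1 := by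
  classical
  rw [Fintype.card_coe]
  set K : ℕ := d.N + d.RI d.N + 1 with hK
  set S0 : Finset (ℕ × ℤ) := (Icc (-(d.N : ℤ)) (d.RI 0)).image fun x => (0, x) with hS0
  set S1 : Finset (ℕ × ℤ) := (range d.N).biUnion fun a =>
    (Icc (d.rho a - 1) (d.rho (a + 1))).image fun x => (a + 1, x) with hS1
  set F : Finset (ℕ × ℕ) := (range K ×ˢ range d.N).filter fun p =>
    -(d.N : ℤ) + p.1 ≤ d.rho p.2 - 2 ∧ d.rep (p.2 + 1) (-(d.N : ℤ) + p.1) = p.2 + 1 with hF
  set S2 : Finset (ℕ × ℤ) := F.image fun p => (p.2 + 1, -(d.N : ℤ) + p.1) with hS2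
  have hsub : d.cls ⊆ S0 ∪ (S1 ∪ S2) := by
    rintro ⟨f, x⟩ hp
    obtain ⟨hf, hx, hρ, hr⟩ := d.mem_cls.1 hp
    rw [Finset.mem_union, Finset.mem_union]
    cases f with
    | zero =>
      left
      rw [hS0, Finset.mem_image]
      refine ⟨x, Finset.mem_Icc.2 ⟨hx, ?_⟩, rfl⟩
      have : d.rho 0 = (d.RI 0 : ℤ) - 0 - d.s := rfl
      omega
    | succ a =>
      right
      by_cases h5 : x ≤ d.rho a - 2
      · right
        rw [hS2, Finset.mem_image]
        refine ⟨((x + d.N).toNat, a), ?_, ?_⟩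
        · rw [hF, Finset.mem_filter, Finset.mem_product, Finset.mem_range, Finset.mem_range]
          have e : -(d.N : ℤ) + ((x + d.N).toNat : ℤ) = x := by omega
          refine ⟨⟨?_, by omega⟩, ?_, ?_⟩
          · have h6 : d.RI (a + 1) ≤ d.RI d.N := d.hRI hf
            have h7 : d.rho (a + 1) = (d.RI (a + 1) : ℤ) - (a + 1 : ℕ) - d.s := rfl
            have h8 : ((d.RI (a + 1) : ℕ) : ℤ) ≤ d.RI d.N := by exact_mod_cast h6
            rw [hK]
            simp only
            push_cast at h7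
            omega
          · simp only
            rw [e]; exact h5
          · simp only
            rw [e]; exact hr
        · simp only
          have e : -(d.N : ℤ) + ((x + d.N).toNat : ℤ) = x := by omega
          rw [e]
      · left
        rw [hS1, Finset.mem_biUnion]
        refine ⟨a, Finset.mem_range.2 (by omega), Finset.mem_image.2 ⟨x, ?_, rfl⟩⟩
        exact Finset.mem_Icc.2 ⟨by omega, hρ⟩
  have c0 : S0.card ≤ d.N + d.RI 0 + 1 := by
    refine Finset.card_image_le.trans ?_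
    rw [Int.card_Icc]
    omega
  have c1 : S1.card + d.RI 0 ≤ d.RI d.N + d.N := by
    have h1 : S1.card ≤ ∑ a ∈ range d.N, (d.RI (a + 1) + 1 - d.RI a) := by
      refine Finset.card_biUnion_le.trans (Finset.sum_le_sum fun a _ => ?_)
      refine Finset.card_image_le.trans ?_
      rw [Int.card_Icc]
      have h2 : d.RI a ≤ d.RI (a + 1) := d.hRI (Nat.le_succ a)
      unfold rho
      push_cast
      omega
    have h2 : ∀ n : ℕ, ∑ a ∈ range n, (d.RI (a + 1) + 1 - d.RI a) + d.RI 0 = d.RI n + n := by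
      intro n
      induction n with
      | zero => simp
      | succ n ih =>
        rw [Finset.sum_range_succ]
        have h3 : d.RI n ≤ d.RI (n + 1) := d.hRI (Nat.le_succ n)
        omega
    have := h2 d.N
    omega
  have c2 : S2.card ≤ d.N := by
    refine Finset.card_image_le.trans ?_
    have h1 : (F.card : ℝ) ≤ d.N := by
      have h2 := cuts_le (d := d) (-(d.N : ℤ)) K d.N
      have h3 : (F.card : ℝ) = ∑ k ∈ range K, ∑ a ∈ range d.N, d.cu a (-(d.N : ℤ) + k) := by
        rw [← Finset.sum_product', hF]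
        have e : ∀ p : ℕ × ℕ, d.cu p.2 (-(d.N : ℤ) + p.1) =
            if (-(d.N : ℤ) + p.1 ≤ d.rho p.2 - 2 ∧ d.rep (p.2 + 1) (-(d.N : ℤ) + p.1) = p.2 + 1) then
              (1 : ℝ) else 0 := by
          intro p
          unfold cu
          by_cases h5 : -(d.N : ℤ) + p.1 ≤ d.rho p.2 - 2 ∧ d.rep (p.2 + 1) (-(d.N : ℤ) + p.1) = p.2 + 1
          · rw [if_pos h5]
          · rw [if_neg h5]
        rw [Finset.sum_congr rfl fun p _ => e p, Finset.sum_boole]
      rw [h3]
      exact h2
    exact_mod_cast h1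
  have h1 := Finset.card_le_card hsub
  have h2 := Finset.card_union_le S0 (S1 ∪ S2)
  have h3 := Finset.card_union_le S1 S2
  omega

end Dt

end Vale.Agent.P106.U.H428.Cls
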