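import Vale.Agent.P106.U.H428.Join
import Vale.Agent.P106.U.H513.ExtGeo

/-!
# P106 / U / H428 : [ALPHA] the absolute functional of a label (helper428)

* `Fa h W t` : the functional of the box `W` of level `h` in the coordinates of level `0` (a function of `(W, t_h)`).
* `gk h ρ W t` : its coefficients at the zero ray, rounded to `ρ` digits (no cell of the ray).
* `rel` : the coefficients of two copies which agree at a common ray up to `D 2^-ρ` are in a small finset.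
* `time` : if moreover `2^a ≤ |α|` then `|t - t'| ≤ (c + 2 D + 2) 2^-a`.
* `box` : if `|α| ≤ 2^a` : a label of level `a`, shape `(0, r)`, which is a function of `gk h (r + a) W t`, `t_a` and of the cell of
  the ray of level `a`.
-/

set_option autoImplicit false

namespace Vale.Agent.P106.U.H428

open Vale.Agent.P127 Vale.Agent.P127.Stk Vale.Agent.P127.U Vale.Agent.P106.W Vale.Agent.P106.K
open Vale.Agent.P106.U.H513 (dn dnB tau)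
open Vale.Agent.P122.C2 (fn)

/-- the zero ray -/
def zr : Ry := ⟨0, 0, 0⟩

/-- the absolute functional of `W` -/
noncomputable def Fa (h : ℕ) (W : Cbx) (t : ℝ) : Cbx := dnB h (tau 0 h t) W

/-- rounded coefficients at the zero ray -/
noncomputable def gk (h ρ : ℕ) (W : Cbx) (t : ℝ) : Cf := cf 0 ρ (Fa h W t) zr

theorem Fa_fn {h : ℕ} (W : Cbx) {t t' : ℝ} (e : fl1 h t = fl1 h t') : Fa h W t = Fa h W t' := by
  unfold Fa
  rw [H513.tau_fn 0 h t t' (by rw [Nat.zero_add]; exact e)]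

theorem bl_zero (h : ℕ) (l : Ry) (t : ℝ) : bl 0 l t = dn h (tau 0 h t) (bl h l t) := by
  have := H513.bl_dn 0 h l t
  rwa [Nat.zero_add] at this

/-! ### the functional in the larger block -/

theorem G0_dn (w : ℕ) (τ : ℝ) (B : Cbx) (l : Ry) : G0 (dnB w τ B) (dn w τ l) = G0 B l / 2 ^ w - τ * G1 B l :=
  H513.g0_dn w τ B l

theorem G1_dn (w : ℕ) (τ : ℝ) (B : Cbx) (l : Ry) : G1 (dnB w τ B) (dn w τ l) = G1 B l := H513.g1_dn w τ B l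

theorem nv_dn (w : ℕ) (τ : ℝ) (B : Cbx) (l : Ry) : nv (dnB w τ B) (dn w τ l) = nv B l := H513.nn_dn w τ B l

theorem dn_dn (v w : ℕ) (τ σ : ℝ) (l : Ry) : dn v τ (dn w σ l) = dn (v + w) (τ + σ / 2 ^ v) l := by
  have h1 : (2 : ℝ) ^ v ≠ 0 := by positivity
  have h2 : (2 : ℝ) ^ w ≠ 0 := by positivity
  unfold dn
  simp only [Ry.mk.injEq, true_and]
  refine ⟨?_, ?_⟩
  · funext k
    rw [pow_add]
    field_simp
    ring
  · rw [pow_add]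
    field_simp
    ring

theorem dnB_dnB (v w : ℕ) (τ σ : ℝ) (B : Cbx) : dnB v τ (dnB w σ B) = dnB (v + w) (τ + σ / 2 ^ v) B := by
  have h1 : (2 : ℝ) ^ v ≠ 0 := by positivity
  have h2 : (2 : ℝ) ^ w ≠ 0 := by positivity
  have h3 := dn_dn v w τ σ ⟨B.p, B.v, B.ω⟩
  have e : (⟨(dn w σ ⟨B.p, B.v, B.ω⟩).y, B.v, (dn w σ ⟨B.p, B.v, B.ω⟩).z⟩ : Ry) = dn w σ ⟨B.p, B.v, B.ω⟩ := rfl
  unfold dnB
  simp only [e, h3, Cbx.mk.injEq, true_and, and_true]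
  refine ⟨?_, ?_, ?_, ?_⟩
  · rw [pow_add]; field_simp
  · rw [pow_add]; field_simp
  · rw [pow_add]; field_simp; ring
  · rw [pow_add]; ring

theorem tau_tau (a w : ℕ) (t : ℝ) : tau 0 a t + tau a w t / 2 ^ a = tau 0 (a + w) t := by
  have h1 : (2 : ℝ) ^ a ≠ 0 := by positivity
  unfold tau
  simp only [Nat.zero_add, pow_zero, one_mul]
  field_simp
  ring

/-- the functional in the block of level `a` -/
noncomputable def Fl (a w : ℕ) (W : Cbx) (t : ℝ) : Cbx := dnB w (tau a w t) W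

theorem Fa_Fl (a w : ℕ) (W : Cbx) (t : ℝ) : Fa (a + w) W t = dnB a (tau 0 a t) (Fl a w W t) := by
  unfold Fa Fl
  rw [dnB_dnB, tau_tau]

/-- transfer of closeness from the level `0` to the level `a` -/
theorem cl_up {D τ σ : ℝ} (hD : 0 ≤ D) (h0 : 0 ≤ τ) (h1 : τ ≤ 1) {a r : ℕ} {B B' : Cbx} {m : Ry}
    (h : Cl D 0 (r + a) σ (dnB a τ B) (dnB a τ B') (dn a τ m)) : Cl (3 * D) 0 r σ B B' m := by
  have h2 : (0 : ℝ) < 2 ^ a := by positivity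
  have h21 : (1 : ℝ) ≤ 2 ^ a := one_le_pow₀ (by norm_num)
  have hpw : (1 / 2 : ℝ) ^ (r + a) = (1 / 2 : ℝ) ^ r * (1 / 2 : ℝ) ^ a := pow_add _ _ _
  have hpa := pw_b a
  have hle : (1 / 2 : ℝ) ^ (r + a) ≤ (1 / 2 : ℝ) ^ r := pow_le_pow_of_le_one (by norm_num) (by norm_num) (Nat.le_add_right _ _)
  have hDr : D * (1 / 2 : ℝ) ^ (r + a) ≤ D * (1 / 2 : ℝ) ^ r := mul_le_mul_of_nonneg_left hle hD
  have hD0 : 0 ≤ D * (1 / 2 : ℝ) ^ r := by positivity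
  obtain ⟨hn, hκ, hα, hg0, hg1⟩ := h
  simp only [nv_dn, G0_dn, G1_dn, Nat.mul_zero, pow_zero, one_mul] at hn hκ hα hg0 hg1
  have eα : |B.α - σ * B'.α| ≤ D * (1 / 2 : ℝ) ^ (r + a) * (1 / 2 : ℝ) ^ a := by
    have e : (dnB a τ B).α - σ * (dnB a τ B').α = 2 ^ a * (B.α - σ * B'.α) := by
      simp only [dnB]; ring
    rw [e, abs_mul, abs_of_pos h2] at hα
    calc |B.α - σ * B'.α| = (2 ^ a * |B.α - σ * B'.α|) * (1 / 2 : ℝ) ^ a := by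
          rw [mul_comm ((2 : ℝ) ^ a), mul_assoc, hpa, mul_one]
      _ ≤ _ := mul_le_mul_of_nonneg_right hα (by positivity)
  refine ⟨fun k => ?_, ?_, ?_, ?_, ?_⟩
  · rw [pow_zero, one_mul]
    exact (hn k).trans (by linarith)
  · rw [Nat.mul_zero, pow_zero, one_mul]
    have e : B.κ - σ * B'.κ = ((dnB a τ B).κ - σ * (dnB a τ B').κ) + 2 * τ * (2 ^ a * (B.α - σ * B'.α)) := by
      simp only [dnB]; ring
    rw [e]
    have h3 := abs_add_le ((dnB a τ B).κ - σ * (dnB a τ B').κ) (2 * τ * (2 ^ a * (B.α - σ * B'.α)))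
    have h4 : |2 * τ * (2 ^ a * (B.α - σ * B'.α))| ≤ 2 * (D * (1 / 2 : ℝ) ^ (r + a)) := by
      have e2 : (dnB a τ B).α - σ * (dnB a τ B').α = 2 ^ a * (B.α - σ * B'.α) := by
        simp only [dnB]; ring
      rw [e2] at hα
      rw [abs_mul, abs_mul, abs_two, abs_of_nonneg h0]
      have h5 : τ * |2 ^ a * (B.α - σ * B'.α)| ≤ 1 * (D * (1 / 2 : ℝ) ^ (r + a)) :=
        mul_le_mul h1 hα (abs_nonneg _) zero_le_one
      linarith
    linarith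
  · rw [Nat.mul_zero, pow_zero, one_mul]
    refine eα.trans ?_
    have h3 : (1 / 2 : ℝ) ^ a ≤ 1 := pow_le_one₀ (by norm_num) (by norm_num)
    have h4 : D * (1 / 2 : ℝ) ^ (r + a) * (1 / 2 : ℝ) ^ a ≤ D * (1 / 2 : ℝ) ^ (r + a) * 1 :=
      mul_le_mul_of_nonneg_left h3 (by positivity)
    linarith
  · have e : G0 B m - σ * G0 B' m = 2 ^ a * ((G0 B m / 2 ^ a - τ * G1 B m - σ * (G0 B' m / 2 ^ a - τ * G1 B' m)) +
        τ * (G1 B m - σ * G1 B' m)) := by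
      field_simp
      ring
    rw [e, abs_mul, abs_of_pos h2]
    have h3 := abs_add_le (G0 B m / 2 ^ a - τ * G1 B m - σ * (G0 B' m / 2 ^ a - τ * G1 B' m)) (τ * (G1 B m - σ * G1 B' m))
    have h4 : |τ * (G1 B m - σ * G1 B' m)| ≤ D * (1 / 2 : ℝ) ^ (r + a) := by
      rw [abs_mul, abs_of_nonneg h0]
      have := mul_le_mul h1 hg1 (abs_nonneg _) zero_le_one
      linarith
    have h5 : 2 ^ a * (2 * (D * (1 / 2 : ℝ) ^ (r + a))) = 2 * D * (1 / 2 : ℝ) ^ r * (2 ^ a * (1 / 2 : ℝ) ^ a) := by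
      rw [hpw]; ring
    rw [hpa, mul_one] at h5
    have h6 := mul_le_mul_of_nonneg_left (h3.trans (by linarith : _ ≤ 2 * (D * (1 / 2 : ℝ) ^ (r + a)))) h2.le
    linarith
  · exact hg1.trans (by linarith)

/-- bounds of the functional in the larger block -/
theorem g_dn_le {c ρ τ : ℝ} (h0 : 0 ≤ τ) (h1 : τ ≤ 1) {w : ℕ} {B : Cbx} {l : Ry} (hg0 : |G0 B l| ≤ c * ρ)
    (hg1 : |G1 B l| ≤ c * ρ) :
    |G0 (dnB w τ B) (dn w τ l)| ≤ 2 * c * ρ ∧ |G1 (dnB w τ B) (dn w τ l)| ≤ c * ρ := by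
  have h21 : (1 : ℝ) ≤ 2 ^ w := one_le_pow₀ (by norm_num)
  rw [G0_dn, G1_dn]
  refine ⟨?_, hg1⟩
  have h3 := abs_sub (G0 B l / 2 ^ w) (τ * G1 B l)
  have h4 : |G0 B l / 2 ^ w| ≤ c * ρ := by
    rw [abs_div, abs_of_pos (by positivity : (0 : ℝ) < 2 ^ w)]
    exact (div_le_self (abs_nonneg _) h21).trans hg0
  have h5 : |τ * G1 B l| ≤ c * ρ := by
    rw [abs_mul, abs_of_nonneg h0]
    exact (mul_le_of_le_one_left (abs_nonneg _) h1).trans hg1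
  linarith

/-- the ray of level `0` is near the zero ray -/
theorem nr_zr {l : Ry} {t : ℝ} (hl : RyOk l) (ht0 : 0 ≤ t) (ht1 : t ≤ 1) : Nr 5 0 zr (bl 0 l t) ∧ Nr 9 0 (bl 0 l t) zr := by
  obtain ⟨hy, hs, hz⟩ := hl
  have hq0 : 0 ≤ qa 0 t := by
    unfold qa fl1
    simp only [pow_zero, one_mul, div_one]
    exact_mod_cast Int.floor_nonneg.2 ht0
  have hq1 : qa 0 t ≤ 1 := by
    unfold qa fl1
    simp only [pow_zero, one_mul, div_one]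
    have := Int.floor_le t
    linarith
  set τ := qa 0 t
  have hyk : ∀ k, |(bl 0 l t).y k| ≤ 2 := fun k => by
    show |(2 : ℝ) ^ 0 * (l.y k + τ * l.s k)| ≤ 2
    rw [pow_zero, one_mul]
    have h1 := abs_add_le (l.y k) (τ * l.s k)
    have h2 : |τ * l.s k| ≤ 1 := by
      rw [abs_mul, abs_of_nonneg hq0]
      have := mul_le_mul hq1 (hs k) (abs_nonneg _) zero_le_one
      linarith
    linarith [hy k]
  have hsk : ∀ k, |(bl 0 l t).s k| ≤ 1 := hs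
  have hss : |∑ k, l.s k ^ 2| ≤ 2 := by
    rw [Fin.sum_univ_two, abs_of_nonneg (by positivity)]
    have h1 := (sq_le_one_iff_abs_le_one _).2 (hs 0)
    have h2 := (sq_le_one_iff_abs_le_one _).2 (hs 1)
    linarith
  have hzz : |(bl 0 l t).z| ≤ 5 := by
    show |(2 : ℝ) ^ 0 * (l.z - τ * (∑ k, l.s k ^ 2) / 2)| ≤ 5
    rw [pow_zero, one_mul]
    have h1 := abs_sub l.z (τ * (∑ k, l.s k ^ 2) / 2)
    have h2 : |τ * (∑ k, l.s k ^ 2) / 2| ≤ 1 := by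
      rw [abs_div, abs_two, abs_mul, abs_of_nonneg hq0]
      have := mul_le_mul hq1 hss (abs_nonneg _) zero_le_one
      linarith
    linarith
  refine ⟨⟨fun k => ?_, fun k => ?_, ?_⟩, ⟨fun k => ?_, fun k => ?_, ?_⟩⟩
  · show |(0 : ℝ) - (bl 0 l t).y k| ≤ _
    rw [zero_sub, abs_neg, pow_zero, mul_one]
    linarith [hyk k]
  · show |(0 : ℝ) - (bl 0 l t).s k| ≤ _
    rw [zero_sub, abs_neg, pow_zero, mul_one]
    linarith [hsk k]
  · have e : ze zr (bl 0 l t) = -(bl 0 l t).z := by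
      simp [ze, zr]
    rw [e, abs_neg, Nat.mul_zero, pow_zero, mul_one]
    exact hzz
  · show |(bl 0 l t).y k - (0 : ℝ)| ≤ _
    rw [sub_zero, pow_zero, mul_one]
    linarith [hyk k]
  · show |(bl 0 l t).s k - (0 : ℝ)| ≤ _
    rw [sub_zero, pow_zero, mul_one]
    linarith [hsk k]
  · have e : ze (bl 0 l t) zr = (bl 0 l t).z + ((bl 0 l t).y 0 * (bl 0 l t).s 0 + (bl 0 l t).y 1 * (bl 0 l t).s 1) := by
      simp [ze, zr, Fin.sum_univ_two]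
    rw [e, Nat.mul_zero, pow_zero, mul_one]
    have h1 := abs_add_le (bl 0 l t).z ((bl 0 l t).y 0 * (bl 0 l t).s 0 + (bl 0 l t).y 1 * (bl 0 l t).s 1)
    have h2 := abs_add_le ((bl 0 l t).y 0 * (bl 0 l t).s 0) ((bl 0 l t).y 1 * (bl 0 l t).s 1)
    have h3 : ∀ k, |(bl 0 l t).y k * (bl 0 l t).s k| ≤ 2 := fun k => by
      rw [abs_mul]
      have := mul_le_mul (hyk k) (hsk k) (abs_nonneg _) (by norm_num : (0:ℝ) ≤ 2)
      linarith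
    linarith [h3 0, h3 1]

/-! ### two copies -/

/-- label of level `h`, shape `(0, q)` -/
structure W0 (c : ℝ) (h q : ℕ) (W : Cbx) (l : Ry) (t : ℝ) : Prop where
  ok : RyOk l
  t0 : 0 ≤ t
  t1 : t ≤ 1
  u2 : W.u2 = 1
  u1 : W.u1 = (1 / 2 : ℝ) ^ q
  α : |W.α| ≤ c
  κ : |W.κ| ≤ c
  inn : Bin c W 0 (bl h l t)

theorem W0.of {c : ℝ} {L h q : ℕ} {W : Cbx} {l : Ry} {t : ℝ} (hl : RyOk l) (h0 : 0 ≤ t) (h1 : t ≤ 1)
    (hb : LbOk c L h W l t) (h2 : W.u2 = 1) (h3 : W.u1 = (1 / 2 : ℝ) ^ q) : W0 c h q W l t := by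
  refine ⟨hl, h0, h1, h2, h3, ?_, ?_, hb.inn⟩
  · have := hb.α2
    rwa [h2, mul_one] at this
  · have := hb.κ2
    rwa [h2, mul_one] at this

theorem W0.g {c : ℝ} {h q : ℕ} {W : Cbx} {l : Ry} {t : ℝ} (H : W0 c h q W l t) :
    |G0 W (bl h l t)| ≤ c * (1 / 2 : ℝ) ^ q ∧ |G1 W (bl h l t)| ≤ c * (1 / 2 : ℝ) ^ q := by
  obtain ⟨-, -, -, h4, h5⟩ := H.inn
  rw [H.u1] at h4 h5
  exact ⟨h4, h5⟩

theorem W0.ga {c : ℝ} {h q : ℕ} {W : Cbx} {l : Ry} {t : ℝ} (H : W0 c h q W l t) :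
    |G0 (Fa h W t) (bl 0 l t)| ≤ 2 * c * (1 / 2 : ℝ) ^ q ∧ |G1 (Fa h W t) (bl 0 l t)| ≤ c * (1 / 2 : ℝ) ^ q := by
  rw [bl_zero h l t]
  exact g_dn_le (H513.tau_nonneg 0 h t) (H513.tau_le 0 h t) H.g.1 H.g.2

/-- the absolute functionals agree at the ray `m` up to `δ` and a sign -/
def Ag (δ : ℝ) (F F' : Cbx) (m : Ry) (σ : ℝ) : Prop :=
  (∀ k, |nv F m k - σ * nv F' m k| ≤ δ) ∧ |F.κ - σ * F'.κ| ≤ δ ∧ |F.α - σ * F'.α| ≤ δ

theorem ag_cl {c D σ : ℝ} (hc : 1 ≤ c) (hσ : σ = 1 ∨ σ = -1) {h q q' ρ : ℕ} (hq : ρ ≤ q) (hq' : ρ ≤ q') {W W' : Cbx} {l : Ry}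
    {t t' : ℝ} (H : W0 c h q W l t) (H' : W0 c h q' W' l t') (ht : fl1 0 t = fl1 0 t')
    (hA : Ag (D * (1 / 2 : ℝ) ^ ρ) (Fa h W t) (Fa h W' t') (bl 0 l t) σ) :
    Cl (D + 4 * c) 0 ρ σ (Fa h W t) (Fa h W' t') (bl 0 l t) := by
  have ebl : bl 0 l t = bl 0 l t' := by
    have : qa 0 t = qa 0 t' := by unfold qa; rw [ht]
    unfold bl
    rw [this]
  have hp0 : (0 : ℝ) < (1 / 2 : ℝ) ^ ρ := by positivity
  have hpq : (1 / 2 : ℝ) ^ q ≤ (1 / 2 : ℝ) ^ ρ := pow_le_pow_of_le_one (by norm_num) (by norm_num) hq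
  have hpq' : (1 / 2 : ℝ) ^ q' ≤ (1 / 2 : ℝ) ^ ρ := pow_le_pow_of_le_one (by norm_num) (by norm_num) hq'
  have hc0 : 0 < c := by linarith
  have s1 : ∀ x : ℝ, |σ * x| = |x| := fun x => by
    rcases hσ with rfl | rfl
    · rw [one_mul]
    · rw [neg_one_mul, abs_neg]
  obtain ⟨h1, h2, h3⟩ := hA
  have hDD : D * (1 / 2 : ℝ) ^ ρ ≤ (D + 4 * c) * (1 / 2 : ℝ) ^ ρ := by nlinarith
  have hD0 : 0 ≤ D * (1 / 2 : ℝ) ^ ρ := (abs_nonneg _).trans h2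
  have g := H.ga
  have g' := H'.ga
  rw [← ebl] at g'
  have m1 : c * (1 / 2 : ℝ) ^ q ≤ c * (1 / 2 : ℝ) ^ ρ := mul_le_mul_of_nonneg_left hpq hc0.le
  have m2 : c * (1 / 2 : ℝ) ^ q' ≤ c * (1 / 2 : ℝ) ^ ρ := mul_le_mul_of_nonneg_left hpq' hc0.le
  refine ⟨fun k => ?_, ?_, ?_, ?_, ?_⟩
  · rw [pow_zero, one_mul]
    exact (h1 k).trans hDD
  · rw [Nat.mul_zero, pow_zero, one_mul]
    exact h2.trans hDD
  · rw [Nat.mul_zero, pow_zero, one_mul]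
    exact h3.trans hDD
  · have := abs_sub (G0 (Fa h W t) (bl 0 l t)) (σ * G0 (Fa h W' t') (bl 0 l t))
    rw [s1] at this
    linarith [g.1, g'.1]
  · have := abs_sub (G1 (Fa h W t) (bl 0 l t)) (σ * G1 (Fa h W' t') (bl 0 l t))
    rw [s1] at this
    have h5 : 0 ≤ c * (1 / 2 : ℝ) ^ ρ := by positivity
    linarith [g.2, g'.2]

/-- **REL** -/
theorem rel (c D : ℝ) (hc : 1 ≤ c) (hD : 0 ≤ D) : ∃ N : ℕ, ∀ (h ρ : ℕ) (W' : Cbx) (t' : ℝ), ∃ S : Finset Cf, S.card ≤ N ∧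
    ∀ (q q' : ℕ) (W : Cbx) (l : Ry) (t σ : ℝ), ρ ≤ q → ρ ≤ q' → W0 c h q W l t → W0 c h q' W' l t' → fl1 0 t = fl1 0 t' →
      (σ = 1 ∨ σ = -1) → Ag (D * (1 / 2 : ℝ) ^ ρ) (Fa h W t) (Fa h W' t') (bl 0 l t) σ → gk h ρ W t ∈ S := by
  classical
  obtain ⟨M, hM⟩ := cf_mem ((D + 4 * c) * (1 + 4 * 5 + 5 * 5 ^ 2))
  refine ⟨M + M, fun h ρ W' t' => ?_⟩
  obtain ⟨S1, hS1, h1⟩ := hM 0 ρ (Nat.zero_le _) (Fa h W' t') zr 1
  obtain ⟨S2, hS2, h2⟩ := hM 0 ρ (Nat.zero_le _) (Fa h W' t') zr (-1)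
  refine ⟨S1 ∪ S2, (Finset.card_union_le _ _).trans (add_le_add hS1 hS2), ?_⟩
  intro q q' W l t σ hq hq' H H' ht hσ hA
  have h3 := (ag_cl hc hσ hq hq' H H' ht hA).move (by positivity) (by norm_num) (nr_zr H.ok H.t0 H.t1).1
  rcases hσ with rfl | rfl
  · exact Finset.mem_union_left _ (h1 _ h3)
  · exact Finset.mem_union_right _ (h2 _ h3)

/-- **TIME** -/
theorem time {c D σ : ℝ} (hD : 0 ≤ D) (hσ : σ = 1 ∨ σ = -1) {h a q q' : ℕ} (ha : a ≤ h) {W W' : Cbx} {l : Ry}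
    {t t' : ℝ} (H : W0 c h q W l t) (H' : W0 c h q' W' l t') (ht : fl1 0 t = fl1 0 t')
    (hA : Ag D (Fa h W t) (Fa h W' t') (bl 0 l t) σ) (hα : (2 : ℝ) ^ a ≤ |(Fa h W' t').α|) :
    |t - t'| ≤ (c + 2 * D + 2) * (1 / 2 : ℝ) ^ a := by
  obtain ⟨-, hκ, hαα⟩ := hA
  set τ := tau 0 h t with hτ
  set τ' := tau 0 h t' with hτ'
  have e1 : (Fa h W t).κ = W.κ - 2 * τ * (Fa h W t).α := by
    simp only [Fa, dnB]; ring
  have e2 : (Fa h W' t').κ = W'.κ - 2 * τ' * (Fa h W' t').α := by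
    simp only [Fa, dnB]; ring
  set A := (Fa h W t).α
  set A' := (Fa h W' t').α
  have t0 := H513.tau_nonneg 0 h t
  have t1 := H513.tau_le 0 h t
  have s1 : ∀ x : ℝ, |σ * x| = |x| := fun x => by
    rcases hσ with rfl | rfl
    · rw [one_mul]
    · rw [neg_one_mul, abs_neg]
  have key : 2 * ((τ - τ') * (σ * A')) = (W.κ - σ * W'.κ) - ((Fa h W t).κ - σ * (Fa h W' t').κ) - 2 * (τ * (A - σ * A')) := by
    rw [e1, e2]; ring
  have b1 : |W.κ - σ * W'.κ| ≤ 2 * c := by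
    have := abs_sub W.κ (σ * W'.κ)
    rw [s1] at this
    linarith [H.κ, H'.κ]
  have b2 : |τ * (A - σ * A')| ≤ D := by
    rw [abs_mul, abs_of_nonneg t0]
    exact (mul_le_of_le_one_left (abs_nonneg _) t1).trans hαα
  have b3 : 2 * (|τ - τ'| * |A'|) ≤ 2 * c + 3 * D := by
    have h1 : 2 * (|τ - τ'| * |A'|) = |2 * ((τ - τ') * (σ * A'))| := by
      rw [abs_mul, abs_mul, abs_two, s1]
    rw [h1, key]
    have h2 := abs_sub ((W.κ - σ * W'.κ) - ((Fa h W t).κ - σ * (Fa h W' t').κ)) (2 * (τ * (A - σ * A')))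
    have h3 := abs_sub (W.κ - σ * W'.κ) ((Fa h W t).κ - σ * (Fa h W' t').κ)
    rw [abs_mul, abs_two] at h2
    linarith
  have b4 : |τ - τ'| * 2 ^ a ≤ |τ - τ'| * |A'| := mul_le_mul_of_nonneg_left hα (abs_nonneg _)
  have h2a : (0 : ℝ) < 2 ^ a := by positivity
  have b5 : |τ - τ'| ≤ (c + 2 * D) * (1 / 2 : ℝ) ^ a := by
    have h5 : |τ - τ'| = (|τ - τ'| * 2 ^ a) * (1 / 2 : ℝ) ^ a := by rw [mul_assoc, pw_b, mul_one]
    rw [h5]
    exact mul_le_mul_of_nonneg_right (by linarith) (by positivity)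
  -- from tau to t
  have c1 : ∀ x : ℝ, |x - qa h x| ≤ (1 / 2 : ℝ) ^ a := fun x => by
    have h6 : |x - qa h x| ≤ (1 / 2 : ℝ) ^ h := fl1_near h x
    exact h6.trans (pow_le_pow_of_le_one (by norm_num) (by norm_num) ha)
  have e3 : t - t' = (τ - τ') + (t - qa h t) - (t' - qa h t') := by
    have : qa 0 t = qa 0 t' := by unfold qa; rw [ht]
    rw [hτ, hτ']
    unfold tau
    rw [Nat.zero_add, this]
    simp only [pow_zero, one_mul]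
    ring
  rw [e3]
  have h7 := abs_sub ((τ - τ') + (t - qa h t)) (t' - qa h t')
  have h8 := abs_add_le (τ - τ') (t - qa h t)
  have e4 : (c + 2 * D + 2) * (1 / 2 : ℝ) ^ a = (c + 2 * D) * (1 / 2 : ℝ) ^ a + (1 / 2 : ℝ) ^ a + (1 / 2 : ℝ) ^ a := by ring
  rw [e4]
  linarith [c1 t, c1 t']

/-! ### the label of level `a` -/

/-- the normal at a ray -/
theorem nv_angle {B : Cbx} {m : Ry} (h : 1 / 4 ≤ 1 + 2 * B.κ * G1 B m - 4 * B.α * G0 B m) :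
    ∃ L θ' : ℝ, 1 / 2 ≤ L ∧ nv B m 0 = -(L * Real.sin θ') ∧ nv B m 1 = L * Real.cos θ' := by
  have hs := nv_sq B m
  set X := nv B m 0 ^ 2 + nv B m 1 ^ 2 with hX
  have hX1 : 1 / 4 ≤ X := by rw [hs]; exact h
  have hX0 : 0 < X := by linarith
  have hL0 : 0 < Real.sqrt X := Real.sqrt_pos.2 hX0
  have hLs : Real.sqrt X ^ 2 = X := Real.sq_sqrt hX0.le
  have hL : 1 / 2 ≤ Real.sqrt X := Real.le_sqrt_of_sq_le (by norm_num; linarith)
  obtain ⟨θ', hc', hs'⟩ := exists_angle (x := nv B m 1 / Real.sqrt X) (y := -(nv B m 0) / Real.sqrt X) (by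
    rw [div_pow, div_pow, hLs, ← add_div, div_eq_one_iff_eq hX0.ne', hX]; ring)
  refine ⟨Real.sqrt X, θ', hL, ?_, ?_⟩
  · rw [hs']; field_simp
  · rw [hc']; field_simp

/-- the recentred functional -/
theorem rcn {B : Cbx} {m' : Ry} {L θ' u1 u2 : ℝ} (hL : L ≠ 0) (n0 : nv B m' 0 = -(L * Real.sin θ'))
    (n1 : nv B m' 1 = L * Real.cos θ') (m : Ry) :
    G0 ⟨θ', u1, u2, B.κ / L, B.α / L, m'.y, m'.s, m'.z⟩ m = (G0 B m - G0 B m') / L ∧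
    G1 ⟨θ', u1, u2, B.κ / L, B.α / L, m'.y, m'.s, m'.z⟩ m = (G1 B m - G1 B m') / L := by
  constructor
  · rw [G0_eq B m m', eq_div_iff hL]
    simp only [G0, Cbx.g0, ze, Fin.sum_univ_two, n0, n1, fn, Pi.sub_apply]
    field_simp
    ring
  · rw [G1_eq B m m', eq_div_iff hL]
    simp only [G1, Cbx.g1, ze, Fin.sum_univ_two, n0, n1, fn, Pi.sub_apply]
    field_simp
    ring

/-- the class of the new labels -/
noncomputable def cA (c A : ℝ) : ℝ := 2 * (c + 2) + 4 * A + 100 * (16 * c ^ 2 + 48 * c) + 6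

/-- **one label** centred at the ray `m'` -/
theorem mkLab {c A : ℝ} (hc : 1 ≤ c) (hA : 2 * c ≤ A) {r : ℕ} {B : Cbx} {m' : Ry} (hκ : |B.κ| ≤ c + 2) (hα : |B.α| ≤ 1)
    (h0 : |G0 B m'| ≤ 2 * c * (1 / 2 : ℝ) ^ r) (h1 : |G1 B m'| ≤ 2 * c * (1 / 2 : ℝ) ^ r) :
    ∃ Lb : Cbx, Lb.u2 = 1 ∧ Lb.u1 = (1 / 2 : ℝ) ^ r ∧ |Lb.α| * Lb.u2 ≤ cA c A ∧ |Lb.κ| * Lb.u2 ≤ cA c A ∧
      ∀ m : Ry, Nr 6 0 m m' → |G0 B m| ≤ A * (1 / 2 : ℝ) ^ r → |G1 B m| ≤ A * (1 / 2 : ℝ) ^ r → Bin (cA c A) Lb 0 m := by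
  have hr0 : (0 : ℝ) < (1 / 2 : ℝ) ^ r := by positivity
  have hc0 : 0 < c := by linarith
  have hA0 : 0 < A := by linarith
  have hq : 0 ≤ 16 * c ^ 2 + 48 * c := by positivity
  have hcA6 : 6 ≤ cA c A := by unfold cA; linarith
  have hnr : ∀ m : Ry, Nr 6 0 m m' → (∀ k, |m.y k - m'.y k| ≤ cA c A * 1) ∧ (∀ k, |m.s k - m'.s k| ≤ cA c A * 1) ∧
      |m.z + ∑ k, m.y k * (m.s k - m'.s k) - m'.z| ≤ cA c A * max ((1 : ℝ) ^ 2) 0 := by
    intro m hm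
    obtain ⟨a1, a2, a3⟩ := hm
    simp only [Nat.mul_zero, pow_zero, mul_one] at a1 a2 a3
    refine ⟨fun k => by rw [mul_one]; exact (a1 k).trans hcA6, fun k => by rw [mul_one]; exact (a2 k).trans hcA6, ?_⟩
    rw [one_pow, max_eq_left zero_le_one, mul_one]
    exact a3.trans hcA6
  by_cases hcase : (16 * c ^ 2 + 48 * c) * (1 / 2 : ℝ) ^ r ≤ 3 / 4
  · have b1 : |B.κ * G1 B m'| ≤ (c + 2) * (2 * c * (1 / 2 : ℝ) ^ r) := by
      rw [abs_mul]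
      exact mul_le_mul hκ h1 (abs_nonneg _) (by linarith)
    have b2 : |B.α * G0 B m'| ≤ 1 * (2 * c * (1 / 2 : ℝ) ^ r) := by
      rw [abs_mul]
      exact mul_le_mul hα h0 (abs_nonneg _) zero_le_one
    obtain ⟨L, θ', hL, n0, n1⟩ := nv_angle (B := B) (m := m') (by
      have a1 := abs_le.1 b1
      have a2 := abs_le.1 b2
      have e1 : 2 * B.κ * G1 B m' = 2 * (B.κ * G1 B m') := by ring
      have e2 : 4 * B.α * G0 B m' = 4 * (B.α * G0 B m') := by ring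
      rw [e1, e2]
      have e3 : (16 * c ^ 2 + 48 * c) * (1 / 2 : ℝ) ^ r = 4 * (2 * ((c + 2) * (2 * c * (1 / 2 : ℝ) ^ r))) +
        4 * (2 * c * (1 / 2 : ℝ) ^ r) * 2 := by ring
      have e4 : 0 ≤ (c + 2) * (2 * c * (1 / 2 : ℝ) ^ r) := by positivity
      have e5 : 0 ≤ 2 * c * (1 / 2 : ℝ) ^ r := by positivity
      linarith [a1.1, a2.2])
    have hL0 : 0 < L := by linarith
    refine ⟨⟨θ', (1 / 2 : ℝ) ^ r, 1, B.κ / L, B.α / L, m'.y, m'.s, m'.z⟩, rfl, rfl, ?_, ?_, fun m hm g0 g1 => ?_⟩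
    · show |B.α / L| * 1 ≤ _
      rw [mul_one, abs_div, abs_of_pos hL0, div_le_iff₀ hL0]
      have : 2 * (1 / 2) ≤ cA c A * L := mul_le_mul (by linarith) hL (by norm_num) (by linarith)
      linarith
    · show |B.κ / L| * 1 ≤ _
      rw [mul_one, abs_div, abs_of_pos hL0, div_le_iff₀ hL0]
      have : (2 * (c + 2)) * (1 / 2) ≤ cA c A * L :=
        mul_le_mul (by unfold cA; linarith) hL (by norm_num) (by linarith)
      linarith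
    · obtain ⟨f0, f1⟩ := rcn (u1 := (1 / 2 : ℝ) ^ r) (u2 := 1) hL0.ne' n0 n1 m
      obtain ⟨c1, c2, c3⟩ := hnr m hm
      have hfin : ∀ x y : ℝ, |x| ≤ A * (1 / 2 : ℝ) ^ r → |y| ≤ 2 * c * (1 / 2 : ℝ) ^ r →
          |(x - y) / L| ≤ cA c A * (1 / 2 : ℝ) ^ r := by
        intro x y hx hy
        rw [abs_div, abs_of_pos hL0, div_le_iff₀ hL0]
        have h3 := abs_sub x y
        have h4 : (4 * A * (1 / 2 : ℝ) ^ r) * (1 / 2) ≤ (cA c A * (1 / 2 : ℝ) ^ r) * L :=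
          mul_le_mul (mul_le_mul_of_nonneg_right (by unfold cA; linarith) hr0.le) hL (by norm_num) (by positivity)
        have h5 : 2 * c * (1 / 2 : ℝ) ^ r ≤ A * (1 / 2 : ℝ) ^ r := mul_le_mul_of_nonneg_right hA hr0.le
        linarith
      refine ⟨c1, c2, c3, ?_, ?_⟩
      · show |G0 _ m| ≤ _
        rw [f0]
        exact hfin _ _ g0 h0
      · show |G1 _ m| ≤ _
        rw [f1]
        exact hfin _ _ g1 h1
  · push Not at hcase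
    refine ⟨⟨0, (1 / 2 : ℝ) ^ r, 1, 0, 0, m'.y, m'.s, m'.z⟩, rfl, rfl, ?_, ?_, fun m hm g0 g1 => ?_⟩
    · show |(0 : ℝ)| * 1 ≤ _
      rw [abs_zero, zero_mul]
      linarith
    · show |(0 : ℝ)| * 1 ≤ _
      rw [abs_zero, zero_mul]
      linarith
    · obtain ⟨c1, c2, c3⟩ := hnr m hm
      have h6 : 6 ≤ cA c A * (1 / 2 : ℝ) ^ r := by
        have : 100 * (16 * c ^ 2 + 48 * c) * (1 / 2 : ℝ) ^ r ≤ cA c A * (1 / 2 : ℝ) ^ r :=
          mul_le_mul_of_nonneg_right (by unfold cA; linarith) hr0.le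
        linarith
      obtain ⟨a1, a2, -⟩ := hm
      simp only [pow_zero, mul_one] at a1 a2
      refine ⟨c1, c2, c3, ?_, ?_⟩
      · show |fn 0 (m.y - m'.y) + 0 * (m.z + ∑ k, m.y k * (m.s k - m'.s k) - m'.z) - 0 * ∑ k, (m.y k - m'.y k) ^ 2| ≤ _
        have e : fn 0 (m.y - m'.y) + 0 * (m.z + ∑ k, m.y k * (m.s k - m'.s k) - m'.z) - 0 * ∑ k, (m.y k - m'.y k) ^ 2 =
            m.y 1 - m'.y 1 := by
          simp [fn]
        rw [e]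
        exact (a1 1).trans h6
      · show |fn 0 (m.s - m'.s) + 0 * (∑ k, (m.s k - m'.s k) ^ 2) / 2 +
            2 * 0 * (m.z + ∑ k, m'.y k * (m.s k - m'.s k) - m'.z)| ≤ _
        have e : fn 0 (m.s - m'.s) + 0 * (∑ k, (m.s k - m'.s k) ^ 2) / 2 +
            2 * 0 * (m.z + ∑ k, m'.y k * (m.s k - m'.s k) - m'.z) = m.s 1 - m'.s 1 := by
          simp [fn]
        rw [e]
        exact (a2 1).trans h6

/-- the functional of level `a` of the label -/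
structure Lv (c : ℝ) (a w r : ℕ) (W : Cbx) (l : Ry) (t : ℝ) : Prop where
  κ : |(Fl a w W t).κ| ≤ c + 2
  α : |(Fl a w W t).α| ≤ 1
  g0 : |G0 (Fl a w W t) (bl a l t)| ≤ 2 * c * (1 / 2 : ℝ) ^ r
  g1 : |G1 (Fl a w W t) (bl a l t)| ≤ 2 * c * (1 / 2 : ℝ) ^ r

theorem lv_of {c : ℝ} (hc : 1 ≤ c) {a w r q : ℕ} (hr : r ≤ q) {W : Cbx} {l : Ry} {t : ℝ} (H : W0 c (a + w) q W l t)
    (hα : |(Fa (a + w) W t).α| ≤ 2 ^ a) : Lv c a w r W l t := by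
  have h2 : (0 : ℝ) < 2 ^ a := by positivity
  have hc0 : 0 < c := by linarith
  have hα1 : |2 ^ w * W.α| ≤ 1 := by
    have e : (Fa (a + w) W t).α = 2 ^ a * (2 ^ w * W.α) := by
      simp only [Fa, dnB, pow_add]; ring
    rw [e, abs_mul, abs_of_pos h2] at hα
    by_contra hcon
    push Not at hcon
    nlinarith
  have t0 := H513.tau_nonneg a w t
  have t1 := H513.tau_le a w t
  have hqr : (1 / 2 : ℝ) ^ q ≤ (1 / 2 : ℝ) ^ r := pow_le_pow_of_le_one (by norm_num) (by norm_num) hr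
  have hg := g_dn_le (w := w) t0 t1 H.g.1 H.g.2
  rw [← H513.bl_dn a w l t] at hg
  have m1 : 2 * c * (1 / 2 : ℝ) ^ q ≤ 2 * c * (1 / 2 : ℝ) ^ r := mul_le_mul_of_nonneg_left hqr (by positivity)
  have m2 : 0 ≤ c * (1 / 2 : ℝ) ^ q := by positivity
  refine ⟨?_, hα1, hg.1.trans m1, hg.2.trans (by linarith)⟩
  have e : (Fl a w W t).κ = W.κ - 2 * (tau a w t * (2 ^ w * W.α)) := by
    simp only [Fl, dnB]; ring
  rw [e]
  have h3 := abs_sub W.κ (2 * (tau a w t * (2 ^ w * W.α)))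
  have h4 : |2 * (tau a w t * (2 ^ w * W.α))| ≤ 2 := by
    rw [abs_mul, abs_two, abs_mul, abs_of_nonneg t0]
    have := mul_le_mul t1 hα1 (abs_nonneg _) zero_le_one
    linarith
  linarith [H.κ]

/-- **BOX** -/
theorem box (c : ℝ) (hc : 1 ≤ c) : ∃ c' : ℝ, 1 ≤ c' ∧ ∀ a w r : ℕ, ∃ S : Cf × ℤ × Cell → Cbx,
    ∀ (L q : ℕ) (W : Cbx) (l : Ry) (t : ℝ), W0 c (a + w) q W l t → r ≤ q → a + r ≤ L → |(Fa (a + w) W t).α| ≤ 2 ^ a →
      LbOk c' L a (S (gk (a + w) (r + a) W t, fl1 a t, pl 0 (bl a l t))) l t ∧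
      (S (gk (a + w) (r + a) W t, fl1 a t, pl 0 (bl a l t))).u2 = 1 ∧
      (S (gk (a + w) (r + a) W t, fl1 a t, pl 0 (bl a l t))).u1 = (1 / 2 : ℝ) ^ r := by
  classical
  have hc0 : 0 < c := by linarith
  set A : ℝ := 2 * c + 3 * (1 * (1 + 4 * 9 + 5 * 9 ^ 2)) with hAdef
  have hA : 2 * c ≤ A := by linarith
  refine ⟨cA c A, by unfold cA; nlinarith, fun a w r => ?_⟩
  let Hx : Cbx × Ry × ℝ → Prop := fun x => ∃ q, r ≤ q ∧ W0 c (a + w) q x.1 x.2.1 x.2.2 ∧ |(Fa (a + w) x.1 x.2.2).α| ≤ 2 ^ a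
  let kx : Cbx × Ry × ℝ → Cf × ℤ × Cell := fun x =>
    (gk (a + w) (r + a) x.1 x.2.2, fl1 a x.2.2, pl 0 (bl a x.2.1 x.2.2))
  have hex : ∀ k : Cf × ℤ × Cell, ∃ Lb : Cbx, ∀ x, Hx x → kx x = k → Lb.u2 = 1 ∧ Lb.u1 = (1 / 2 : ℝ) ^ r ∧
      |Lb.α| * Lb.u2 ≤ cA c A ∧ |Lb.κ| * Lb.u2 ≤ cA c A ∧ Bin (cA c A) Lb 0 (bl a x.2.1 x.2.2) := by
    intro k
    by_cases hk : ∃ x, Hx x ∧ kx x = k
    · obtain ⟨x', ⟨q', hq', H', hα'⟩, hk'⟩ := hk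
      have V' := lv_of hc hq' H' hα'
      obtain ⟨Lb, l1, l2, l3, l4, l5⟩ := mkLab hc hA V'.κ V'.α V'.g0 V'.g1
      refine ⟨Lb, fun x hx hkx => ⟨l1, l2, l3, l4, ?_⟩⟩
      obtain ⟨q, hq, H, hα⟩ := hx
      have V := lv_of hc hq H hα
      have hkk : kx x = kx x' := hkx.trans hk'.symm
      simp only [kx, Prod.mk.injEq] at hkk
      obtain ⟨k1, k2, k3⟩ := hkk
      -- closeness at the zero ray
      have e1 : Cl 1 0 (r + a) 1 (Fa (a + w) x.1 x.2.2) (Fa (a + w) x'.1 x'.2.2) zr := cf_eq (Nat.zero_le _) k1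
      have e2 := e1.move zero_le_one (by norm_num) (nr_zr H.ok H.t0 H.t1).2
      have eτ : tau 0 a x.2.2 = tau 0 a x'.2.2 := H513.tau_fn 0 a _ _ (by rw [Nat.zero_add]; exact k2)
      rw [Fa_Fl, Fa_Fl, ← eτ, bl_zero a x.2.1 x.2.2] at e2
      have e3 := cl_up (by norm_num) (H513.tau_nonneg 0 a _) (H513.tau_le 0 a _) e2
      refine l5 _ (nr_cell k3) ?_ ?_
      · have h1 := e3.g0
        rw [one_mul (G0 (Fl a w x'.1 x'.2.2) _)] at h1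
        have h2 := abs_sub (G0 (Fl a w x.1 x.2.2) (bl a x.2.1 x.2.2))
          (G0 (Fl a w x.1 x.2.2) (bl a x.2.1 x.2.2) - G0 (Fl a w x'.1 x'.2.2) (bl a x.2.1 x.2.2))
        have e4 : G0 (Fl a w x.1 x.2.2) (bl a x.2.1 x.2.2) -
          (G0 (Fl a w x.1 x.2.2) (bl a x.2.1 x.2.2) - G0 (Fl a w x'.1 x'.2.2) (bl a x.2.1 x.2.2)) =
          G0 (Fl a w x'.1 x'.2.2) (bl a x.2.1 x.2.2) := by ring
        rw [e4] at h2
        have h3 := V.g0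
        rw [hAdef]
        have e5 : (2 * c + 3 * (1 * (1 + 4 * 9 + 5 * 9 ^ 2))) * (1 / 2 : ℝ) ^ r = 2 * c * (1 / 2 : ℝ) ^ r +
          3 * (1 * (1 + 4 * 9 + 5 * 9 ^ 2)) * (1 / 2 : ℝ) ^ r := by ring
        rw [e5]
        linarith
      · have h1 := e3.g1
        rw [one_mul (G1 (Fl a w x'.1 x'.2.2) _)] at h1
        have h2 := abs_sub (G1 (Fl a w x.1 x.2.2) (bl a x.2.1 x.2.2))
          (G1 (Fl a w x.1 x.2.2) (bl a x.2.1 x.2.2) - G1 (Fl a w x'.1 x'.2.2) (bl a x.2.1 x.2.2))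
        have e4 : G1 (Fl a w x.1 x.2.2) (bl a x.2.1 x.2.2) -
          (G1 (Fl a w x.1 x.2.2) (bl a x.2.1 x.2.2) - G1 (Fl a w x'.1 x'.2.2) (bl a x.2.1 x.2.2)) =
          G1 (Fl a w x'.1 x'.2.2) (bl a x.2.1 x.2.2) := by ring
        rw [e4] at h2
        have h3 := V.g1
        rw [hAdef]
        have e5 : (2 * c + 3 * (1 * (1 + 4 * 9 + 5 * 9 ^ 2))) * (1 / 2 : ℝ) ^ r = 2 * c * (1 / 2 : ℝ) ^ r +
          3 * (1 * (1 + 4 * 9 + 5 * 9 ^ 2)) * (1 / 2 : ℝ) ^ r := by ring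
        rw [e5]
        linarith
    · exact ⟨⟨0, 0, 0, 0, 0, 0, 0, 0⟩, fun x hx hkx => absurd ⟨x, hx, hkx⟩ hk⟩
  choose S hS using hex
  refine ⟨S, fun L q W l t H hr hL hα => ?_⟩
  obtain ⟨l1, l2, l3, l4, l5⟩ := hS (kx (W, l, t)) (W, l, t) ⟨q, hr, H, hα⟩ rfl
  exact ⟨⟨⟨0, r, by rw [pow_zero]; exact l1, l2, Nat.zero_le _, hL⟩, l3, l4, l5⟩, l1, l2⟩

/-! ### the cell of the ray -/

/-- near rays in the larger block -/
theorem nr_dn {D τ : ℝ} (hD : 0 ≤ D) (h0 : 0 ≤ τ) (h1 : τ ≤ 1) {w : ℕ} {l m : Ry} (h : Nr D 0 l m) :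
    Nr (2 * D + D ^ 2) 0 (dn w τ l) (dn w τ m) := by
  have h21 : (1 : ℝ) ≤ 2 ^ w := one_le_pow₀ (by norm_num)
  have h2 : (0 : ℝ) < 2 ^ w := by positivity
  obtain ⟨hy, hs, hz⟩ := h
  simp only [Nat.mul_zero, pow_zero, mul_one] at hy hs hz
  have hDD : 0 ≤ D ^ 2 := sq_nonneg D
  refine ⟨fun k => ?_, fun k => ?_, ?_⟩
  · rw [pow_zero, mul_one]
    have e : (dn w τ l).y k - (dn w τ m).y k = (l.y k - m.y k) / 2 ^ w - τ * (l.s k - m.s k) := by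
      simp only [dn]; ring
    rw [e]
    have h3 := abs_sub ((l.y k - m.y k) / 2 ^ w) (τ * (l.s k - m.s k))
    have h4 : |(l.y k - m.y k) / 2 ^ w| ≤ D := by
      rw [abs_div, abs_of_pos h2]
      exact (div_le_self (abs_nonneg _) h21).trans (hy k)
    have h5 : |τ * (l.s k - m.s k)| ≤ D := by
      rw [abs_mul, abs_of_nonneg h0]
      exact (mul_le_of_le_one_left (abs_nonneg _) h1).trans (hs k)
    linarith
  · rw [pow_zero, mul_one]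
    show |l.s k - m.s k| ≤ _
    linarith [hs k]
  · rw [Nat.mul_zero, pow_zero, mul_one]
    have e := H513.null_dn w τ l m
    have e2 : ze (dn w τ l) (dn w τ m) = (ze l m) / 2 ^ w - τ * (∑ k, (l.s k - m.s k) ^ 2) / 2 := e
    rw [e2]
    have h3 := abs_sub ((ze l m) / 2 ^ w) (τ * (∑ k, (l.s k - m.s k) ^ 2) / 2)
    have h4 : |(ze l m) / 2 ^ w| ≤ D := by
      rw [abs_div, abs_of_pos h2]
      exact (div_le_self (abs_nonneg _) h21).trans hz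
    have h5 : |τ * (∑ k, (l.s k - m.s k) ^ 2) / 2| ≤ D ^ 2 := by
      rw [abs_div, abs_two, abs_mul, abs_of_nonneg h0, Fin.sum_univ_two, abs_of_nonneg (by positivity)]
      have a0 : (l.s 0 - m.s 0) ^ 2 ≤ D ^ 2 := sq_le_sq' (abs_le.1 (hs 0)).1 (abs_le.1 (hs 0)).2
      have a1 : (l.s 1 - m.s 1) ^ 2 ≤ D ^ 2 := sq_le_sq' (abs_le.1 (hs 1)).1 (abs_le.1 (hs 1)).2
      have a2 : τ * ((l.s 0 - m.s 0) ^ 2 + (l.s 1 - m.s 1) ^ 2) ≤ 1 * (D ^ 2 + D ^ 2) :=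
        mul_le_mul h1 (add_le_add a0 a1) (by positivity) zero_le_one
      linarith
    linarith

/-- **the cell of level `a` of the ray given the label of level `h` and its time** -/
theorem cell_hc (c : ℝ) (hc : 1 ≤ c) : ∃ K : ℝ, 0 ≤ K ∧ ∀ {Ω : Type} [Fintype Ω] (P : Law Ω) (l : Ω → Ry) (t : Ω → ℝ)
    (a w : ℕ) (q : Ω → ℕ) (W : Ω → Cbx), (∀ ω, 0 < P.w ω → W0 c (a + w) (q ω) (W ω) (l ω) (t ω)) →
    Stk.hc P (fun ω => pl 0 (bl a (l ω) (t ω))) (fun ω => (W ω, fl1 (a + w) (t ω))) ≤ K := by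
  obtain ⟨M, hM⟩ := cells (2 * c + c ^ 2) (by positivity)
  refine ⟨Real.log (M + 1 : ℕ), Real.log_nonneg (by push_cast; linarith [(Nat.cast_nonneg M : (0 : ℝ) ≤ M)]), ?_⟩
  intro Ω _ P l t a w q W hW
  refine Stk.hc_le_log P _ _ _ fun ω _ => ?_
  obtain ⟨Q, hQc, hQ⟩ := hM 0 (dn w (tau a w (t ω)) (cn (W ω)))
  refine ⟨Q, hQc.trans (Nat.le_succ _), fun ω' hω' e => ?_⟩
  simp only [Prod.mk.injEq] at e
  obtain ⟨e1, e2⟩ := e
  have H := hW ω' hω'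
  have hn : Nr c 0 (bl (a + w) (l ω') (t ω')) (cn (W ω')) := by
    refine bin_nr (R := q ω') ⟨by rw [H.u2, pow_zero], H.u1, ?_, ?_⟩ H.inn
    · rw [H.u2, mul_one]; exact H.α
    · rw [H.u2, mul_one]; exact H.κ
  have h1 := nr_dn (w := w) (by linarith) (H513.tau_nonneg a w (t ω')) (H513.tau_le a w (t ω')) hn
  rw [← H513.bl_dn a w (l ω') (t ω'), H513.tau_fn a w _ _ e2, e1] at h1
  exact hQ _ h1

/-- the label of level `a` costs a bounded number of bits given `(W, t_h)` -/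
theorem box_hc (c : ℝ) (hc : 1 ≤ c) : ∃ K : ℝ, 0 ≤ K ∧ ∀ {Ω β : Type} [Fintype Ω] (P : Law Ω) (l : Ω → Ry) (t : Ω → ℝ)
    (a w ρ : ℕ) (q : Ω → ℕ) (W : Ω → Cbx) (S : Cf × ℤ × Cell → β),
    (∀ ω, 0 < P.w ω → W0 c (a + w) (q ω) (W ω) (l ω) (t ω)) →
    Stk.hc P (fun ω => S (gk (a + w) ρ (W ω) (t ω), fl1 a (t ω), pl 0 (bl a (l ω) (t ω))))
      (fun ω => (W ω, fl1 (a + w) (t ω))) ≤ K := by
  obtain ⟨K, hK, h⟩ := cell_hc c hc
  refine ⟨K, hK, fun P l t a w ρ q W S hW => (Stk.hc_mono_left P ?_).trans (h P l t a w q W hW)⟩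
  intro ω ω' _ _ e
  simp only [Prod.mk.injEq] at e
  obtain ⟨e1, e2, e3⟩ := e
  have h1 : fl1 a (t ω) = fl1 a (t ω') := by
    have e5 := floor_pow_aux (Nat.le_add_right a w) (t ω)
    have e6 := floor_pow_aux (Nat.le_add_right a w) (t ω')
    have e7 : ⌊(2 : ℝ) ^ (a + w) * t ω⌋ = ⌊(2 : ℝ) ^ (a + w) * t ω'⌋ := e3
    show ⌊(2 : ℝ) ^ a * t ω⌋ = ⌊(2 : ℝ) ^ a * t ω'⌋
    rw [e5, e6, e7]
  have h2 : gk (a + w) ρ (W ω) (t ω) = gk (a + w) ρ (W ω') (t ω') := by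
    unfold gk
    rw [Fa_fn (W ω) e3, e2]
  show S (gk (a + w) ρ (W ω) (t ω), fl1 a (t ω), pl 0 (bl a (l ω) (t ω))) =
    S (gk (a + w) ρ (W ω') (t ω'), fl1 a (t ω'), pl 0 (bl a (l ω') (t ω')))
  rw [h1, h2, e1]

end Vale.Agent.P106.U.H428
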