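import Vale.Agent.P106.U.H465.PfD
import Vale.Agent.P106.U.H661.Yng

/-!
# P106 / U / H428 : the field `cut` of `S3.F2` for the concrete run, with its number (helper428)

`Vs` = helper661's `Yng.Vs RC RI A D0 g cc kk` of any family of paths with `Lag RC RI A D`, `D ≤ D0`, which is the second
word of the run at the cap `kk`.

* `vs_step` : the second word is diagonal on `Vs`;  `vs_lag` : lag `≥ D0` on `Vs`;  `vs_card` : `#Vs ≤ A`.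
* `cut_num` : `m #cutS ≤ h / B` from `m #{v ∈ Vs, v + 1 ∉ Vs} ≤ h / (4 B)` and `Bb + B + 5 ≤ D0`.
* **`cut`** : the field `S3.F2.cut`, literally.
-/

set_option autoImplicit false

namespace Vale.Agent.P106.U.H565

open Finset Vale.Agent.P127 Vale.Agent.P127.Stk Vale.Agent.P127.U Vale.Agent.P106.W
open Vale.Agent.P106.U Vale.Agent.P106.U.H449

namespace C2

variable {Ω : Type} [Fintype Ω] {c : C2 Ω} {hm : 3 ≤ c.I.m} {Rm : ℕ} {cc : ℝ} {Ac rc : ℕ}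

open H661.Yng in
/-- the second word is diagonal on the young levels -/
theorem vs_step {RC : ℕ → ℕ → ℕ} {A D D0 g k0 kk : ℕ} {RI : ℕ → ℕ} (HL : Lag RC RI A D) (hD : D ≤ D0)
    (hR : ∀ a ≤ A, c.RC a = RC kk a) {v : ℕ} (hv : v ∈ Vs RC RI A D0 g k0 kk)
    (hv1 : v + 1 ∈ Vs RC RI A D0 g k0 kk) : c.RC (v + 1) = c.RC v + 1 := by
  have h1 := HL.dg hD hv (a' := v) (by omega) (by omega)
  have h2 := (mem_Vs.1 hv1).1
  rw [hR _ (by omega), hR _ (by omega)]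
  exact h1.2.2.2 kk le_rfl (by omega)

open H661.Yng in
/-- deep lag on the young levels -/
theorem vs_lag {RC : ℕ → ℕ → ℕ} {A D D0 g k0 kk : ℕ} {RI : ℕ → ℕ} (HL : Lag RC RI A D) (hD : D ≤ D0)
    (hR : ∀ a ≤ A, c.RC a = RC kk a) {v : ℕ} (hv : v ∈ Vs RC RI A D0 g k0 kk) : c.RC v + D0 ≤ RI v := by
  have h1 := HL.dg hD hv (a' := v) (by omega) (by omega)
  rw [hR _ h1.2.2.1]
  exact h1.2.1

open H661.Yng in
theorem vs_card {RC : ℕ → ℕ → ℕ} {A D0 g k0 kk : ℕ} {RI : ℕ → ℕ} (hg : 1 ≤ g) :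
    (Vs RC RI A D0 g k0 kk).card ≤ A := by
  have h1 : Vs RC RI A D0 g k0 kk ⊆ range A := by
    intro v hv
    have h2 := mem_Vs.1 hv
    rw [mem_range]
    omega
  have h3 := card_le_card h1
  rwa [card_range] at h3

open H661.Yng in
/-- **the number of cuts** -/
theorem cut_num {RC : ℕ → ℕ → ℕ} {D D0 g k0 kk Bb : ℕ} (HL : Lag RC (Rw c.I.pm.n c.E1 1) c.I.ha D) (hD : D ≤ D0)
    (hg : 1 ≤ g) (hR : ∀ a ≤ c.I.ha, c.RC a = RC kk a) {B : ℕ} (hB : 1 ≤ B) (hD0 : Bb + B + 5 ≤ D0)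
    (hruns : (c.I.m : ℝ) * ((Vs RC (Rw c.I.pm.n c.E1 1) c.I.ha D0 g k0 kk).filter
      fun v => v + 1 ∉ Vs RC (Rw c.I.pm.n c.E1 1) c.I.ha D0 g k0 kk).card ≤ c.I.h / (4 * B)) :
    (c.I.m : ℝ) * (c.cutS hm Bb (Vs RC (Rw c.I.pm.n c.E1 1) c.I.ha D0 g k0 kk)).card ≤ c.I.h / B := by
  set V := Vs RC (Rw c.I.pm.n c.E1 1) c.I.ha D0 g k0 kk with hV
  have h1 := cut_card (c := c) (hm := hm) (Bb := Bb) (Vs := V) (fun v hv hv1 => vs_step HL hD hR hv hv1)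
    (k := B + 4) (by omega) (fun v hv => by
      have := vs_lag HL hD hR hv
      omega)
  have h2 : (V.card : ℝ) ≤ c.I.ha := by exact_mod_cast vs_card hg
  have h3 : (c.I.m : ℝ) * c.I.ha ≤ c.I.h := by
    have := c.good.Ab2
    have h4 : c.I.m * c.I.ha ≤ c.I.h := Nat.mul_div_le _ _
    exact_mod_cast h4
  have hm0 : (0 : ℝ) ≤ c.I.m := Nat.cast_nonneg _
  have hBr : (1 : ℝ) ≤ B := by exact_mod_cast hB
  have hh : (0 : ℝ) ≤ c.I.h := Nat.cast_nonneg _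
  -- the power
  have h5 : ((2 : ℝ) ^ c.I.m) ^ (-((B + 4 : ℕ) : ℤ)) ≤ 1 / (16 * B) := by
    have e1 : ((2 : ℝ) ^ c.I.m) ^ (-((B + 4 : ℕ) : ℤ)) = 1 / ((2 : ℝ) ^ c.I.m) ^ (B + 4) := by
      rw [zpow_neg, zpow_natCast, one_div]
    rw [e1]
    refine one_div_le_one_div_of_le (by positivity) ?_
    have e2 : (B : ℝ) ≤ 2 ^ B := by exact_mod_cast Nat.lt_two_pow_self.le
    have e3 : (2 : ℝ) ≤ 2 ^ c.I.m := by
      calc (2 : ℝ) = 2 ^ 1 := (pow_one _).symm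
        _ ≤ 2 ^ c.I.m := pow_le_pow_right₀ (by norm_num) (by omega)
    have e4 : (2 : ℝ) ^ (B + 4) ≤ ((2 : ℝ) ^ c.I.m) ^ (B + 4) := pow_le_pow_left₀ (by norm_num) e3 _
    have e5 : (2 : ℝ) ^ (B + 4) = 16 * 2 ^ B := by rw [pow_add]; ring
    linarith
  have h6 : (c.I.m : ℝ) * (8 * V.card * ((2 : ℝ) ^ c.I.m) ^ (-((B + 4 : ℕ) : ℤ))) ≤ c.I.h / (2 * B) := by
    have e1 : (8 : ℝ) * V.card * ((2 : ℝ) ^ c.I.m) ^ (-((B + 4 : ℕ) : ℤ)) ≤ 8 * c.I.ha * (1 / (16 * B)) := by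
      refine mul_le_mul ?_ h5 (by positivity) (by positivity)
      linarith
    have e2 := mul_le_mul_of_nonneg_left e1 hm0
    refine e2.trans ?_
    have e3 : (c.I.m : ℝ) * (8 * c.I.ha * (1 / (16 * B))) = (c.I.m * c.I.ha) / (2 * B) := by
      field_simp
      ring
    rw [e3]
    exact div_le_div_of_nonneg_right h3 (by positivity)
  have h7 := mul_le_mul_of_nonneg_left h1 hm0
  rw [mul_add] at h7
  have h8 : (c.I.m : ℝ) * (2 * (V.filter fun v => v + 1 ∉ V).card) =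
      2 * (c.I.m * (V.filter fun v => v + 1 ∉ V).card) := by ring
  rw [h8] at h7
  have h9 : (c.I.h : ℝ) / (4 * B) + c.I.h / (4 * B) + c.I.h / (2 * B) = c.I.h / B := by
    field_simp
    ring
  linarith

open H661.Yng in
/-- **the field `cut` of `S3.F2`** -/
theorem cut (H : c.Hyp Rm cc Ac rc) {k1 : ℕ → ℕ} {hk : Monotone k1} {hl : ∀ i, k1 i ≤ c.D.L.k (c.D.ix i)}
    {RC : ℕ → ℕ → ℕ} {D D0 g k0 kk : ℕ} (HL : Lag RC (Rw c.I.pm.n c.E1 1) c.I.ha D) (hD : D ≤ D0)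
    (hg : 1 ≤ g) (hR : ∀ a ≤ c.I.ha, c.RC a = RC kk a) {B : ℕ} (hB : 1 ≤ B) (hD0 : 2 * B + 5 ≤ D0)
    (hruns : (c.I.m : ℝ) * ((Vs RC (Rw c.I.pm.n c.E1 1) c.I.ha D0 g k0 kk).filter
      fun v => v + 1 ∉ Vs RC (Rw c.I.pm.n c.E1 1) c.I.ha D0 g k0 kk).card ≤ c.I.h / (4 * B)) :
    ∃ Cu : Finset ℕ, ((c.erun hm).m : ℝ) * Cu.card ≤ (c.erun hm).h / B ∧
      ∀ i j, i ≤ j → j ≤ (c.erun hm).n + c.num.J → S3.lv (c.erun hm) i ∈ Vs RC (Rw c.I.pm.n c.E1 1) c.I.ha D0 g k0 kk →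
      S3.lv (c.erun hm) j ∈ Vs RC (Rw c.I.pm.n c.E1 1) c.I.ha D0 g k0 kk →
      S3.lv (c.erun hm) j ≤ S3.lv (c.erun hm) i + 1 →
      (S3.lv (c.erun hm) i = S3.lv (c.erun hm) j ∨ S3.lv (c.erun hm) i ∉ Cu) →
      Fn (c.erun hm).Q ((c.pfd hm k1 hk hl B).pf j) ((c.pfd hm k1 hk hl B).pf i) ∧
        ∀ ω, 0 < (c.erun hm).Q.w ω → (c.pfd hm k1 hk hl B).Ao (S3.lv (c.erun hm) j) ω =
          (c.pfd hm k1 hk hl B).Ao (S3.lv (c.erun hm) i) ω :=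
  ⟨c.cutS hm B (Vs RC (Rw c.I.pm.n c.E1 1) c.I.ha D0 g k0 kk),
    cut_num (hm := hm) HL hD hg hR hB (by omega) hruns,
    fun _ _ hij _ hi hj hl1 hC => cut_step H (fun _ hv hv1 _ => vs_step HL hD hR hv hv1) hij hi hj hl1 hC⟩

end C2

end Vale.Agent.P106.U.H565
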