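import Vale.Agent.P106.U.H565.RunD
import Vale.Agent.P106.U.H523.NumR

/-!
# P106 / U / H428 : number fields of the concrete run (helper428; row [PTS] of helper565)

For `c : C2` (helper565's concrete run), path numbers `c.D` :

* `li_le`, `li_Ac`, `la_A'` : levels;  `lk_QK`, `lk_RC`, `lk_q`, `lf_q`, `rs_lk` : precisions.
* `n_le`, `n_real` : the number of steps `n + J` is at most the length of word 1, `≤ (2 + 2 K1) h / m`.
* `aS_card` : the number of the steps of the time is the level at the stop;  `aS_lev` : their levels.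
* `rs_ge` : lower bound of the start precision.
-/

set_option autoImplicit false

namespace Vale.Agent.P106.U.H428.RunPt

open Finset Vale.Agent.P127 Vale.Agent.P127.Stk Vale.Agent.P127.U
open Vale.Agent.P106.U Vale.Agent.P106.U.H449 Vale.Agent.P106.U.H565
open Vale.Agent.P106.U.H823.NumW Vale.Agent.P106.U.H823.PathNum Vale.Agent.P106.U.H823.PathP

/-! ### any path -/

section

variable (D : PN)

theorem k_add (i j : ℕ) : D.L.k (i + j) ≤ D.L.k i + j := by
  induction j with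
  | zero => exact le_rfl
  | succ j ih =>
    have := (D.L.k_succ_le (i + j)).2
    rw [← Nat.add_assoc, ← Nat.add_assoc]
    omega

/-- the line at the stop -/
theorem k_n (h : D.r0 ≤ D.QK) : D.r0 + D.m * D.L.k D.n ≤ D.QK + D.m := by
  rcases Nat.eq_zero_or_pos D.n with h0 | h0
  · rw [h0, Lv.k_zero, Nat.mul_zero]
    omega
  · have h1 := (D.n_stop (i := D.n - 1) (by omega)).2
    have h2 := (D.L.k_succ_le (D.n - 1)).2
    have h3 : D.n - 1 + 1 = D.n := by omega
    rw [h3] at h2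
    have h4 := Nat.mul_le_mul_left D.m h2
    rw [Nat.mul_add, Nat.mul_one] at h4
    omega

/-- all precisions of the line -/
theorem lk_le (h : D.r0 ≤ D.QK) (i : ℕ) : D.lk i ≤ D.QK + D.m * (D.J + 1) := by
  have h1 := k_n D h
  have h2 := k_add D D.n D.J
  have h3 : D.L.k (D.ix i) ≤ D.L.k D.N := D.L.k_mono (min_le_right _ _)
  have h4 : D.m * D.L.k (D.ix i) ≤ D.m * (D.L.k D.n + D.J) := Nat.mul_le_mul_left _ (h3.trans h2)
  have h5 : D.lk i = D.r0 + D.m * D.L.k (D.ix i) := rfl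
  rw [Nat.mul_add] at h4
  rw [h5, Nat.mul_add, Nat.mul_one]
  omega

theorem lk_R (i : ℕ) : D.lk i ≤ D.r0 + D.m * D.R (D.li i) :=
  Nat.add_le_add_left (Nat.mul_le_mul_left _ (D.L.k_le _)) _

/-- number of the steps before the stop -/
theorem n_J : D.n ≤ D.L.lev D.n + 2 * D.QF + D.o := by
  have h1 := D.L.le_J_lev D.n
  have h2 : D.L.J (D.L.lev D.n) = D.L.lev D.n + (D.F (D.L.lev D.n) + D.o) + D.R (D.L.lev D.n) := rfl
  have h3 := D.nm.FQ (D.L.lev D.n)
  have h4 := D.nm.RI (D.L.lev D.n)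
  have h5 := D.nm.IF (D.L.lev D.n)
  omega

open Classical in
/-- the number of the steps of the time is the level -/
theorem card_a (n : ℕ) : ((range n).filter fun i => D.L.kd i = 0).card = D.L.lev n := by
  induction n with
  | zero => simp
  | succ n ih =>
    rw [Finset.range_add_one, Finset.filter_insert]
    by_cases h : D.L.kd n = 0
    · rw [if_pos h, Finset.card_insert_of_notMem (by simp), ih, (D.L.step_a h).2.2.2.1]
    · rw [if_neg h, ih, D.L.lev_succ_of_ne h]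

end

/-! ### the concrete run -/

variable {Ω : Type} [Fintype Ω] (c : C2 Ω)

theorem m_pos : 0 < c.I.m := c.good.m1

/-- the level at the stop -/
theorem lev_n : c.D.L.lev c.D.n ≤ c.I.Ab := by
  have h1 := c.D.lev_n
  have h2 : c.D.Ad = c.I.m * c.I.Ab := rfl
  have h3 : c.D.m = c.I.m := rfl
  rw [h2, h3] at h1
  have h4 : c.I.m * c.D.L.lev c.D.n < c.I.m * (c.I.Ab + 1) := by
    rw [Nat.mul_add, Nat.mul_one]
    exact h1
  have := Nat.lt_of_mul_lt_mul_left h4
  omega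

/-- all levels of the data -/
theorem li_le (i : ℕ) : c.D.li i ≤ c.I.Ab + c.I.J := by
  have h1 := c.D.lev_N i
  have h2 : c.D.la i = c.I.m * c.D.li i := rfl
  have h3 : c.D.Ad = c.I.m * c.I.Ab := rfl
  have h4 : c.D.m = c.I.m := rfl
  have h5 : c.D.J = c.I.J := rfl
  rw [h2, h3, h4, h5, ← Nat.mul_add] at h1
  have h6 := Nat.lt_of_mul_lt_mul_left h1
  omega

/-- room between the levels of the data and the level of compatibility -/
theorem li_Ac (hN : 1 ≤ c.N0) : c.I.Ab + c.I.J + 1 ≤ c.I.A'b := by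
  have := c.good.Ab1
  omega

theorem li_ha (i : ℕ) : c.D.li i ≤ c.I.ha := by
  have h1 := li_le c i
  have h2 := c.good.Ab1
  have h3 := c.good.Ab2
  omega

theorem la_A' (i : ℕ) : c.D.la i ≤ c.I.num.A' := by
  have h1 := li_le c i
  have h2 := c.good.Ab1
  exact Nat.mul_le_mul_left _ (by omega)

theorem la_h (i : ℕ) : c.D.la i ≤ c.I.h := (la_A' c i).trans c.good.A'h

/-- the last level is at most `A'` -/
theorem an_A' : c.run.C.a c.run.n ≤ c.num.A' := la_A' c _

/-- **the precisions of the line**, against the stop -/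
theorem lk_QK (i : ℕ) : c.D.lk i ≤ c.I.num.QK + c.I.m * (c.I.J + 1) := lk_le c.D c.good.rsK i

/-- .. against the second word -/
theorem lk_RC {Ac : ℕ} {i : ℕ} (h : c.D.li i ≤ Ac) : c.D.lk i ≤ c.I.m * (c.I.kb - 2 + c.RC Ac) := by
  have h1 := lk_R c.D i
  have h2 : c.D.R (c.D.li i) ≤ c.RC Ac := c.w2.mono h
  have h3 : c.D.r0 = c.I.m * (c.I.kb - 2) := rfl
  have h4 : c.D.m = c.I.m := rfl
  rw [h3, h4] at h1
  rw [Nat.mul_add]
  exact h1.trans (Nat.add_le_add_left (Nat.mul_le_mul_left _ h2) _)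

/-- **both**, the form of helper205's `crc` -/
theorem lk_rc {Ac r1 : ℕ} (h : ∀ i, c.D.li i ≤ Ac) (hr : c.I.num.QK + c.I.m * (c.I.J + 1) ≤ r1) (i : ℕ) :
    c.D.lk i ≤ min (c.I.m * (c.I.kb - 2 + c.RC Ac)) r1 :=
  le_min (lk_RC c (h i)) ((lk_QK c i).trans hr)

theorem lf_QF (i : ℕ) : c.D.lf i ≤ c.I.num.QF := by
  have h1 : c.D.lf i = c.I.rs + c.I.m * c.D.L.f (c.D.ix i) := rfl
  have h2 : c.D.L.f (c.D.ix i) ≤ c.I.QFb + 2 := c.D.f_le _
  have h3 := c.good.rs2
  have h4 := c.good.QFb1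
  have h5 : c.I.num.QF = c.I.m * (c.I.q / c.I.m) := rfl
  rw [h1, h5, ← h4, Nat.mul_add]
  have h6 := Nat.mul_le_mul_left c.I.m h2
  rw [Nat.mul_add] at h6
  omega

theorem lf_q (i : ℕ) : c.D.lf i ≤ c.I.q := (lf_QF c i).trans c.good.QFq

/-- `rq` -/
theorem lk_q (i : ℕ) : c.D.lk i ≤ c.I.q := (c.D.lkf i).trans (lf_q c i)

theorem rs_lk (i : ℕ) : c.I.rs ≤ c.D.lk i := Nat.le_add_right _ _

theorem rs_lf (i : ℕ) : c.I.rs ≤ c.D.lf i := Nat.le_add_right _ _

theorem rs_lI (i : ℕ) : c.I.rs ≤ c.D.lI i := Nat.le_add_right _ _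

/-- **the number of steps** is at most the length of word 1 -/
theorem n_le (hN : 2 ≤ c.N0) : c.D.n + c.I.J ≤ c.I.pm.n := by
  have h1 := n_J c.D
  have h2 := lev_n c
  have h3 := c.good.Ab1
  have h4 := c.good.Ab2
  have h5 : c.D.QF = c.I.QFb := rfl
  have h6 : c.D.o = 2 := rfl
  have h7 : c.I.pm.n = c.I.ha + c.I.QFb + (c.I.QFb - 0) := rfl
  rw [h5, h6] at h1
  omega

/-- .. a linear bound -/
theorem n_real (hN : 2 ≤ c.N0) : ((c.D.n + c.I.J : ℕ) : ℝ) ≤ (2 + 2 * c.K1) * (c.I.h / c.I.m) :=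
  le_trans (by exact_mod_cast n_le c hN) c.good.n1

theorem isA {i : ℕ} (h : i < c.D.n) : c.run.IsA i ↔ c.D.L.kd i = 0 :=
  c.D.isA_iff (h.trans_le c.D.n_le)

/-- **the number of the steps of the time** -/
theorem aS_card : c.run.aS.card = c.D.L.lev c.D.n := by
  classical
  rw [← card_a c.D c.D.n]
  unfold S3.Run.aS
  congr 1
  ext i
  simp only [Finset.mem_filter, Finset.mem_range]
  constructor
  · rintro ⟨h1, h2⟩
    exact ⟨h1, (isA c h1).1 h2⟩
  · rintro ⟨h1, h2⟩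
    exact ⟨h1, (isA c h1).2 h2⟩

theorem an_eq : c.run.C.a c.run.n = c.I.m * c.run.aS.card := by
  rw [aS_card]
  exact c.D.la_eq c.D.n_le

theorem aS_Ab : c.run.aS.card ≤ c.I.Ab := by
  rw [aS_card]
  exact lev_n c

theorem aS_h : c.I.m * c.run.aS.card ≤ c.I.h := by
  rw [← an_eq]
  exact la_h c _

/-- **the levels of the steps of the time** -/
theorem aS_lev {i : ℕ} (h : i ∈ c.run.aS) : ∃ j < c.I.Ab, c.run.C.a i = c.I.m * j := by
  classical
  have h1 : i < c.D.n := by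
    have := (Finset.mem_filter.1 h).1
    exact Finset.mem_range.1 this
  refine ⟨c.D.li i, ?_, rfl⟩
  have h2 := (c.D.n_stop h1).1
  rw [c.D.li_eq (h1.le.trans c.D.n_le)]
  exact Nat.lt_of_mul_lt_mul_left (a := c.I.m) h2

theorem Ab_h : c.I.m * c.I.Ab ≤ c.I.h := c.good.AA.trans c.good.A'h

/-- the start precision -/
theorem rs_ge {X : ℕ} (h : X + 3 * c.I.m ≤ c.I.r0) : X ≤ c.I.rs := H523.Nums.Inp.rs_ge c.I c.good.m1 h

theorem rk_n : c.I.rs ≤ c.run.C.rk c.run.n := rs_lk c _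

end Vale.Agent.P106.U.H428.RunPt
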