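import Vale.Agent.P106.U.H465.F2C
import Vale.Agent.P106.U.H715.RegC
import Vale.Agent.P106.U.H428.CutF
import Vale.Agent.P106.U.H824.Reg
import Vale.Agent.P106.U.H428.RunPt
import Vale.Agent.P106.U.H339.XsC

/-!
# P106 / U / H428 : the facts of the levels (`C2.VX`) at one place of the selection (helper428)

For the data at the cap `b0 + kk s` (helper465's `C1.mk2`), word value `e` (second paths of the window):

* `mk2_RC` : the second word is the value `e`;  `has_erun` : 823's `Has` of the run with the prefix letter.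
* **`mk2_vx`** : helper465's `VX` with 661's young levels `Yng.Vs` of any family of paths with `Lag`, exceptional levels
  `Yng.Xs ∪ hits` (715), later caps `m (b1 + βS)`, `m (b1 + βV)`, from three counts `≤ h / (4 B)`.
* **`mk2_vx_num`** : the same from the two costs `psX ≤ Cψ` (339), `psR ≤ Cψ` (715), for `Tc ≥ Tc0`, `h ≥ h0`.
-/

set_option autoImplicit false

namespace Vale.Agent.P106.U.H565

open Finset Vale.Agent.P127 Vale.Agent.P127.Stk Vale.Agent.P127.U Vale.Agent.P106.W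
open Vale.Agent.P106.U Vale.Agent.P106.U.H449
open Vale.Agent.P106.U.H823.NumG Vale.Agent.P106.U.H823.NumW Vale.Agent.P106.U.H823.PathNum
open Vale.Agent.P106.U.H715.RegC Vale.Agent.P106.U.H715.RegR
open Vale.Agent.P106.U.InpC (supp_cond)

variable {Ω : Type} [Fintype Ω]

namespace C2

variable {c : C2 Ω} {hm : 3 ≤ c.I.m} {Rm : ℕ} {cc : ℝ} {Ac rc : ℕ}

/-- the run with the prefix letter has the levels of `D` -/
theorem has_erun (H : c.Hyp Rm cc Ac rc) : Has c.D (c.erun hm) c.num :=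
  have h := has H
  ⟨h.m, h.r0, h.n, h.a, h.rf, h.rk, h.rI, h.J, h.A, h.QK, h.QF, h.B₁, h.J1, h.J3, h.s, h.Aw, h.Ah, h.A', h.QFq, h.rK, h.QKr⟩

end C2

namespace C1

variable {c : C1 Ω} {hm : 3 ≤ c.I.m} {cc : ℝ} {in0 : ∀ ω, c.d0.In (c.tW ω) (c.κ ω)} {hc : 0 ≤ cc} {b0 kk s : ℕ} {V : Type}
  {w : Ω → V} {z : V} {hz : 0 < c.Q1.pr w z} {ps : ℕ} {o : Fin 7 → ℝ} {oK oG oN : ℝ}

/-- a point of the support -/
theorem mk2_pt (hz : 0 < c.Q1.pr w z) : ∃ ω, 0 < c.Q1.w ω ∧ w ω = z :=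
  ⟨_, supp_cond hz (H465.GcK.ex_supp (c.Q1.cond w z)).choose_spec⟩

/-- **the second word is the value of the word** -/
theorem mk2_RC {e : ℕ → ℕ → ℕ} (he : ∀ ω, 0 < c.Q1.w ω → w ω = z → c.Zr hm cc s c.Q1 b0 kk ω = e) {a : ℕ}
    (ha : a ≤ c.I.ha) :
    (c.mk2 hm cc in0 hc (b0 + kk * s) w z hz ps o oK oG oN).RC a = RCe c.I.ha e kk a := by
  obtain ⟨h1, h2⟩ := supp_cond hz (H465.GcK.ex_supp (c.Q1.cond w z)).choose_spec
  rw [rce (he _ h1 h2) le_rfl a, min_eq_left ha]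
  show c.rcx hm cc (b0 + kk * s) w z a = _
  unfold rcx
  rw [ext_eq ha]

open H661.Yng in
/-- **the facts of the levels** -/
theorem mk2_vx {Rm Ac rc : ℕ} (H : (c.mk2 hm cc in0 hc (b0 + kk * s) w z hz ps o oK oG oN).Hyp Rm cc Ac rc)
    {e : ℕ → ℕ → ℕ} (he : ∀ ω, 0 < c.Q1.w ω → w ω = z → c.Zr hm cc s c.Q1 b0 kk ω = e)
    {RCf : ℕ → ℕ → ℕ} (HL : Lag RCf (Rw c.I.pm.n c.E1 1) c.I.ha 2)
    (hRf : ∀ a ≤ c.I.ha, RCe c.I.ha e kk a = RCf kk a) {D0 g k1 B βS βV : ℕ} (hg : 1 ≤ g) (hB : 1 ≤ B)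
    (hD0 : 2 * B + 5 ≤ D0) (hps : B + ps ≤ D0) (hβS : B ≤ βS) (hβ : βS ≤ βV)
    (hδ : 0 < c.I.δ1) (hδ3 : 3 * c.I.δ1 ≤ 1)
    (hh : ((c.I.m * (2 * βV + 8 * c.I.B + 2) : ℕ) : ℝ) ≤ c.I.δ1 / 2 * c.I.h)
    (hb : b0 + kk * s < nBl (c.I.δ1 / 2) c.I.h c.I.m)
    (hruns : (c.I.m : ℝ) * ((Vs RCf (Rw c.I.pm.n c.E1 1) c.I.ha D0 g k1 kk).filter
      fun v => v + 1 ∉ Vs RCf (Rw c.I.pm.n c.E1 1) c.I.ha D0 g k1 kk).card ≤ c.I.h / (4 * B))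
    (hxs : (c.I.m : ℝ) * (Xs RCf (Rw c.I.pm.n c.E1 1) c.I.ha D0 g k1 kk).card ≤ c.I.h / (4 * B))
    (hhit : (c.I.m : ℝ) * (hits (Fo c.toC0 c.E1) c.I.ha B βV s b0 kk e).card ≤ c.I.h / (4 * B)) :
    Monotone (k0 (c.mk2 hm cc in0 hc (b0 + kk * s) w z hz ps o oK oG oN).D (RCe c.I.ha e 0)) ∧
    (∀ i, k0 (c.mk2 hm cc in0 hc (b0 + kk * s) w z hz ps o oK oG oN).D (RCe c.I.ha e 0) i ≤
      (c.mk2 hm cc in0 hc (b0 + kk * s) w z hz ps o oK oG oN).D.L.k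
        ((c.mk2 hm cc in0 hc (b0 + kk * s) w z hz ps o oK oG oN).D.ix i)) ∧
    (c.mk2 hm cc in0 hc (b0 + kk * s) w z hz ps o oK oG oN).VX hm B (c.I.m * (b0 + kk * s + βS))
      (c.I.m * (b0 + kk * s + βV))
      (k0 (c.mk2 hm cc in0 hc (b0 + kk * s) w z hz ps o oK oG oN).D (RCe c.I.ha e 0))
      (Vs RCf (Rw c.I.pm.n c.E1 1) c.I.ha D0 g k1 kk)
      (Xs RCf (Rw c.I.pm.n c.E1 1) c.I.ha D0 g k1 kk ∪ hits (Fo c.toC0 c.E1) c.I.ha B βV s b0 kk e) := by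
  set C := c.mk2 hm cc in0 hc (b0 + kk * s) w z hz ps o oK oG oN with hC
  obtain ⟨ω, hω, hwz⟩ := mk2_pt (c := c) hz
  have hRC : ∀ a ≤ C.I.ha, C.RC a = RCf kk a := fun a ha =>
    (mk2_RC (in0 := in0) (hc := hc) (hz := hz) (ps := ps) (o := o) (oK := oK) (oG := oG) (oN := oN) he ha).trans (hRf a ha)
  have hli : ∀ k, C.D.li k < C.I.ha := by
    intro k
    have h1 := H428.RunPt.li_le C k
    have h2 := C.good.Ab1
    have h3 := C.good.Ab2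
    have h4 : 4 ≤ C.N0 := by
      have := H.N0s
      omega
    omega
  obtain ⟨r1, r2, r3, r4⟩ := reg_fields (c := c.toC0) (hm := hm) (cc := cc) (Q := c.Q1) (E := c.E1) (x := c.x1)
    (C2.has_erun (hm := hm) H) c.cn in0 hc (s := s) (b0 := b0) (kk := kk) (he ω hω hwz)
    (B := B) (βS := βS) (βV := βV) (Vs := Vs RCf (Rw c.I.pm.n c.E1 1) c.I.ha D0 g k1 kk)
    (Xs := Xs RCf (Rw c.I.pm.n c.E1 1) c.I.ha D0 g k1 kk ∪ hits (Fo c.toC0 c.E1) c.I.ha B βV s b0 kk e)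
    rfl (fun a ha => mk2_RC (in0 := in0) (hc := hc) (hz := hz) (ps := ps) (o := o) (oK := oK) (oG := oG) (oN := oN) he ha)
    rfl hβ hli subset_union_right
  obtain ⟨q1, q2, q3, q4⟩ := C2.caps_of (c := C) (B := B) hβS hβ hδ hδ3 hh hb
  have hBr : (1 : ℝ) ≤ B := by exact_mod_cast hB
  have hh0 : (0 : ℝ) ≤ c.I.h := Nat.cast_nonneg _
  have hq : (c.I.h : ℝ) / (4 * B) ≤ c.I.h / B := by
    refine div_le_div_of_nonneg_left hh0 (by linarith) (by linarith)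
  refine ⟨r1, r2, ?_⟩
  refine
    { loS := q1, loV := q2, hi := q3, room := q4, dg := ?_, lag := ?_, regS := r3, reg := r4,
      runs := hruns.trans hq, xs := ?_, cut := ?_ }
  · intro v hv1 hv
    have hv2 : v + 1 ≤ C.I.ha := hv1
    have h1 : RCf kk (v + 1) = RCf kk v + 1 := by
      rcases hv with hv | hv
      · exact (HL.dg (by omega) hv (a' := v) (by omega) (by omega)).2.2.2 kk le_rfl (Nat.lt_of_succ_le hv1)
      · exact (HL.dg (by omega) hv (a' := v) (by omega) (by omega)).2.2.2 kk le_rfl (Nat.lt_of_succ_le hv1)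
    show C.RC (v + 1) = C.RC v + 1
    rw [hRC _ hv2, hRC _ (by omega), h1]
  · intro v hv
    have h1 := C2.vs_lag (c := C) HL (by omega) hRC hv
    show C.RC v + B + ps ≤ Rw c.I.pm.n c.E1 1 v
    omega
  · have h1 : ((Xs RCf (Rw c.I.pm.n c.E1 1) c.I.ha D0 g k1 kk ∪
        hits (Fo c.toC0 c.E1) c.I.ha B βV s b0 kk e).card : ℝ) ≤
        (Xs RCf (Rw c.I.pm.n c.E1 1) c.I.ha D0 g k1 kk).card + (hits (Fo c.toC0 c.E1) c.I.ha B βV s b0 kk e).card := by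
      exact_mod_cast card_union_le _ _
    have h2 := mul_le_mul_of_nonneg_left h1 (Nat.cast_nonneg c.I.m : (0 : ℝ) ≤ c.I.m)
    have h3 : (c.I.h : ℝ) / (4 * B) + c.I.h / (4 * B) ≤ c.I.h / B := by
      have e1 : (c.I.h : ℝ) / (4 * B) + c.I.h / (4 * B) = (c.I.h / B) / 2 := by
        field_simp
        ring
      rw [e1]
      have : 0 ≤ (c.I.h : ℝ) / B := by positivity
      linarith
    show (c.I.m : ℝ) * _ ≤ c.I.h / B
    rw [mul_add] at h2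
    linarith
  · exact C2.cut_num (c := C) (hm := hm) HL (by omega) hg hRC hB (by omega) hruns

/-- **`VX` from the two costs** : young levels of the caps `kk - k1`, `kk` -/
theorem mk2_vx_num {K1 δ1 Cψ : ℝ} (hK1 : 0 ≤ K1) (hδ : 0 < δ1) (hδ3 : 3 * δ1 ≤ 1) (hC : 0 ≤ Cψ)
    (m B Bi g k1 D0 s βS βV ps : ℕ) (hm1 : 1 ≤ m) (hB : 1 ≤ B) (hg : 1 ≤ g) (hs : 1 ≤ s) (hD0 : 2 * B + 5 ≤ D0)
    (hps : B + ps ≤ D0) (hβS : B ≤ βS) (hβ : βS ≤ βV) :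
    ∃ Tc0 : ℕ, 0 < Tc0 ∧ ∀ Tc, Tc0 ≤ Tc → ∃ h0 : ℕ, ∀ (Ω : Type) [Fintype Ω] (c : C1 Ω) (hm : 3 ≤ c.I.m) (cc : ℝ)
      (in0 : ∀ ω, c.d0.In (c.tW ω) (c.κ ω)) (hc : 0 ≤ cc) (b0 kk : ℕ) (V : Type) (w : Ω → V) (z : V) (hz : 0 < c.Q1.pr w z)
      (o : Fin 7 → ℝ) (oK oG oN : ℝ) (Rm Ac rc : ℕ) (e : ℕ → ℕ → ℕ), c.K1 = K1 → c.I.δ1 = δ1 → c.I.m = m → c.I.B = Bi →
      h0 ≤ c.I.h → (c.mk2 hm cc in0 hc (b0 + kk * s) w z hz ps o oK oG oN).Hyp Rm cc Ac rc →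
      (∀ ω, 0 < c.Q1.w ω → w ω = z → c.Zr hm cc s c.Q1 b0 kk ω = e) →
      kk < Tc → b0 + Tc * s ≤ nBl (δ1 / 2) c.I.h m →
      H339W.psX c.I.ha Tc s k1 D0 (nBl (δ1 / 2) c.I.h m) (c.XR c.E1) kk e ≤ Cψ →
      psR c.toC0 c.E1 B βV s Tc (nBl (δ1 / 2) c.I.h m) b0 kk e ≤ Cψ →
      k1 ≤ kk ∧
      Monotone (k0 (c.mk2 hm cc in0 hc (b0 + kk * s) w z hz ps o oK oG oN).D (RCe c.I.ha e 0)) ∧
      (∀ i, k0 (c.mk2 hm cc in0 hc (b0 + kk * s) w z hz ps o oK oG oN).D (RCe c.I.ha e 0) i ≤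
        (c.mk2 hm cc in0 hc (b0 + kk * s) w z hz ps o oK oG oN).D.L.k
          ((c.mk2 hm cc in0 hc (b0 + kk * s) w z hz ps o oK oG oN).D.ix i)) ∧
      (c.mk2 hm cc in0 hc (b0 + kk * s) w z hz ps o oK oG oN).VX hm B (c.I.m * (b0 + kk * s + βS))
        (c.I.m * (b0 + kk * s + βV))
        (k0 (c.mk2 hm cc in0 hc (b0 + kk * s) w z hz ps o oK oG oN).D (RCe c.I.ha e 0))
        (H661.Yng.Vs (H339W.RCz c.I.ha kk e) (Rw c.I.pm.n c.E1 1) c.I.ha D0 g (kk - k1) kk)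
        (H661.Yng.Xs (H339W.RCz c.I.ha kk e) (Rw c.I.pm.n c.E1 1) c.I.ha D0 g (kk - k1) kk ∪
          hits (Fo c.toC0 c.E1) c.I.ha B βV s b0 kk e) := by
  have hBr : (0 : ℝ) < B := by exact_mod_cast hB
  have hη : (0 : ℝ) < 1 / (4 * B) := by positivity
  obtain ⟨Tc0, hTc0, HX⟩ := H339W.xs_num hC (by positivity : (0 : ℝ) < δ1 / 2) hη (m := m) (by omega) g k1 D0 s
  refine ⟨Tc0, hTc0, fun Tc hTc => ?_⟩
  obtain ⟨h1, HX1⟩ := HX Tc hTc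
  obtain ⟨h2, HR⟩ := reg_num hK1 hδ hC m B βV s Tc hm1 hB
  obtain ⟨h3, hh3⟩ := exists_nat_ge ((m * (2 * βV + 8 * Bi + 2) : ℕ) / (δ1 / 2) : ℝ)
  refine ⟨max h1 (max h2 h3), ?_⟩
  intro Ω _ c hm cc in0 hc b0 kk V w z hz o oK oG oN Rm Ac rc e eK eδ em eB hh H he hkk hb0 hX hR
  have g1 : h1 ≤ c.I.h := (le_max_left _ _).trans hh
  have g2 : h2 ≤ c.I.h := ((le_max_left _ _).trans (le_max_right _ _)).trans hh
  have g3 : h3 ≤ c.I.h := ((le_max_right _ _).trans (le_max_right _ _)).trans hh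
  obtain ⟨-, -, HX2⟩ := HX1 c.I.h g1
  have hA : m * c.I.ha ≤ c.I.h := by
    rw [← em]
    exact Nat.mul_div_le _ _
  obtain ⟨q1, q2⟩ := HX2 c.I.ha hA (c.XR c.E1) kk e hX
  have q3 := HR Ω c.toC0 c.N0 c.E1 (eK ▸ c.good) em g2 b0 kk e hR
  obtain ⟨ω, hω, hwz⟩ := mk2_pt (c := c) hz
  have e1 : 1 / (4 * (B : ℝ)) * c.I.h = c.I.h / (4 * B) := by ring
  rw [e1] at q2
  obtain ⟨f1, f2⟩ := H339W.xs_fields (hm := hm) (cc := cc) c.cn in0 hc (he ω hω hwz) (g := g) (D0 := D0) (by omega) q1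
    (M := (m : ℝ)) (Nat.cast_nonneg _) q2
  have hb : b0 + kk * s < nBl (c.I.δ1 / 2) c.I.h c.I.m := by
    rw [eδ, em]
    have : kk * s < Tc * s := Nat.mul_lt_mul_of_pos_right hkk hs
    omega
  have hhV : ((c.I.m * (2 * βV + 8 * c.I.B + 2) : ℕ) : ℝ) ≤ c.I.δ1 / 2 * c.I.h := by
    rw [eδ, em, eB]
    have h4 : ((m * (2 * βV + 8 * Bi + 2) : ℕ) / (δ1 / 2) : ℝ) ≤ c.I.h := hh3.trans (by exact_mod_cast g3)
    rw [div_le_iff₀ (by positivity)] at h4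
    linarith
  refine ⟨q1, mk2_vx H he (H339W.lag c.cn in0 hc (he ω hω hwz)) (fun a ha => ?_) hg hB hD0 hps hβS hβ (by rw [eδ]; exact hδ)
    (by rw [eδ]; exact hδ3) hhV hb (by rw [em]; exact f1) (by rw [em]; exact f2) (by rw [em]; exact q3)⟩
  rw [RCe_of_le ha]
  unfold H339W.RCz
  rw [min_self]

end C1

end Vale.Agent.P106.U.H565
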