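import Vale.Agent.P106.U.H428.Net
import Vale.Agent.P106.U.H465.SubProps

/-!
# P106 / U / H428 : [JOIN] (helper428)

`pJoin : PJoin`.  The key of a box `B` of shape `(b, R)` : the cell of its centre and the coefficients of its functional in the
coordinates centred at this cell, rounded in units of the cap and of the thickness `2^-(R - j)`.  `J j B` = a representative with
the same key, thickness `2^-(R - j)`.
-/

set_option autoImplicit false

namespace Vale.Agent.P106.U.H428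

open Vale.Agent.P127 Vale.Agent.P127.Stk Vale.Agent.P127.U Vale.Agent.P106.W Vale.Agent.P106.K
open Vale.Agent.P122.C2 (fn)

/-- the centre of the box -/
def cn (B : Cbx) : Ry := ⟨B.p, B.v, B.ω⟩

theorem nrm_eq (B : Cbx) (l : Ry) : nrm B l = nv B l := by
  funext k
  fin_cases k <;> simp [nrm, nv, Cbx.nn]

/-! ### cells near a given ray -/

theorem floor_near {x y E : ℝ} {N : ℕ} (h : |x - y| ≤ E) (hE : E ≤ N) : ⌊x⌋ ∈ Finset.Icc (⌊y⌋ - (N + 1)) (⌊y⌋ + (N + 1)) := by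
  have h1 := floor_close_aux (h.trans hE)
  rw [abs_le] at h1
  rw [Finset.mem_Icc]
  omega

theorem fl1_near_mem {n : ℕ} {x y E : ℝ} {N : ℕ} (h : |x - y| ≤ E * (1 / 2 : ℝ) ^ n) (hE : E ≤ N) :
    fl1 n x ∈ Finset.Icc (fl1 n y - (N + 1)) (fl1 n y + (N + 1)) := by
  unfold fl1
  refine floor_near (E := E) ?_ hE
  rw [← mul_sub, abs_mul, abs_of_pos (by positivity)]
  calc (2 : ℝ) ^ n * |x - y| ≤ 2 ^ n * (E * (1 / 2 : ℝ) ^ n) := mul_le_mul_of_nonneg_left h (by positivity)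
    _ = E * (2 ^ n * (1 / 2 : ℝ) ^ n) := by ring
    _ = E := by rw [pw_b, mul_one]

/-- integer interval around `y` -/
noncomputable def Iz (N : ℕ) (y : ℤ) : Finset ℤ := Finset.Icc (y - (N + 1)) (y + (N + 1))

theorem Iz_card (N : ℕ) (y : ℤ) : (Iz N y).card = 2 * N + 3 := by
  unfold Iz
  rw [Int.card_Icc]
  have : y + (N + 1) + 1 - (y - (N + 1)) = ((2 * N + 3 : ℕ) : ℤ) := by push_cast; ring
  rw [this, Int.toNat_natCast]

/-- box of integer vectors -/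
noncomputable def Iv (N : ℕ) (y : Fin 2 → ℤ) : Finset (Fin 2 → ℤ) := Fintype.piFinset fun k => Iz N (y k)

theorem Iv_card (N : ℕ) (y : Fin 2 → ℤ) : (Iv N y).card = (2 * N + 3) ^ 2 := by
  unfold Iv
  rw [Fintype.card_piFinset]
  simp [Iz_card, sq]

theorem mem_Iv {N : ℕ} {x y : Fin 2 → ℤ} : x ∈ Iv N y ↔ ∀ k, x k ∈ Iz N (y k) := Fintype.mem_piFinset

/-- **the cells of the rays near `m'`** -/
theorem cells (E : ℝ) (hE : 0 ≤ E) : ∃ M : ℕ, ∀ (b : ℕ) (m' : Ry), ∃ Q : Finset Cell, Q.card ≤ M ∧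
    ∀ m, Nr E b m m' → pl b m ∈ Q := by
  obtain ⟨N, hN⟩ := exists_nat_ge (E + 2 * E * (E + 1))
  have hEN : E ≤ N := by nlinarith [mul_nonneg hE (by linarith : (0:ℝ) ≤ E + 1)]
  refine ⟨(2 * N + 3) ^ 5, fun b m' => ?_⟩
  let g : (Fin 2 → ℤ) → ℤ := fun x => fl1 (2 * b) (m'.z + ∑ k, m'.y k * (m'.s k - (x k : ℝ) / 2 ^ b))
  refine ⟨((Iv N (fl b m'.s)) ×ˢ (Iv N (fl b m'.y))).biUnion fun x =>
    (Iz N (g x.1)).image fun w => (x.1, x.2, w), ?_, fun m hm => ?_⟩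
  · refine Finset.card_biUnion_le.trans ?_
    calc ∑ x ∈ (Iv N (fl b m'.s)) ×ˢ (Iv N (fl b m'.y)), ((Iz N (g x.1)).image fun w => (x.1, x.2, w)).card
        ≤ ∑ x ∈ (Iv N (fl b m'.s)) ×ˢ (Iv N (fl b m'.y)), (2 * N + 3) := by
          refine Finset.sum_le_sum fun x _ => ?_
          exact Finset.card_image_le.trans (Iz_card _ _).le
      _ = (2 * N + 3) ^ 5 := by
          rw [Finset.sum_const, Finset.card_product, Iv_card, Iv_card, smul_eq_mul]
          ring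
  · rw [Finset.mem_biUnion]
    refine ⟨(fl b m.s, fl b m.y), ?_, ?_⟩
    · rw [Finset.mem_product]
      exact ⟨mem_Iv.2 fun k => fl1_near_mem (hm.s k) hEN, mem_Iv.2 fun k => fl1_near_mem (hm.y k) hEN⟩
    · rw [Finset.mem_image]
      refine ⟨fl1 (2 * b) (m.z + ∑ k, m.y k * (m.s k - (fl b m.s k : ℝ) / 2 ^ b)), ?_, rfl⟩
      refine fl1_near_mem (E := E + 2 * E * (E + 1)) ?_ hN
      set s0 : Fin 2 → ℝ := fun k => (fl b m.s k : ℝ) / 2 ^ b with hs0
      have e : m.z + ∑ k, m.y k * (m.s k - s0 k) - (m'.z + ∑ k, m'.y k * (m'.s k - s0 k)) =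
          ze m m' + ((m.y 0 - m'.y 0) * (m'.s 0 - s0 0) + (m.y 1 - m'.y 1) * (m'.s 1 - s0 1)) := by
        simp only [ze, Fin.sum_univ_two]
        ring
      have hs : ∀ k, |m'.s k - s0 k| ≤ (E + 1) * (1 / 2 : ℝ) ^ b := fun k => by
        have h1 : m'.s k - s0 k = -(m.s k - m'.s k) + (m.s k - s0 k) := by ring
        have h2 := abs_add_le (-(m.s k - m'.s k)) (m.s k - s0 k)
        rw [abs_neg] at h2
        have h3 := hm.s k
        have h4 : |m.s k - s0 k| ≤ (1 / 2 : ℝ) ^ b := fl1_near b (m.s k)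
        rw [h1]
        linarith
      have hk : ∀ k, |(m.y k - m'.y k) * (m'.s k - s0 k)| ≤ E * (E + 1) * (1 / 2 : ℝ) ^ (2 * b) := fun k => by
        rw [abs_mul]
        calc |m.y k - m'.y k| * |m'.s k - s0 k| ≤ (E * (1 / 2 : ℝ) ^ b) * ((E + 1) * (1 / 2 : ℝ) ^ b) :=
              mul_le_mul (hm.y k) (hs k) (abs_nonneg _) (by positivity)
          _ = E * (E + 1) * (1 / 2 : ℝ) ^ (2 * b) := by rw [two_mul, pow_add]; ring
      have h5 := abs_add_le (ze m m') ((m.y 0 - m'.y 0) * (m'.s 0 - s0 0) + (m.y 1 - m'.y 1) * (m'.s 1 - s0 1))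
      have h6 := abs_add_le ((m.y 0 - m'.y 0) * (m'.s 0 - s0 0)) ((m.y 1 - m'.y 1) * (m'.s 1 - s0 1))
      have h7 := hm.z
      have e2 : (E + 2 * E * (E + 1)) * (1 / 2 : ℝ) ^ (2 * b) = E * (1 / 2 : ℝ) ^ (2 * b) +
        (E * (E + 1) * (1 / 2 : ℝ) ^ (2 * b) + E * (E + 1) * (1 / 2 : ℝ) ^ (2 * b)) := by ring
      show |m.z + ∑ k, m.y k * (m.s k - s0 k) - (m'.z + ∑ k, m'.y k * (m'.s k - s0 k))| ≤ _
      rw [e, e2]
      linarith [hk 0, hk 1]

/-! ### coefficients -/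

/-- type of the rounded coefficients -/
abbrev Cf := (Fin 2 → ℤ) × ℤ × ℤ × ℤ × ℤ

/-- rounded coefficients of the functional of `B` at the ray `m` -/
noncomputable def cf (b R : ℕ) (B : Cbx) (m : Ry) : Cf :=
  (fl (R - b) (nv B m), fl1 (R - b) (B.κ / 2 ^ b), fl1 (R - b) (B.α / 2 ^ b), fl1 R (G0 B m), fl1 R (G1 B m))

theorem pw_sub {b R : ℕ} (h : b ≤ R) : (2 : ℝ) ^ b * (1 / 2 : ℝ) ^ R = (1 / 2 : ℝ) ^ (R - b) := by
  obtain ⟨d, rfl⟩ := Nat.exists_eq_add_of_le h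
  rw [Nat.add_sub_cancel_left, pow_add, ← mul_assoc, pw_b, one_mul]

theorem pw_sub2 {b R : ℕ} (h : b ≤ R) : (2 : ℝ) ^ (2 * b) * (1 / 2 : ℝ) ^ R = 2 ^ b * (1 / 2 : ℝ) ^ (R - b) := by
  rw [two_mul, pow_add, mul_assoc, pw_sub h]

theorem div_le {x D w : ℝ} {b : ℕ} (h : |x| ≤ D * (2 ^ b * w)) : |x / 2 ^ b| ≤ D * w := by
  have h2 : (0 : ℝ) < 2 ^ b := by positivity
  rw [abs_div, abs_of_pos h2, div_le_iff₀ h2]
  linarith

/-- equal coefficients -/
theorem cf_eq {b R : ℕ} (hb : b ≤ R) {B B' : Cbx} {m : Ry} (h : cf b R B m = cf b R B' m) : Cl 1 b R 1 B B' m := by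
  unfold cf at h
  simp only [Prod.mk.injEq] at h
  obtain ⟨h1, h2, h3, h4, h5⟩ := h
  have hk : ∀ x y : ℝ, fl1 (R - b) (x / 2 ^ b) = fl1 (R - b) (y / 2 ^ b) → |x - 1 * y| ≤ 1 * (2 ^ (2 * b) * (1 / 2 : ℝ) ^ R) := by
    intro x y hxy
    have := fl1_eq_near hxy
    rw [pw_sub2 hb, one_mul, one_mul]
    rw [← sub_div, abs_div, abs_of_pos (by positivity : (0:ℝ) < 2 ^ b), div_le_iff₀ (by positivity)] at this
    linarith
  refine ⟨fun k => ?_, hk _ _ h2, hk _ _ h3, ?_, ?_⟩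
  · rw [pw_sub hb, one_mul, one_mul]
    exact fl1_eq_near (congrFun h1 k)
  · rw [one_mul, one_mul]
    exact fl1_eq_near h4
  · rw [one_mul, one_mul]
    exact fl1_eq_near h5

/-- the coefficients of the functionals close to `σ` times a given one -/
theorem cf_mem (D : ℝ) : ∃ M : ℕ, ∀ (b R : ℕ), b ≤ R → ∀ (B' : Cbx) (m : Ry) (σ : ℝ), ∃ S : Finset Cf, S.card ≤ M ∧
    ∀ B, Cl D b R σ B B' m → cf b R B m ∈ S := by
  obtain ⟨N, hN⟩ := exists_nat_ge D
  refine ⟨(2 * N + 3) ^ 6, fun b R hb B' m σ => ?_⟩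
  refine ⟨Iv N (fl (R - b) fun k => σ * nv B' m k) ×ˢ Iz N (fl1 (R - b) (σ * B'.κ / 2 ^ b)) ×ˢ
    Iz N (fl1 (R - b) (σ * B'.α / 2 ^ b)) ×ˢ Iz N (fl1 R (σ * G0 B' m)) ×ˢ Iz N (fl1 R (σ * G1 B' m)), ?_, fun B hB => ?_⟩
  · rw [Finset.card_product, Finset.card_product, Finset.card_product, Finset.card_product, Iv_card, Iz_card, Iz_card, Iz_card,
      Iz_card]
    exact le_of_eq (by ring)
  · simp only [Finset.mem_product]
    refine ⟨mem_Iv.2 fun k => ?_, ?_, ?_, ?_, ?_⟩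
    · refine fl1_near_mem (E := D) ?_ hN
      rw [← pw_sub hb]
      exact hB.n k
    · refine fl1_near_mem (E := D) ?_ hN
      rw [← sub_div]
      refine div_le (h := ?_)
      rw [← pw_sub2 hb]
      exact hB.κ
    · refine fl1_near_mem (E := D) ?_ hN
      rw [← sub_div]
      refine div_le (h := ?_)
      rw [← pw_sub2 hb]
      exact hB.α
    · exact fl1_near_mem (E := D) hB.g0 hN
    · exact fl1_near_mem (E := D) hB.g1 hN

/-! ### boxes of one shape -/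

theorem bin_nr {c : ℝ} {b R : ℕ} {B : Cbx} (hB : Shp c b R B) {l : Ry} (h : Bin c B 0 l) : Nr c b l (cn B) := by
  obtain ⟨h1, h2, h3, -, -⟩ := h
  rw [hB.u2] at h1 h2 h3
  refine ⟨h1, h2, ?_⟩
  have e : max (((1 / 2 : ℝ) ^ b) ^ 2) 0 = (1 / 2 : ℝ) ^ (2 * b) := by
    rw [max_eq_left (by positivity), ← pow_mul, mul_comm]
  rw [e] at h3
  exact h3

theorem bin_g0 {c : ℝ} {b R : ℕ} {B : Cbx} (hB : Shp c b R B) {l : Ry} (h : Bin c B 0 l) : |G0 B l| ≤ c * (1 / 2 : ℝ) ^ R := by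
  rw [← hB.u1]
  exact h.2.2.2.1

theorem bin_g1 {c : ℝ} {b R : ℕ} {B : Cbx} (hB : Shp c b R B) {l : Ry} (h : Bin c B 0 l) : |G1 B l| ≤ c * (1 / 2 : ℝ) ^ R := by
  rw [← hB.u1]
  exact h.2.2.2.2

/-- a ray with these bounds is in the box -/
theorem bin_of {c : ℝ} {b R : ℕ} {B : Cbx} (h2 : B.u2 = (1 / 2 : ℝ) ^ b) (h1 : B.u1 = (1 / 2 : ℝ) ^ R) {l : Ry}
    (hn : Nr c b l (cn B)) (h0 : |G0 B l| ≤ c * (1 / 2 : ℝ) ^ R) (h3 : |G1 B l| ≤ c * (1 / 2 : ℝ) ^ R) : Bin c B 0 l := by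
  refine ⟨?_, ?_, ?_, ?_, ?_⟩
  · rw [h2]; exact hn.y
  · rw [h2]; exact hn.s
  · have e : max (B.u2 ^ 2) 0 = (1 / 2 : ℝ) ^ (2 * b) := by
      rw [h2, max_eq_left (by positivity), ← pow_mul, mul_comm]
    rw [e]
    exact hn.z
  · rw [h1]; exact h0
  · rw [h1]; exact h3

/-- the box with another thickness -/
def rsz (B : Cbx) (w : ℝ) : Cbx := ⟨B.θ, w, B.u2, B.κ, B.α, B.p, B.v, B.ω⟩

theorem kap_le {c : ℝ} {b : ℕ} {x u : ℝ} (hu : u = (1 / 2 : ℝ) ^ b) (h : |x| * u ≤ c) : |x| ≤ c * 2 ^ b := by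
  rw [hu] at h
  have h2 : (0 : ℝ) < 2 ^ b := by positivity
  calc |x| = (|x| * (1 / 2 : ℝ) ^ b) * 2 ^ b := by rw [mul_assoc, mul_comm ((1 / 2 : ℝ) ^ b), pw_b, mul_one]
    _ ≤ c * 2 ^ b := mul_le_mul_of_nonneg_right h h2.le

/-- the key of the box: cell of the centre, coefficients there -/
noncomputable def ky (b R : ℕ) (B : Cbx) : Cell × Cf := (pl b (cn B), cf b R B (ctr b (pl b (cn B))))

open Classical in
/-- representative of a key among the boxes of shape `(b, R)`, key with thickness `R - j` -/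
noncomputable def rp (c : ℝ) (b R j : ℕ) (q : Cell × Cf) : Cbx :=
  if h : ∃ B : Cbx, Shp c b R B ∧ ky b (R - j) B = q then h.choose else ⟨0, 0, 0, 0, 0, 0, 0, 0⟩

theorem rp_spec {c : ℝ} {b R j : ℕ} {B : Cbx} (h : Shp c b R B) :
    Shp c b R (rp c b R j (ky b (R - j) B)) ∧ ky b (R - j) (rp c b R j (ky b (R - j) B)) = ky b (R - j) B := by
  have hex : ∃ B' : Cbx, Shp c b R B' ∧ ky b (R - j) B' = ky b (R - j) B := ⟨B, h, rfl⟩
  unfold rp
  rw [dif_pos hex]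
  exact hex.choose_spec

/-- the join -/
noncomputable def Jn (c : ℝ) (b R j : ℕ) (B : Cbx) : Cbx := rsz (rp c b R j (ky b (R - j) B)) ((1 / 2 : ℝ) ^ (R - j))

theorem G0_rsz (B : Cbx) (w : ℝ) (l : Ry) : G0 (rsz B w) l = G0 B l := rfl

theorem G1_rsz (B : Cbx) (w : ℝ) (l : Ry) : G1 (rsz B w) l = G1 B l := rfl

theorem pow_R {R j : ℕ} : (1 / 2 : ℝ) ^ R ≤ (1 / 2 : ℝ) ^ (R - j) :=
  pow_le_pow_of_le_one (by norm_num) (by norm_num) (Nat.sub_le _ _)

/-- agreement of the frames at a common ray -/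
theorem cl_of_agr {c : ℝ} (hc : 1 ≤ c) {b R j : ℕ} (hb : b ≤ R) (hj : j ≤ R - b) {B B' : Cbx} {l : Ry}
    (hB : Shp c b R B) (hB' : Shp c b R B') (h : Bin c B 0 l) (h' : Bin c B' 0 l)
    (hA : Agr (2 ^ j * (1 / 2) ^ (R - b)) B B' l ∨ j = R - b) :
    ∃ σ : ℝ, (σ = 1 ∨ σ = -1) ∧ Cl (8 * c ^ 2) b (R - j) σ B B' l := by
  have hbR : b ≤ R - j := by omega
  have hc2 : c ≤ c ^ 2 := by nlinarith
  have hc22 : (1 : ℝ) ≤ c ^ 2 := one_le_pow₀ hc
  have g0 : ∀ σ : ℝ, (σ = 1 ∨ σ = -1) → |G0 B l - σ * G0 B' l| ≤ 8 * c ^ 2 * (1 / 2 : ℝ) ^ (R - j) := by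
    intro σ hσ
    have h1 := bin_g0 hB h
    have h2 := bin_g0 hB' h'
    have h3 := abs_sub (G0 B l) (σ * G0 B' l)
    have h4 : |σ * G0 B' l| = |G0 B' l| := by
      rcases hσ with rfl | rfl
      · rw [one_mul]
      · rw [neg_one_mul, abs_neg]
    rw [h4] at h3
    have h5 : c * (1 / 2 : ℝ) ^ R ≤ c ^ 2 * (1 / 2 : ℝ) ^ (R - j) := mul_le_mul hc2 pow_R (by positivity) (by positivity)
    have h6 : 0 ≤ c ^ 2 * (1 / 2 : ℝ) ^ (R - j) := by positivity
    linarith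
  have g1 : ∀ σ : ℝ, (σ = 1 ∨ σ = -1) → |G1 B l - σ * G1 B' l| ≤ 8 * c ^ 2 * (1 / 2 : ℝ) ^ (R - j) := by
    intro σ hσ
    have h1 := bin_g1 hB h
    have h2 := bin_g1 hB' h'
    have h3 := abs_sub (G1 B l) (σ * G1 B' l)
    have h4 : |σ * G1 B' l| = |G1 B' l| := by
      rcases hσ with rfl | rfl
      · rw [one_mul]
      · rw [neg_one_mul, abs_neg]
    rw [h4] at h3
    have h5 : c * (1 / 2 : ℝ) ^ R ≤ c ^ 2 * (1 / 2 : ℝ) ^ (R - j) := mul_le_mul hc2 pow_R (by positivity) (by positivity)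
    have h6 : 0 ≤ c ^ 2 * (1 / 2 : ℝ) ^ (R - j) := by positivity
    linarith
  rcases hA with ⟨σ, hσ, hn, hκ, hα⟩ | hjR
  · refine ⟨σ, hσ, ?_, ?_, ?_, g0 σ hσ, g1 σ hσ⟩
    all_goals
      have hδ : (2 : ℝ) ^ j * (1 / 2 : ℝ) ^ (R - b) = 2 ^ b * (1 / 2 : ℝ) ^ (R - j) := by
        rw [pw_sub hbR]
        have : R - b = j + (R - j - b) := by omega
        rw [this, pow_add, ← mul_assoc, pw_b, one_mul]
    · intro k
      have h1 := hn k
      rw [nrm_eq, nrm_eq, hδ] at h1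
      have h2 : |nv B l k - σ * nv B' l k| = |nv B' l k - σ * nv B l k| := by
        rcases hσ with rfl | rfl
        · rw [one_mul, one_mul, abs_sub_comm]
        · congr 1
          ring
      rw [h2]
      exact h1.trans (le_mul_of_one_le_left (by positivity) (by linarith))
    · have h2 : |B.κ - σ * B'.κ| = |B'.κ - σ * B.κ| := by
        rcases hσ with rfl | rfl
        · rw [one_mul, one_mul, abs_sub_comm]
        · congr 1
          ring
      have h3 := kap_le hB.u2 hκ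
      rw [h2]
      refine h3.trans ?_
      rw [hδ]
      have e : (2 : ℝ) ^ b * (1 / 2 : ℝ) ^ (R - j) * 2 ^ b = 2 ^ (2 * b) * (1 / 2 : ℝ) ^ (R - j) := by
        rw [two_mul, pow_add]; ring
      rw [e]
      exact le_mul_of_one_le_left (by positivity) (by linarith)
    · have h2 : |B.α - σ * B'.α| = |B'.α - σ * B.α| := by
        rcases hσ with rfl | rfl
        · rw [one_mul, one_mul, abs_sub_comm]
        · congr 1
          ring
      have h3 := kap_le hB.u2 hα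
      rw [h2]
      refine h3.trans ?_
      rw [hδ]
      have e : (2 : ℝ) ^ b * (1 / 2 : ℝ) ^ (R - j) * 2 ^ b = 2 ^ (2 * b) * (1 / 2 : ℝ) ^ (R - j) := by
        rw [two_mul, pow_add]; ring
      rw [e]
      exact le_mul_of_one_le_left (by positivity) (by linarith)
  · have hRj : R - j = b := by omega
    refine ⟨1, Or.inl rfl, ?_, ?_, ?_, g0 1 (Or.inl rfl), g1 1 (Or.inl rfl)⟩
    · intro k
      rw [hRj, pw_b, mul_one, one_mul]
      have hv : ∀ B'' : Cbx, Shp c b R B'' → Bin c B'' 0 l → |nv B'' l k| ≤ 1 + 3 * c ^ 2 := by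
        intro B'' hB'' hb''
        have h1 := bin_nr hB'' hb''
        have hκ := kap_le hB''.u2 hB''.κ2
        have hα := kap_le hB''.u2 hB''.α2
        have a1 : |B''.κ * (l.s k - B''.v k)| ≤ c ^ 2 := by
          rw [abs_mul]
          calc |B''.κ| * |l.s k - B''.v k| ≤ (c * 2 ^ b) * (c * (1 / 2 : ℝ) ^ b) :=
                mul_le_mul hκ (h1.s k) (abs_nonneg _) (by positivity)
            _ = c ^ 2 * (2 ^ b * (1 / 2 : ℝ) ^ b) := by ring
            _ = c ^ 2 := by rw [pw_b, mul_one]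
        have a2 : |B''.α * (l.y k - B''.p k)| ≤ c ^ 2 := by
          rw [abs_mul]
          calc |B''.α| * |l.y k - B''.p k| ≤ (c * 2 ^ b) * (c * (1 / 2 : ℝ) ^ b) :=
                mul_le_mul hα (h1.y k) (abs_nonneg _) (by positivity)
            _ = c ^ 2 * (2 ^ b * (1 / 2 : ℝ) ^ b) := by ring
            _ = c ^ 2 := by rw [pw_b, mul_one]
        have hs := Real.abs_sin_le_one B''.θ
        have hco := Real.abs_cos_le_one B''.θ
        rw [abs_le] at a1 a2 hs hco ⊢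
        fin_cases k
        · simp only [nv, Cbx.nn, Fin.zero_eta, Matrix.cons_val_zero] at a1 a2 ⊢
          constructor <;> linarith [a1.1, a1.2, a2.1, a2.2, hs.1, hs.2]
        · simp only [nv, Cbx.nn, Fin.mk_one, Matrix.cons_val_one, Matrix.cons_val_zero] at a1 a2 ⊢
          constructor <;> linarith [a1.1, a1.2, a2.1, a2.2, hco.1, hco.2]
      have h1 := hv B hB h
      have h2 := hv B' hB' h'
      have h3 := abs_sub (nv B l k) (nv B' l k)
      linarith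
    · rw [hRj, one_mul]
      have h1 := kap_le hB.u2 hB.κ2
      have h2 := kap_le hB'.u2 hB'.κ2
      have h3 := abs_sub B.κ B'.κ
      have e : 8 * c ^ 2 * (2 ^ (2 * b) * (1 / 2 : ℝ) ^ b) = 8 * c ^ 2 * 2 ^ b * (2 ^ b * (1 / 2 : ℝ) ^ b) := by
        rw [two_mul, pow_add]; ring
      rw [e, pw_b, mul_one]
      have h4 : c * 2 ^ b ≤ c ^ 2 * 2 ^ b := mul_le_mul_of_nonneg_right hc2 (by positivity)
      have h5 : 0 ≤ c ^ 2 * (2 : ℝ) ^ b := by positivity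
      linarith
    · rw [hRj, one_mul]
      have h1 := kap_le hB.u2 hB.α2
      have h2 := kap_le hB'.u2 hB'.α2
      have h3 := abs_sub B.α B'.α
      have e : 8 * c ^ 2 * (2 ^ (2 * b) * (1 / 2 : ℝ) ^ b) = 8 * c ^ 2 * 2 ^ b * (2 ^ b * (1 / 2 : ℝ) ^ b) := by
        rw [two_mul, pow_add]; ring
      rw [e, pw_b, mul_one]
      have h4 : c * 2 ^ b ≤ c ^ 2 * 2 ^ b := mul_le_mul_of_nonneg_right hc2 (by positivity)
      have h5 : 0 ≤ c ^ 2 * (2 : ℝ) ^ b := by positivity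
      linarith

/-- **[JOIN]** -/
theorem pJoin : PJoin := by
  intro c hc
  have hc0 : 0 ≤ c := by linarith
  have hcc : 0 ≤ c ^ 2 := by positivity
  -- constants
  set E1 : ℝ := c + 6 + 2 * (c + 6) * 6 with hE1
  set E3 : ℝ := c + 3 + 2 * (c + 3) * 3 with hE3
  set e : ℝ := c + 2 * c ^ 2 with he
  set E2 : ℝ := e + e + 2 * (e + e) * e with hE2
  set E4 : ℝ := 3 + c + 2 * (3 + c) * c with hE4
  have hE10 : 0 ≤ E1 := by positivity
  have hE30 : 0 ≤ E3 := by positivity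
  have he0 : 0 ≤ e := by positivity
  have hE20 : 0 ≤ E2 := by positivity
  have hE40 : 0 ≤ E4 := by positivity
  obtain ⟨N1, hN1⟩ := cells E2 hE20
  obtain ⟨M, hM⟩ := cf_mem (8 * c ^ 2 * (1 + 4 * E4 + 5 * E4 ^ 2))
  set c' : ℝ := c + 1 * (1 + 4 * E3 + 5 * E3 ^ 2) + E1 with hc'
  have hcc' : c ≤ c' := by
    have : 0 ≤ 1 * (1 + 4 * E3 + 5 * E3 ^ 2) := by positivity
    linarith
  refine ⟨c', N1 * (M + M), hc.trans hcc', fun b R hbR => ⟨Jn c b R, fun j hj => ⟨fun B hB => ?_, fun B' hB' => ?_⟩⟩⟩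
  · -- (A)
    have hbR' : b ≤ R - j := by omega
    obtain ⟨hS, hk⟩ := rp_spec (j := j) hB
    set B0 : Cbx := rp c b R j (ky b (R - j) B) with hB0
    unfold ky at hk
    simp only [Prod.mk.injEq] at hk
    obtain ⟨hk1, hk2⟩ := hk
    rw [hk1] at hk2
    have hcl : Cl 1 b (R - j) 1 B B0 (ctr b (pl b (cn B))) := cf_eq hbR' hk2.symm
    refine ⟨⟨hS.u2, rfl, hS.α2.trans hcc', hS.κ2.trans hcc'⟩, fun l hl => ?_⟩
    have n1 : Nr c b l (cn B) := bin_nr hB hl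
    have n2 : Nr E1 b l (cn B0) := Nr.trans' hc0 (by norm_num) n1 (nr_cell hk1)
    have n3 : Nr 3 b (ctr b (pl b (cn B))) (cn B) := by
      have := (nr_ctr b (cn B)).symm' zero_le_one
      norm_num at this
      exact this
    have n4 : Nr E3 b l (ctr b (pl b (cn B))) := by
      -- through the centre of B
      have h1 := n1
      have h2 : Nr 1 b (cn B) (ctr b (pl b (cn B))) := nr_ctr b (cn B)
      refine Nr.trans' hc0 (by norm_num) h1 ?_
      exact n3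
    have hmv := hcl.move zero_le_one hE30 n4
    have b0 := bin_g0 hB hl
    have b1 := bin_g1 hB hl
    have hcR : c * (1 / 2 : ℝ) ^ R ≤ c * (1 / 2 : ℝ) ^ (R - j) := mul_le_mul_of_nonneg_left pow_R hc0
    refine bin_of (B := rsz B0 ((1 / 2 : ℝ) ^ (R - j))) (b := b) (R := R - j) hS.u2 rfl ?_ ?_ ?_
    · have : E1 ≤ c' := by
        have : 0 ≤ 1 * (1 + 4 * E3 + 5 * E3 ^ 2) := by positivity
        linarith
      exact n2.mono this
    · show |G0 B0 l| ≤ _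
      have h1 := hmv.g0
      rw [one_mul (G0 B0 l)] at h1
      have h2 : |G0 B0 l| ≤ |G0 B l| + |G0 B l - G0 B0 l| := by
        have := abs_sub (G0 B l) (G0 B l - G0 B0 l)
        have e1 : G0 B l - (G0 B l - G0 B0 l) = G0 B0 l := by ring
        rwa [e1] at this
      have h3 : 0 ≤ E1 * (1 / 2 : ℝ) ^ (R - j) := by positivity
      have e2 : c' * (1 / 2 : ℝ) ^ (R - j) = c * (1 / 2 : ℝ) ^ (R - j) +
        1 * (1 + 4 * E3 + 5 * E3 ^ 2) * (1 / 2 : ℝ) ^ (R - j) + E1 * (1 / 2 : ℝ) ^ (R - j) := by rw [hc']; ring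
      rw [e2]
      linarith
    · show |G1 B0 l| ≤ _
      have h1 := hmv.g1
      rw [one_mul (G1 B0 l)] at h1
      have h2 : |G1 B0 l| ≤ |G1 B l| + |G1 B l - G1 B0 l| := by
        have := abs_sub (G1 B l) (G1 B l - G1 B0 l)
        have e1 : G1 B l - (G1 B l - G1 B0 l) = G1 B0 l := by ring
        rwa [e1] at this
      have h3 : 0 ≤ E1 * (1 / 2 : ℝ) ^ (R - j) := by positivity
      have e2 : c' * (1 / 2 : ℝ) ^ (R - j) = c * (1 / 2 : ℝ) ^ (R - j) +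
        1 * (1 + 4 * E3 + 5 * E3 ^ 2) * (1 / 2 : ℝ) ^ (R - j) + E1 * (1 / 2 : ℝ) ^ (R - j) := by rw [hc']; ring
      rw [e2]
      linarith
  · -- (B)
    classical
    have hbR' : b ≤ R - j := by omega
    obtain ⟨Q, hQc, hQ⟩ := hN1 b (cn B')
    choose S hSc hS using fun (q : Cell) (σ : ℝ) => hM b (R - j) hbR' B' (ctr b q) σ
    refine ⟨(Q.biUnion fun q => (S q 1 ∪ S q (-1)).image fun x => (q, x)).image
      fun k => rsz (rp c b R j k) ((1 / 2 : ℝ) ^ (R - j)), ?_, fun B l hB hl hl' hA => ?_⟩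
    · refine Finset.card_image_le.trans (Finset.card_biUnion_le.trans ?_)
      calc ∑ q ∈ Q, ((S q 1 ∪ S q (-1)).image fun x => (q, x)).card ≤ ∑ q ∈ Q, (M + M) := by
            refine Finset.sum_le_sum fun q _ => Finset.card_image_le.trans ((Finset.card_union_le _ _).trans ?_)
            exact add_le_add (hSc q 1) (hSc q (-1))
        _ = Q.card * (M + M) := by rw [Finset.sum_const, smul_eq_mul]
        _ ≤ N1 * (M + M) := Nat.mul_le_mul_right _ hQc
    · have n1 : Nr c b l (cn B) := bin_nr hB hl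
      have n1' : Nr c b l (cn B') := bin_nr hB' hl'
      have n2 : Nr e b (cn B) l := n1.symm' hc0
      have n2' : Nr e b (cn B') l := n1'.symm' hc0
      have n3 : Nr E2 b (cn B) (cn B') := Nr.trans' he0 he0 n2 n2'
      have hq := hQ _ n3
      have n4 : Nr 3 b (ctr b (pl b (cn B))) (cn B) := by
        have := (nr_ctr b (cn B)).symm' zero_le_one
        norm_num at this
        exact this
      have n5 : Nr E4 b (ctr b (pl b (cn B))) l := Nr.trans' (by norm_num) hc0 n4 n1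
      obtain ⟨σ, hσ, hcl⟩ := cl_of_agr hc hbR hj hB hB' hl hl' hA
      have hmv := hcl.move (by positivity) hE40 n5
      refine Finset.mem_image.2 ⟨ky b (R - j) B, ?_, rfl⟩
      refine Finset.mem_biUnion.2 ⟨_, hq, Finset.mem_image.2 ⟨cf b (R - j) B (ctr b (pl b (cn B))), ?_, rfl⟩⟩
      have := hS (pl b (cn B)) σ B hmv
      rcases hσ with rfl | rfl
      · exact Finset.mem_union_left _ this
      · exact Finset.mem_union_right _ this

end Vale.Agent.P106.U.H428
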