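import Vale.Agent.P106.U.H428.SlbC

/-!
# P106 / U / H428 : the start slab of `O(Rm)` bits (helper428)

* `pSlb1 : PSlb1` (literal Prop of helper61, U/H61/NrmDefs.lean).  The slab: `α = 0`, frame = own frame of the label, rounded to
  `Rm + 8` digits together with value and slope of the ray of the window.
* `own_nu` : a unit vector of `O(Rm)` bits which agrees with the own normal of the label to `Rm` digits.
-/

set_option autoImplicit false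

namespace Vale.Agent.P106.U.H428

open Vale.Agent.P127 Vale.Agent.P127.Stk Vale.Agent.P127.U Vale.Agent.P106.W Vale.Agent.P106.K
open Vale.Agent.P106.U Vale.Agent.P106.U.H416 Vale.Agent.P106.U.H61
open Vale.Agent.P106.U.H513 (dn dnB tau)

/-- the own normal of a label -/
theorem own_sq {h q : ℕ} {W : Cbx} {l : Ry} {t : ℝ} (H : W0 (1 / 1000) h q W l t) :
    |nv W (bl h l t) 0 ^ 2 + nv W (bl h l t) 1 ^ 2 - 1| ≤ 1 / 100 * (1 / 2 : ℝ) ^ q := by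
  rw [nv_sq]
  obtain ⟨g0, g1⟩ := H.g
  have e : 1 + 2 * W.κ * G1 W (bl h l t) - 4 * W.α * G0 W (bl h l t) - 1 =
      2 * (W.κ * G1 W (bl h l t)) - 4 * (W.α * G0 W (bl h l t)) := by ring
  rw [e]
  have hq : (0 : ℝ) < (1 / 2 : ℝ) ^ q := by positivity
  have a1 : |W.κ * G1 W (bl h l t)| ≤ 1 / 1000 * (1 / 1000 * (1 / 2 : ℝ) ^ q) := by
    rw [abs_mul]
    exact mul_le_mul H.κ g1 (abs_nonneg _) (by norm_num)
  have a2 : |W.α * G0 W (bl h l t)| ≤ 1 / 1000 * (1 / 1000 * (1 / 2 : ℝ) ^ q) := by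
    rw [abs_mul]
    exact mul_le_mul H.α g0 (abs_nonneg _) (by norm_num)
  have a3 := abs_sub (2 * (W.κ * G1 W (bl h l t))) (4 * (W.α * G0 W (bl h l t)))
  rw [abs_mul 2, abs_mul 4, abs_two, abs_of_pos (by norm_num : (0 : ℝ) < 4)] at a3
  linarith

theorem own_le {h q : ℕ} {W : Cbx} {l : Ry} {t : ℝ} (H : W0 (1 / 1000) h q W l t) (k : Fin 2) :
    |nv W (bl h l t) k| ≤ 2 := by
  have h1 := abs_le.1 (own_sq H)
  have hq1 : (1 / 2 : ℝ) ^ q ≤ 1 := pow_le_one₀ (by norm_num) (by norm_num)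
  refine abs_le_of_sq_le_sq ?_ (by norm_num)
  fin_cases k
  · show nv W (bl h l t) 0 ^ 2 ≤ _
    nlinarith [sq_nonneg (nv W (bl h l t) 1)]
  · show nv W (bl h l t) 1 ^ 2 ≤ _
    nlinarith [sq_nonneg (nv W (bl h l t) 0)]

/-- the digits of a bounded number -/
theorem dig_mem {n : ℕ} {x : ℝ} (h : |x| ≤ 16) : fl1 n x ∈ Iz (16 * 2 ^ n) (fl1 n 0) := by
  refine fl1_near_mem (E := 16 * 2 ^ n) ?_ (by push_cast; exact le_rfl)
  rw [sub_zero, mul_assoc, pw_b, mul_one]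
  exact h

/-- **the own normal, to `Rm` digits** -/
theorem own_nu (Rm : ℕ) : ∃ M : ℕ, ∀ h q : ℕ, Rm ≤ q → ∃ (key : Cbx → Ry → ℝ → Fin M) (ν : Fin M → Fin 2 → ℝ),
    (∀ i, ν i 0 ^ 2 + ν i 1 ^ 2 = 1) ∧ ∀ (W : Cbx) (l : Ry) (t : ℝ), W0 (1 / 1000) h q W l t →
      ∀ k, |nrm W (bl h l t) k - ν (key W l t) k| ≤ (1 / 2 : ℝ) ^ Rm := by
  classical
  set T : Finset (Fin 2 → ℤ) := Iv (16 * 2 ^ (Rm + 2)) (fun _ => fl1 (Rm + 2) 0) with hT
  refine ⟨T.card + 1, fun h q hq => ?_⟩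
  obtain ⟨e, he⟩ := keyFin T le_rfl
  let kx : Cbx × Ry × ℝ → Fin (T.card + 1) := fun x => e (fl (Rm + 2) (nv x.1 (bl h x.2.1 x.2.2)))
  have hm : ∀ x : Cbx × Ry × ℝ, W0 (1 / 1000) h q x.1 x.2.1 x.2.2 → fl (Rm + 2) (nv x.1 (bl h x.2.1 x.2.2)) ∈ T := by
    intro x hx
    rw [hT, mem_Iv]
    intro k
    exact dig_mem ((own_le hx k).trans (by norm_num))
  have hqr : (1 / 2 : ℝ) ^ q ≤ (1 / 2 : ℝ) ^ Rm := pow_le_pow_of_le_one (by norm_num) (by norm_num) hq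
  have hq1 : (1 / 2 : ℝ) ^ q ≤ 1 := pow_le_one₀ (by norm_num) (by norm_num)
  have hR2 : (1 / 2 : ℝ) ^ (Rm + 2) = (1 / 2 : ℝ) ^ Rm / 4 := by rw [pow_add]; norm_num; ring
  have hR0 : (0 : ℝ) < (1 / 2 : ℝ) ^ Rm := by positivity
  have hex : ∀ i : Fin (T.card + 1), ∃ ν : Fin 2 → ℝ, ν 0 ^ 2 + ν 1 ^ 2 = 1 ∧
      ∀ x, W0 (1 / 1000) h q x.1 x.2.1 x.2.2 → kx x = i → ∀ k, |nrm x.1 (bl h x.2.1 x.2.2) k - ν k| ≤ (1 / 2 : ℝ) ^ Rm := by
    intro i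
    by_cases hk : ∃ x, W0 (1 / 1000) h q x.1 x.2.1 x.2.2 ∧ kx x = i
    · obtain ⟨x', H', hk'⟩ := hk
      obtain ⟨L, θ', hL, n0, n1⟩ := angle (by linarith) (own_sq H')
      refine ⟨![-Real.sin θ', Real.cos θ'], by simp, fun x H hkx k => ?_⟩
      have h1 := he _ _ (hm x H) (hm x' H') (hkx.trans hk'.symm)
      have h2 : |nv x.1 (bl h x.2.1 x.2.2) k - nv x'.1 (bl h x'.2.1 x'.2.2) k| ≤ (1 / 2 : ℝ) ^ (Rm + 2) :=
        fl1_eq_near (congrFun h1 k)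
      have h3 : |nv x'.1 (bl h x'.2.1 x'.2.2) k - ![-Real.sin θ', Real.cos θ'] k| ≤ 1 / 100 * (1 / 2 : ℝ) ^ q := by
        fin_cases k
        · show |nv x'.1 (bl h x'.2.1 x'.2.2) 0 - -Real.sin θ'| ≤ _
          rw [n0]
          have e1 : -(L * Real.sin θ') - -Real.sin θ' = -((L - 1) * Real.sin θ') := by ring
          rw [e1, abs_neg, abs_mul]
          exact (mul_le_of_le_one_right (abs_nonneg _) (Real.abs_sin_le_one _)).trans hL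
        · show |nv x'.1 (bl h x'.2.1 x'.2.2) 1 - Real.cos θ'| ≤ _
          rw [n1]
          have e1 : L * Real.cos θ' - Real.cos θ' = (L - 1) * Real.cos θ' := by ring
          rw [e1, abs_mul]
          exact (mul_le_of_le_one_right (abs_nonneg _) (Real.abs_cos_le_one _)).trans hL
      rw [nrm_eq]
      have h4 := abs_add_le (nv x.1 (bl h x.2.1 x.2.2) k - nv x'.1 (bl h x'.2.1 x'.2.2) k)
        (nv x'.1 (bl h x'.2.1 x'.2.2) k - ![-Real.sin θ', Real.cos θ'] k)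
      rw [sub_add_sub_cancel] at h4
      linarith
    · exact ⟨![1, 0], by simp, fun x hx hkx => absurd ⟨x, hx, hkx⟩ hk⟩
  choose ν hν0 hν using hex
  exact ⟨fun W l t => kx (W, l, t), ν, hν0, fun W l t H k => hν _ (W, l, t) H rfl k⟩

/-- value of the fixed functional `(c, κ)` -/
def fv (c : Fin 2 → ℝ) (κ : ℝ) (m : Ry) : ℝ := c 0 * m.y 0 + c 1 * m.y 1 + κ * (m.z + (m.y 0 * m.s 0 + m.y 1 * m.s 1))

/-- slope of the fixed functional `(c, κ)` -/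
noncomputable def fs (c : Fin 2 → ℝ) (κ : ℝ) (m : Ry) : ℝ :=
  c 0 * m.s 0 + c 1 * m.s 1 + κ * ((m.s 0 ^ 2 + m.s 1 ^ 2) / 2)

/-- the covector of the fixed functional -/
noncomputable def fc (h : ℕ) (W : Cbx) (l : Ry) (t : ℝ) : Fin 2 → ℝ := fun k => nv W (bl h l t) k - W.κ * l.s k

/-- the digits -/
noncomputable def fk (n a h : ℕ) (W : Cbx) (l : Ry) (t : ℝ) : ((Fin 2 → ℤ) × ℤ × ℤ × ℤ) × Cell :=
  ((fl n (fc h W l t), fl1 n W.κ, fl1 n (fv (fc h W l t) W.κ (wR a l t)), fl1 n (fs (fc h W l t) W.κ (wR a l t))),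
    pl 4 (wR a l t))

theorem fv_sub {c c' : Fin 2 → ℝ} {κ κ' η : ℝ} {m : Ry} (hy : ∀ k, |m.y k| ≤ 1) (hs : ∀ k, |m.s k| ≤ 1) (hz : |m.z| ≤ 4)
    (hc : ∀ k, |c k - c' k| ≤ η) (hκ : |κ - κ'| ≤ η) : |fv c κ m - fv c' κ' m| ≤ 8 * η := by
  have hη : 0 ≤ η := (abs_nonneg _).trans hκ
  have e : fv c κ m - fv c' κ' m = (c 0 - c' 0) * m.y 0 + (c 1 - c' 1) * m.y 1 +
      (κ - κ') * (m.z + (m.y 0 * m.s 0 + m.y 1 * m.s 1)) + 0 + 0 := by
    unfold fv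
    ring
  rw [e]
  refine (abs5 _ _ _ _ _).trans ?_
  rw [abs_zero, abs_mul, abs_mul, abs_mul]
  have h1 : ∀ k, |c k - c' k| * |m.y k| ≤ η * 1 := fun k => mul_le_mul (hc k) (hy k) (abs_nonneg _) hη
  have h2 : |m.z + (m.y 0 * m.s 0 + m.y 1 * m.s 1)| ≤ 6 := by
    have a1 := abs_add_le m.z (m.y 0 * m.s 0 + m.y 1 * m.s 1)
    have a2 := abs_add_le (m.y 0 * m.s 0) (m.y 1 * m.s 1)
    have a3 : ∀ k, |m.y k * m.s k| ≤ 1 := fun k => by
      rw [abs_mul]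
      exact mul_le_one₀ (hy k) (abs_nonneg _) (hs k)
    linarith [a3 0, a3 1]
  have h3 : |κ - κ'| * |m.z + (m.y 0 * m.s 0 + m.y 1 * m.s 1)| ≤ η * 6 := mul_le_mul hκ h2 (abs_nonneg _) hη
  linarith [h1 0, h1 1]

theorem fs_sub {c c' : Fin 2 → ℝ} {κ κ' η : ℝ} {m : Ry} (hs : ∀ k, |m.s k| ≤ 1)
    (hc : ∀ k, |c k - c' k| ≤ η) (hκ : |κ - κ'| ≤ η) : |fs c κ m - fs c' κ' m| ≤ 8 * η := by
  have hη : 0 ≤ η := (abs_nonneg _).trans hκ
  have e : fs c κ m - fs c' κ' m = (c 0 - c' 0) * m.s 0 + (c 1 - c' 1) * m.s 1 +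
      (κ - κ') * ((m.s 0 ^ 2 + m.s 1 ^ 2) / 2) + 0 + 0 := by
    unfold fs
    ring
  rw [e]
  refine (abs5 _ _ _ _ _).trans ?_
  rw [abs_zero, abs_mul, abs_mul, abs_mul]
  have h1 : ∀ k, |c k - c' k| * |m.s k| ≤ η * 1 := fun k => mul_le_mul (hc k) (hs k) (abs_nonneg _) hη
  have h2 : |(m.s 0 ^ 2 + m.s 1 ^ 2) / 2| ≤ 1 := by
    rw [abs_of_nonneg (by positivity)]
    have a1 := (sq_le_one_iff_abs_le_one _).2 (hs 0)
    have a2 := (sq_le_one_iff_abs_le_one _).2 (hs 1)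
    linarith
  have h3 : |κ - κ'| * |(m.s 0 ^ 2 + m.s 1 ^ 2) / 2| ≤ η * 1 := mul_le_mul hκ h2 (abs_nonneg _) hη
  linarith [h1 0, h1 1]

/-- bounds -/
theorem fc_le {h q : ℕ} {W : Cbx} {l : Ry} {t : ℝ} (H : W0 (1 / 1000) h q W l t) (k : Fin 2) :
    |fc h W l t k| ≤ 21 / 10 := by
  have h1 := abs_sub (nv W (bl h l t) k) (W.κ * l.s k)
  have h2 := own_le H k
  have h3 : |W.κ * l.s k| ≤ 1 / 1000 * 1 := by
    rw [abs_mul]
    exact mul_le_mul H.κ (H.ok.2.1 k) (abs_nonneg _) (by norm_num)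
  show |nv W (bl h l t) k - W.κ * l.s k| ≤ _
  linarith

/-- **the slab of `O(Rm)` bits** -/
theorem pSlb1 : PSlb1 := by
  classical
  obtain ⟨Q, hQ⟩ := cell_win
  refine ⟨1, zero_le_one, fun Rm => ?_⟩
  set n : ℕ := Rm + 8 with hn
  set T : Finset (((Fin 2 → ℤ) × ℤ × ℤ × ℤ) × Cell) := (Iv (16 * 2 ^ n) (fun _ => fl1 n 0) ×ˢ Iz (16 * 2 ^ n) (fl1 n 0) ×ˢ
    Iz (16 * 2 ^ n) (fl1 n 0) ×ˢ Iz (16 * 2 ^ n) (fl1 n 0)) ×ˢ Q with hT
  refine ⟨T.card + 1, fun a w q => ?_⟩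
  obtain ⟨e, he⟩ := keyFin T le_rfl
  set r := min Rm q with hr
  let Hx : Cbx × Ry × ℝ → Prop := fun x => W0 (1 / 1000) (a + w) q x.1 x.2.1 x.2.2
  let kx : Cbx × Ry × ℝ → Fin (T.card + 1) := fun x => e (fk n a (a + w) x.1 x.2.1 x.2.2)
  have hmem : ∀ x, Hx x → fk n a (a + w) x.1 x.2.1 x.2.2 ∈ T := by
    intro x H
    obtain ⟨hy, hs, hz⟩ := ryOk_wR (a := a) (t := x.2.2) H.ok.2.1
    have hc := fc_le H
    have hκ := H.κ
    have z0 : fv (fun _ => 0) 0 (wR a x.2.1 x.2.2) = 0 := by unfold fv; ring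
    have z1 : fs (fun _ => 0) 0 (wR a x.2.1 x.2.2) = 0 := by unfold fs; ring
    have b0 := fv_sub (c := fc (a + w) x.1 x.2.1 x.2.2) (c' := fun _ => 0) (κ := x.1.κ) (κ' := 0) (η := 21 / 10)
      (m := wR a x.2.1 x.2.2) hy hs hz (fun k => by rw [sub_zero]; exact hc k) (by rw [sub_zero]; linarith)
    have b1 := fs_sub (c := fc (a + w) x.1 x.2.1 x.2.2) (c' := fun _ => 0) (κ := x.1.κ) (κ' := 0) (η := 21 / 10)
      (m := wR a x.2.1 x.2.2) hs (fun k => by rw [sub_zero]; exact hc k) (by rw [sub_zero]; linarith)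
    have b0' : |fv (fc (a + w) x.1 x.2.1 x.2.2) x.1.κ (wR a x.2.1 x.2.2)| ≤ 16 := by
      unfold fv at b0 ⊢
      simp only [zero_mul, add_zero, sub_zero] at b0
      have c0 := hc 0
      have c1 := hc 1
      have d : ∀ k, |fc (a + w) x.1 x.2.1 x.2.2 k * (wR a x.2.1 x.2.2).y k| ≤ 21 / 10 * 1 := fun k => by
        rw [abs_mul]
        exact mul_le_mul (hc k) (hy k) (abs_nonneg _) (by norm_num)
      have d2 : |x.1.κ * ((wR a x.2.1 x.2.2).z + ((wR a x.2.1 x.2.2).y 0 * (wR a x.2.1 x.2.2).s 0 +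
          (wR a x.2.1 x.2.2).y 1 * (wR a x.2.1 x.2.2).s 1))| ≤ 1 / 1000 * 6 := by
        rw [abs_mul]
        refine mul_le_mul hκ ?_ (abs_nonneg _) (by norm_num)
        have a1 := abs_add_le (wR a x.2.1 x.2.2).z ((wR a x.2.1 x.2.2).y 0 * (wR a x.2.1 x.2.2).s 0 +
          (wR a x.2.1 x.2.2).y 1 * (wR a x.2.1 x.2.2).s 1)
        have a2 := abs_add_le ((wR a x.2.1 x.2.2).y 0 * (wR a x.2.1 x.2.2).s 0)
          ((wR a x.2.1 x.2.2).y 1 * (wR a x.2.1 x.2.2).s 1)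
        have a3 : ∀ k, |(wR a x.2.1 x.2.2).y k * (wR a x.2.1 x.2.2).s k| ≤ 1 := fun k => by
          rw [abs_mul]
          exact mul_le_one₀ (hy k) (abs_nonneg _) (hs k)
        linarith [a3 0, a3 1]
      have d3 := abs_add_le (fc (a + w) x.1 x.2.1 x.2.2 0 * (wR a x.2.1 x.2.2).y 0 +
        fc (a + w) x.1 x.2.1 x.2.2 1 * (wR a x.2.1 x.2.2).y 1) (x.1.κ * ((wR a x.2.1 x.2.2).z +
          ((wR a x.2.1 x.2.2).y 0 * (wR a x.2.1 x.2.2).s 0 + (wR a x.2.1 x.2.2).y 1 * (wR a x.2.1 x.2.2).s 1)))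
      have d4 := abs_add_le (fc (a + w) x.1 x.2.1 x.2.2 0 * (wR a x.2.1 x.2.2).y 0)
        (fc (a + w) x.1 x.2.1 x.2.2 1 * (wR a x.2.1 x.2.2).y 1)
      linarith [d 0, d 1]
    have b1' : |fs (fc (a + w) x.1 x.2.1 x.2.2) x.1.κ (wR a x.2.1 x.2.2)| ≤ 16 := by
      unfold fs
      have d : ∀ k, |fc (a + w) x.1 x.2.1 x.2.2 k * (wR a x.2.1 x.2.2).s k| ≤ 21 / 10 * 1 := fun k => by
        rw [abs_mul]
        exact mul_le_mul (hc k) (hs k) (abs_nonneg _) (by norm_num)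
      have d2 : |x.1.κ * (((wR a x.2.1 x.2.2).s 0 ^ 2 + (wR a x.2.1 x.2.2).s 1 ^ 2) / 2)| ≤ 1 / 1000 * 1 := by
        rw [abs_mul]
        refine mul_le_mul hκ ?_ (abs_nonneg _) (by norm_num)
        rw [abs_of_nonneg (by positivity)]
        have a1 := (sq_le_one_iff_abs_le_one _).2 (hs 0)
        have a2 := (sq_le_one_iff_abs_le_one _).2 (hs 1)
        linarith
      have d3 := abs_add_le (fc (a + w) x.1 x.2.1 x.2.2 0 * (wR a x.2.1 x.2.2).s 0 +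
        fc (a + w) x.1 x.2.1 x.2.2 1 * (wR a x.2.1 x.2.2).s 1)
        (x.1.κ * (((wR a x.2.1 x.2.2).s 0 ^ 2 + (wR a x.2.1 x.2.2).s 1 ^ 2) / 2))
      have d4 := abs_add_le (fc (a + w) x.1 x.2.1 x.2.2 0 * (wR a x.2.1 x.2.2).s 0)
        (fc (a + w) x.1 x.2.1 x.2.2 1 * (wR a x.2.1 x.2.2).s 1)
      linarith [d 0, d 1]
    rw [hT]
    simp only [fk, Finset.mem_product]
    refine ⟨⟨mem_Iv.2 fun k => dig_mem ((hc k).trans (by norm_num)), dig_mem (hκ.trans (by norm_num)), dig_mem b0',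
      dig_mem b1'⟩, hQ a x.2.1 x.2.2 H.ok⟩
  have hq0 : (0 : ℝ) < (1 / 2 : ℝ) ^ q := by positivity
  have hr0 : (0 : ℝ) < (1 / 2 : ℝ) ^ r := by positivity
  have hqr : (1 / 2 : ℝ) ^ q ≤ (1 / 2 : ℝ) ^ r := pow_le_pow_of_le_one (by norm_num) (by norm_num) (min_le_right _ _)
  have hRr : (1 / 2 : ℝ) ^ Rm ≤ (1 / 2 : ℝ) ^ r := pow_le_pow_of_le_one (by norm_num) (by norm_num) (min_le_left _ _)
  have hq1 : (1 / 2 : ℝ) ^ q ≤ 1 := pow_le_one₀ (by norm_num) (by norm_num)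
  have hn8 : (1 / 2 : ℝ) ^ n = (1 / 2 : ℝ) ^ Rm / 256 := by
    rw [hn, pow_add]; norm_num; ring
  have hex : ∀ i : Fin (T.card + 1), ∃ S : Cbx, ∀ x, Hx x → kx x = i →
      SlbOk 1 r S w (wW a w x.1 x.2.1 x.2.2) (wR a x.2.1 x.2.2) (wt a x.2.2) := by
    intro i
    by_cases hk : ∃ x, Hx x ∧ kx x = i
    · obtain ⟨x', H', hk'⟩ := hk
      set m' := wR a x'.2.1 x'.2.2 with hm'
      obtain ⟨hy', hs', -⟩ := ryOk_wR (a := a) (t := x'.2.2) H'.ok.2.1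
      obtain ⟨S, s1, s2, s3, s4, s5, s6, s7, -, s8, s9⟩ := mkS r (δ := 1 / 100 * (1 / 2 : ℝ) ^ q)
        (n := nv x'.1 (bl (a + w) x'.2.1 x'.2.2)) (κ := x'.1.κ) (α := 0) (m' := m') (by positivity) (by linarith)
        (own_sq H') (H'.κ.trans (by norm_num)) (by rw [abs_zero]; norm_num) hy' hs'
      refine ⟨S, fun x H hkx => ?_⟩
      have hkk := he _ _ (hmem x H) (hmem x' H') (hkx.trans hk'.symm)
      simp only [fk, Prod.mk.injEq] at hkk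
      obtain ⟨⟨k1, k2, k3, k4⟩, k5⟩ := hkk
      set m := wR a x.2.1 x.2.2 with hm
      have hnr : Nr 6 4 m m' := nr_cell k5
      obtain ⟨hy, hs, hz⟩ := ryOk_wR (a := a) (t := x.2.2) H.ok.2.1
      have c1 : ∀ k, |fc (a + w) x.1 x.2.1 x.2.2 k - fc (a + w) x'.1 x'.2.1 x'.2.2 k| ≤ (1 / 2 : ℝ) ^ n :=
        fun k => fl1_eq_near (congrFun k1 k)
      have c2 : |x.1.κ - x'.1.κ| ≤ (1 / 2 : ℝ) ^ n := fl1_eq_near k2
      have c3 := fl1_eq_near k3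
      have c4 := fl1_eq_near k4
      have c5 := fv_sub (m := m) hy hs hz c1 c2
      have c6 := fs_sub (m := m) hs c1 c2
      rw [hn8] at c1 c2 c3 c4 c5 c6
      have hsl : ∀ k, m.s k = x.2.1.s k := fun _ => rfl
      have hsl' : ∀ k, m'.s k = x'.2.1.s k := fun _ => rfl
      set c' := fc (a + w) x'.1 x'.2.1 x'.2.2 with hc'
      have hnv' : ∀ k, nv x'.1 (bl (a + w) x'.2.1 x'.2.2) k = c' k + x'.1.κ * m'.s k := fun k => by
        rw [hc', hsl']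
        unfold fc
        ring
      have hnv : ∀ k, nv x.1 (bl (a + w) x.2.1 x.2.2) k = fc (a + w) x.1 x.2.1 x.2.2 k + x.1.κ * m.s k := fun k => by
        rw [hsl]
        unfold fc
        ring
      obtain ⟨hin, hfr⟩ := s9 m hnr (by
        have e5 : (nv x'.1 (bl (a + w) x'.2.1 x'.2.2) 0 * (m.y 0 - m'.y 0) +
            nv x'.1 (bl (a + w) x'.2.1 x'.2.2) 1 * (m.y 1 - m'.y 1)) + x'.1.κ * ze m m' -
            0 * ((m.y 0 - m'.y 0) ^ 2 + (m.y 1 - m'.y 1) ^ 2) = fv c' x'.1.κ m - fv c' x'.1.κ m' := by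
          rw [hnv' 0, hnv' 1]
          simp only [fv, ze, Fin.sum_univ_two]
          ring
        rw [e5]
        have h1 := abs_sub (fv (fc (a + w) x.1 x.2.1 x.2.2) x.1.κ m - fv c' x'.1.κ m')
          (fv (fc (a + w) x.1 x.2.1 x.2.2) x.1.κ m - fv c' x'.1.κ m)
        have e6 : fv (fc (a + w) x.1 x.2.1 x.2.2) x.1.κ m - fv c' x'.1.κ m' -
          (fv (fc (a + w) x.1 x.2.1 x.2.2) x.1.κ m - fv c' x'.1.κ m) = fv c' x'.1.κ m - fv c' x'.1.κ m' := by ring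
        rw [e6] at h1
        linarith) (by
        have e5 : (nv x'.1 (bl (a + w) x'.2.1 x'.2.2) 0 * (m.s 0 - m'.s 0) +
            nv x'.1 (bl (a + w) x'.2.1 x'.2.2) 1 * (m.s 1 - m'.s 1)) +
            x'.1.κ * ((m.s 0 - m'.s 0) ^ 2 + (m.s 1 - m'.s 1) ^ 2) / 2 +
            2 * 0 * (ze m m' - ((m.y 0 - m'.y 0) * (m.s 0 - m'.s 0) + (m.y 1 - m'.y 1) * (m.s 1 - m'.s 1))) =
            fs c' x'.1.κ m - fs c' x'.1.κ m' := by
          rw [hnv' 0, hnv' 1]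
          simp only [fs]
          ring
        rw [e5]
        have h1 := abs_sub (fs (fc (a + w) x.1 x.2.1 x.2.2) x.1.κ m - fs c' x'.1.κ m')
          (fs (fc (a + w) x.1 x.2.1 x.2.2) x.1.κ m - fs c' x'.1.κ m)
        have e6 : fs (fc (a + w) x.1 x.2.1 x.2.2) x.1.κ m - fs c' x'.1.κ m' -
          (fs (fc (a + w) x.1 x.2.1 x.2.2) x.1.κ m - fs c' x'.1.κ m) = fs c' x'.1.κ m - fs c' x'.1.κ m' := by ring
        rw [e6] at h1
        linarith)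
      refine ⟨s1, s2, s3, s4, s5, s6, hin, 1, Or.inl rfl, fun k => ?_, ?_⟩
      · rw [one_mul, nrm_eq, nv_wW, one_mul]
        have h1 := hfr k
        have h2 : nv x.1 (bl (a + w) x.2.1 x.2.2) k - nrm S m k = (fc (a + w) x.1 x.2.1 x.2.2 k - c' k) +
            (x.1.κ - x'.1.κ) * m.s k + -(nrm S m k - Nk (nv x'.1 (bl (a + w) x'.2.1 x'.2.2)) x'.1.κ 0 m' m k) + 0 + 0 := by
          rw [hnv k]
          unfold Nk
          rw [hnv' k]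
          ring
        rw [h2]
        refine (abs5 _ _ _ _ _).trans ?_
        rw [abs_neg, abs_zero]
        have h3 : |(x.1.κ - x'.1.κ) * m.s k| ≤ |x.1.κ - x'.1.κ| := by
          rw [abs_mul]
          exact mul_le_of_le_one_right (abs_nonneg _) (hs k)
        have h4 := c1 k
        linarith
      · rw [one_mul, one_mul, s8 rfl, mul_zero, add_zero]
        show |x.1.κ - S.κ| ≤ _
        have h1 := abs_sub (x.1.κ - x'.1.κ) (S.κ - x'.1.κ)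
        have e6 : x.1.κ - x'.1.κ - (S.κ - x'.1.κ) = x.1.κ - S.κ := by ring
        rw [e6] at h1
        linarith
    · exact ⟨⟨0, 0, 0, 0, 0, 0, 0, 0⟩, fun x hx hkx => absurd ⟨x, hx, hkx⟩ hk⟩
  choose S hS using hex
  refine ⟨fun W l t => kx (W, l, t), S, ?_⟩
  intro L W l t hl h0 h1 hL h2 h3
  exact hS _ (W, l, t) (W0.of hl h0 h1 hL h2 h3) rfl

end Vale.Agent.P106.U.H428
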