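import Vale.Agent.P106.U.H465.Clo

/-!
# P106 / U / H428 : the classes of the curvature (helper428), `[CLS]` of the type (ii) repair

Texts: note 19650 of helper776 with deterministic cuts of the drift.  `al a` is the curvature of the window
of level `a` in blocks of base `B`, `|al a| ≤ B ^ a`, `|al (a+1) - al a| ≤ (B-1) B ^ (a + s - RI a)`.
At the depth `x` the windows are grouped: `rep a x` is the last cut `≤ a` of the depth `x`; `rho a = RI a - a - s`;
a cut is placed at `(a+1, x)` when for all `x'` from `x` to `rho a - 2` the drift `∑ (B-1) B ^ (x' - rho a')` since the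
last cut of the depth `x'` exceeds `1/8`.  So the cuts are NESTED (a cut of the depth `x` is a cut of all depths `≥ x`)
and the drift since the last cut is always `≤ 1/7` (`acc_rec`).  Classes: pairs `(f, x)` with `rep f x = f`,
`-N ≤ x ≤ rho f`, letter `⌊al f * B ^ x⌋`, parent `(rep f (x-1), x-1)`; for `f = rep a x` the parent is the class
`(rep a (x-1), x-1)` (`rep_nest`).

* `ClsC.lean` : there are at most `3 N + RI N + 1` classes; given the value of the parent a class has at most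
  `2 B` values.
* `Dt` : the data (no law); `Dt.Su P` : the bounds on the support of the law `P`.
* `Kw P c G Kn` : the interface of the closure at ONE base: `Kn ω p` = the class `p` is known given the letter
  `G`; a class with known parent which is not known has no ball of radius `2` of mass `1 - c`.
* `rv_iff`, `rv_down`, `rv_low` : knowledge does not depend on the group, is closed downwards.
* `RT a ω` : the second path, a function of `G`; the same interface as helper785's `RW` :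
  `RT_le`, `RT_mono`, `RT_jump`, `RT_diag`, exact step `RT_eq`; value `gT` with `gT_spec` (no exceptional
  event), `gT_close`, `gT_close_multi`; `unk` for EVERY value of `G`; `RT_le_of` (monotone in the base).
* `L a y` : the letter of the level `a` at the depth `y`; `pfv` : the prefix letter (letters of all revealed depths) :
  `pfv_congr` (function of `G`), `pfv_res` (nested), `pfv_step` (constant along the diagonal off the cuts), `gT_pfv`.
* `kw_gb` : helper465's closure `Gb` satisfies the interface at every base, `Kn` = `Rd` (revealed).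
-/

set_option autoImplicit false
set_option linter.unusedSectionVars false

namespace Vale.Agent.P106.U.H428.Cls

open Finset Vale.Agent.P127 Vale.Agent.P127.Stk

/-- data of the classes -/
structure Dt (Ω : Type) where
  al : ℕ → Ω → ℝ
  RI : ℕ → ℕ
  s : ℕ
  B : ℝ
  /-- levels `≤ N`, depths `≥ -N` -/
  N : ℕ
  hB8 : 8 ≤ B
  hRI : Monotone RI

/-- the bounds on the support of the law -/
structure Dt.Su {Ω : Type} [Fintype Ω] (d : Dt Ω) (P : Law Ω) : Prop where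
  bd : ∀ a ω, 0 < P.w ω → |d.al a ω| ≤ d.B ^ (a : ℤ)
  ag : ∀ a ω, 0 < P.w ω → |d.al (a + 1) ω - d.al a ω| ≤ (d.B - 1) * d.B ^ ((a : ℤ) + d.s - d.RI a)

/-- an integer part in a ball of radius `2` -/
lemma floor_ball {z : ℝ} {v : ℤ} (h1 : (v : ℝ) - 2 ≤ z) (h2 : z < v + 3) : |⌊z⌋ - v| ≤ 2 := by
  rw [abs_le]
  constructor
  · have : v - 2 ≤ ⌊z⌋ := Int.le_floor.2 (by push_cast; exact h1)
    omega
  · have : ⌊z⌋ < v + 3 := Int.floor_lt.2 (by push_cast; exact h2)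
    omega

namespace Dt

variable {Ω : Type} (d : Dt Ω)

lemma B1 : 1 < d.B := by linarith [d.hB8]

lemma B0 : 0 < d.B := by linarith [d.hB8]

lemma zp (z : ℤ) : 0 < d.B ^ z := zpow_pos d.B0 z

lemma zp_mono {y z : ℤ} (h : y ≤ z) : d.B ^ y ≤ d.B ^ z := zpow_le_zpow_right₀ d.B1.le h

lemma zp_mul (y z : ℤ) : d.B ^ y * d.B ^ z = d.B ^ (y + z) := (zpow_add₀ d.B0.ne' y z).symm

lemma zp_le_one {z : ℤ} (h : z ≤ 0) : d.B ^ z ≤ 1 := by
  have := d.zp_mono h
  rwa [zpow_zero] at this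

/-! ### cuts -/

/-- the depth up to which the curvature is known on the side of the ray -/
def rho (a : ℕ) : ℤ := (d.RI a : ℤ) - a - d.s

lemma rho_succ (a : ℕ) : d.rho a - 1 ≤ d.rho (a + 1) := by
  have h := d.hRI (Nat.le_succ a)
  unfold rho
  have h1 : (d.RI a : ℤ) ≤ d.RI (a + 1) := by exact_mod_cast h
  push_cast
  omega

/-- the drift from the level `a` to the level `a + 1` at the depth `x` -/
noncomputable def dr (a : ℕ) (x : ℤ) : ℝ := (d.B - 1) * d.B ^ (x - d.rho a)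

lemma dr_pos (a : ℕ) (x : ℤ) : 0 < d.dr a x := mul_pos (by linarith [d.B1]) (d.zp _)

lemma dr_le {a : ℕ} {x : ℤ} {k : ℤ} (h : x ≤ d.rho a - k) : d.dr a x ≤ d.B ^ (1 - k) := by
  have h1 : d.B ^ (x - d.rho a) ≤ d.B ^ (-k) := d.zp_mono (by omega)
  have h2 : d.B ^ (1 - k) = d.B * d.B ^ (-k) := by
    rw [← zpow_one_add₀ d.B0.ne']
    congr 1
  unfold dr
  rw [h2]
  have h3 := d.zp (x - d.rho a)
  nlinarith [d.B1]

lemma dr_le_one {a : ℕ} {x : ℤ} (h : x ≤ d.rho a - 1) : d.dr a x ≤ 1 := by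
  have := d.dr_le h
  simpa using this

lemma dr_big {a : ℕ} {x : ℤ} (h : d.rho a - 1 ≤ x) : 1 / 4 < d.dr a x := by
  have h1 : d.B ^ (-1 : ℤ) ≤ d.B ^ (x - d.rho a) := d.zp_mono (by omega)
  rw [zpow_neg_one] at h1
  unfold dr
  have h2 : (d.B - 1) * d.B⁻¹ ≤ (d.B - 1) * d.B ^ (x - d.rho a) :=
    mul_le_mul_of_nonneg_left h1 (by linarith [d.B1])
  have h3 : (d.B - 1) * d.B⁻¹ = 1 - d.B⁻¹ := by
    rw [sub_mul, mul_inv_cancel₀ d.B0.ne', one_mul]
  have h4 : d.B⁻¹ ≤ 8⁻¹ := inv_anti₀ (by norm_num) d.hB8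
  rw [h3] at h2
  norm_num at h4
  linarith

open Classical in
/-- state of the cuts at all depths : last cut, drift since the last cut -/
noncomputable def st : ℕ → ℤ → ℕ × ℝ
  | 0 => fun _ => (0, 0)
  | a + 1 => fun x => if ∀ x', x ≤ x' → x' ≤ d.rho a - 2 → 1 / 8 < (st a x').2 + d.dr a x' then (a + 1, 0)
      else ((st a x).1, (st a x).2 + d.dr a x)

/-- the last cut -/
noncomputable def rep (a : ℕ) (x : ℤ) : ℕ := (d.st a x).1

/-- the drift since the last cut -/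
noncomputable def acc (a : ℕ) (x : ℤ) : ℝ := (d.st a x).2

/-- there is a cut of the depth `x` at the level `a + 1` : all depths from `x` to `rho a - 2` want one -/
def Cut (a : ℕ) (x : ℤ) : Prop := ∀ x', x ≤ x' → x' ≤ d.rho a - 2 → 1 / 8 < d.acc a x' + d.dr a x'

lemma rep_zero (x : ℤ) : d.rep 0 x = 0 := rfl

lemma acc_zero (x : ℤ) : d.acc 0 x = 0 := rfl

lemma st_succ (a : ℕ) (x : ℤ) :
    (¬ d.Cut a x ∧ d.rep (a + 1) x = d.rep a x ∧ d.acc (a + 1) x = d.acc a x + d.dr a x) ∨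
    (d.Cut a x ∧ d.rep (a + 1) x = a + 1 ∧ d.acc (a + 1) x = 0) := by
  classical
  by_cases h : d.Cut a x
  · right
    have h1 : d.st (a + 1) x = (a + 1, 0) := if_pos h
    refine ⟨h, ?_, ?_⟩
    · unfold rep; rw [h1]
    · unfold acc; rw [h1]
  · left
    have h1 : d.st (a + 1) x = ((d.st a x).1, (d.st a x).2 + d.dr a x) := if_neg h
    refine ⟨h, ?_, ?_⟩
    · unfold rep; rw [h1]
    · unfold acc; rw [h1]

lemma cut_gt {a : ℕ} {x : ℤ} (h : d.rho a - 1 ≤ x) : d.Cut a x := fun x' h1 h2 => by omega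

variable {d} in
/-- **the cuts are nested** -/
lemma Cut.mono {a : ℕ} {x y : ℤ} (h : d.Cut a x) (hxy : x ≤ y) : d.Cut a y :=
  fun x' h1 h2 => h x' (hxy.trans h1) h2

lemma acc_nonneg (a : ℕ) (x : ℤ) : 0 ≤ d.acc a x := by
  induction a with
  | zero => exact le_of_eq (d.acc_zero x).symm
  | succ a ih =>
    rcases d.st_succ a x with ⟨_, _, h⟩ | ⟨_, _, h⟩
    · rw [h]; have := d.dr_pos a x; linarith
    · rw [h]

lemma dr_succ (a : ℕ) (x : ℤ) : d.dr a (x + 1) = d.B * d.dr a x := by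
  unfold dr
  rw [show x + 1 - d.rho a = 1 + (x - d.rho a) by ring, zpow_one_add₀ d.B0.ne']
  ring

/-- a cut of the depth `x` waits for a cut of the depth `x + 1` only -/
lemma acc_rec (a : ℕ) (x : ℤ) : d.acc a x ≤ 1 / 8 + d.acc a (x + 1) * d.B⁻¹ := by
  have hBi : 0 < d.B⁻¹ := inv_pos.2 d.B0
  induction a with
  | zero => rw [d.acc_zero, d.acc_zero]; norm_num
  | succ a ih =>
    have h0 := mul_nonneg (d.acc_nonneg (a + 1) (x + 1)) hBi.le
    rcases d.st_succ a x with ⟨h1, _, h⟩ | ⟨_, _, h⟩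
    · rcases d.st_succ a (x + 1) with ⟨_, _, h'⟩ | ⟨h2, _, h'⟩
      · rw [h, h', d.dr_succ, add_mul]
        have h3 : d.B * d.dr a x * d.B⁻¹ = d.dr a x := by
          rw [mul_comm d.B, mul_assoc, mul_inv_cancel₀ d.B0.ne', mul_one]
        rw [h3]
        linarith
      · rw [h, h', zero_mul, add_zero]
        by_contra hcon
        refine h1 fun x' h3 h4 => ?_
        rcases h3.eq_or_lt with h5 | h5
        · rw [← h5]; exact not_le.1 hcon
        · exact h2 x' (by omega) h4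
    · rw [h]; linarith

lemma acc_top {a : ℕ} {x : ℤ} (h : (d.RI a : ℤ) ≤ x) : d.acc a x = 0 := by
  cases a with
  | zero => rfl
  | succ a =>
    rcases d.st_succ a x with ⟨h1, _, _⟩ | ⟨_, _, h2⟩
    · exfalso
      refine h1 (d.cut_gt ?_)
      have h3 : d.RI a ≤ d.RI (a + 1) := d.hRI (Nat.le_succ a)
      unfold rho
      omega
    · exact h2

lemma acc_le7 (a : ℕ) (x : ℤ) : d.acc a x ≤ 1 / 7 := by
  have key : ∀ k : ℕ, ∀ x : ℤ, (d.RI a : ℤ) - k ≤ x → d.acc a x ≤ 1 / 7 := by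
    intro k
    induction k with
    | zero =>
      intro x hx
      rw [d.acc_top (by push_cast at hx; omega)]
      norm_num
    | succ k ih =>
      intro x hx
      have h1 := ih (x + 1) (by push_cast at hx; omega)
      have h2 := d.acc_rec a x
      have h3 : d.B⁻¹ ≤ 8⁻¹ := inv_anti₀ (by norm_num) d.hB8
      have h4 : d.acc a (x + 1) * d.B⁻¹ ≤ 1 / 7 * 8⁻¹ :=
        mul_le_mul h1 h3 (inv_pos.2 d.B0).le (by norm_num)
      norm_num at h4 ⊢
      linarith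
  exact key ((d.RI a : ℤ) - x).toNat x (by omega)

lemma acc_le (a : ℕ) (x : ℤ) : d.acc a x ≤ 1 / 4 := (d.acc_le7 a x).trans (by norm_num)

lemma rep_le (a : ℕ) (x : ℤ) : d.rep a x ≤ a := by
  induction a with
  | zero => exact le_of_eq (d.rep_zero x)
  | succ a ih =>
    rcases d.st_succ a x with ⟨_, h, _⟩ | ⟨_, h, _⟩
    · rw [h]; omega
    · rw [h]

/-- no cut in between -/
lemma rep_between {a : ℕ} {x : ℤ} {a' : ℕ} (h1 : d.rep a x ≤ a') (h2 : a' ≤ a) :
    d.rep a' x = d.rep a x := by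
  induction a with
  | zero =>
    have : a' = 0 := by omega
    rw [this]
  | succ a ih =>
    rcases Nat.lt_or_ge a' (a + 1) with h3 | h3
    · rcases d.st_succ a x with ⟨_, h, _⟩ | ⟨_, h, _⟩
      · rw [h] at h1 ⊢
        exact ih h1 (by omega)
      · rw [h] at h1
        omega
    · have : a' = a + 1 := by omega
      rw [this]

lemma rep_rep (a : ℕ) (x : ℤ) : d.rep (d.rep a x) x = d.rep a x :=
  d.rep_between le_rfl (d.rep_le a x)

/-- between the cuts the depth is below the knowledge of the ray -/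
lemma rho_between {a : ℕ} {x : ℤ} {a' : ℕ} (h1 : d.rep a x ≤ a') (h2 : a' < a) :
    x ≤ d.rho a' - 2 := by
  induction a with
  | zero => omega
  | succ a ih =>
    rcases d.st_succ a x with ⟨h0, h, _⟩ | ⟨_, h, _⟩
    · rcases Nat.lt_or_ge a' a with h3 | h3
      · rw [h] at h1
        exact ih h1 h3
      · have h4 : a' = a := by omega
        rw [h4]
        by_contra hcon
        exact h0 (d.cut_gt (by omega))
    · rw [h] at h1
      omega

/-- the last cut is nondecreasing in the depth -/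
lemma rep_mono (a : ℕ) {x y : ℤ} (h : x ≤ y) : d.rep a x ≤ d.rep a y := by
  induction a with
  | zero => exact le_rfl
  | succ a ih =>
    rcases d.st_succ a x with ⟨_, h1, _⟩ | ⟨h0, h1, _⟩
    · rw [h1]
      rcases d.st_succ a y with ⟨_, h2, _⟩ | ⟨_, h2, _⟩
      · rw [h2]; exact ih
      · rw [h2]; exact (d.rep_le a x).trans (Nat.le_succ a)
    · rcases d.st_succ a y with ⟨h3, _, _⟩ | ⟨_, h2, _⟩
      · exact absurd (h0.mono h) h3
      · rw [h1, h2]

/-- **the groups are nested** : the parent of the class of `(a, y)` is the class of `(a, y - 1)` -/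
lemma rep_nest (a : ℕ) {x y : ℤ} (h : x ≤ y) : d.rep (d.rep a y) x = d.rep a x :=
  d.rep_between (d.rep_mono a h) (d.rep_le a y)

/-- no cut of the depth `x` : no cut of a smaller depth -/
lemma rep_stay {a : ℕ} {x y : ℤ} (h : d.rep (a + 1) y ≠ a + 1) (hxy : x ≤ y) : d.rep (a + 1) x = d.rep a x := by
  rcases d.st_succ a x with ⟨_, h1, _⟩ | ⟨h0, _, _⟩
  · exact h1
  · rcases d.st_succ a y with ⟨h3, _, _⟩ | ⟨_, h2, _⟩
    · exact absurd (h0.mono hxy) h3
    · exact absurd h2 h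

/-- the scaled curvature -/
noncomputable def z (a : ℕ) (x : ℤ) (ω : Ω) : ℝ := d.al a ω * d.B ^ x

variable {d} in
lemma Su.z_step [Fintype Ω] {P : Law Ω} (hs : d.Su P) {a : ℕ} {x : ℤ} {ω : Ω} (hω : 0 < P.w ω) : |d.z (a + 1) x ω - d.z a x ω| ≤ d.dr a x := by
  have h1 := hs.ag a ω hω
  have h2 : d.z (a + 1) x ω - d.z a x ω = (d.al (a + 1) ω - d.al a ω) * d.B ^ x := by
    unfold z; ring
  rw [h2, abs_mul, abs_of_pos (d.zp x)]
  have h3 : d.dr a x = (d.B - 1) * d.B ^ ((a : ℤ) + d.s - d.RI a) * d.B ^ x := by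
    unfold dr
    rw [mul_assoc, d.zp_mul]
    congr 2
    unfold rho
    ring
  rw [h3]
  exact mul_le_mul_of_nonneg_right h1 (d.zp x).le

variable {d} in
lemma Su.z_rep [Fintype Ω] {P : Law Ω} (hs : d.Su P) {a : ℕ} {x : ℤ} {ω : Ω} (hω : 0 < P.w ω) : |d.z a x ω - d.z (d.rep a x) x ω| ≤ 1 / 4 := by
  refine le_trans ?_ (d.acc_le a x)
  induction a with
  | zero => rw [d.rep_zero, sub_self, abs_zero]; exact d.acc_nonneg 0 x
  | succ a ih =>
    rcases d.st_succ a x with ⟨_, h, h'⟩ | ⟨_, h, h'⟩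
    · rw [h, h']
      have h1 := hs.z_step (a := a) (x := x) hω
      have h2 := abs_sub_le (d.z (a + 1) x ω) (d.z a x ω) (d.z (d.rep a x) x ω)
      linarith
    · rw [h, h', sub_self, abs_zero]

lemma z_scale (a : ℕ) {x y : ℤ} (ω : Ω) : d.z a y ω = d.z a x ω * d.B ^ (y - x) := by
  unfold z
  rw [mul_assoc, d.zp_mul]
  congr 2
  ring

/-! ### the classes -/

open Classical in
/-- the classes -/
noncomputable def cls : Finset (ℕ × ℤ) :=
  ((range (d.N + 1)) ×ˢ (Icc (-(d.N : ℤ)) (d.RI d.N))).filter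
    fun p => p.2 ≤ d.rho p.1 ∧ d.rep p.1 p.2 = p.1

lemma mem_cls {f : ℕ} {x : ℤ} : (f, x) ∈ d.cls ↔ f ≤ d.N ∧ -(d.N : ℤ) ≤ x ∧ x ≤ d.rho f ∧ d.rep f x = f := by
  classical
  unfold cls
  rw [Finset.mem_filter, Finset.mem_product, Finset.mem_range, Finset.mem_Icc]
  constructor
  · rintro ⟨⟨h1, h2, _⟩, h3, h4⟩
    exact ⟨by simpa using Nat.lt_succ_iff.1 h1, h2, h3, h4⟩
  · rintro ⟨h1, h2, h3, h4⟩
    refine ⟨⟨Nat.lt_succ_iff.2 h1, h2, ?_⟩, h3, h4⟩
    have h5 := d.hRI h1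
    have h6 : (d.RI f : ℤ) ≤ d.RI d.N := by exact_mod_cast h5
    have h7 : d.rho f = (d.RI f : ℤ) - f - d.s := rfl
    change x ≤ _
    omega

/-- index type of the classes -/
abbrev Ix : Type := {p : ℕ × ℤ // p ∈ d.cls}

/-- the class of the level `a` at the depth `x` -/
lemma rep_mem {a : ℕ} {x : ℤ} (ha : a ≤ d.N) (h1 : -(d.N : ℤ) ≤ x) (h2 : x ≤ d.rho a) :
    (d.rep a x, x) ∈ d.cls := by
  rw [mem_cls]
  have h3 := d.rep_le a x
  refine ⟨h3.trans ha, h1, ?_, d.rep_rep a x⟩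
  rcases h3.eq_or_lt with h4 | h4
  · rw [h4]; exact h2
  · have := d.rho_between (le_refl (d.rep a x)) h4
    omega

/-- the letter of a class -/
noncomputable def A (p : d.Ix) (ω : Ω) : ℤ := ⌊d.z p.1.1 p.1.2 ω⌋

open Classical in
/-- the parent of a class -/
noncomputable def pa (p : d.Ix) : Option d.Ix :=
  if h : (d.rep p.1.1 (p.1.2 - 1), p.1.2 - 1) ∈ d.cls then some ⟨_, h⟩ else none

/-! ### the interface of the closure -/

/-- the closure at one base -/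
structure Kw [Fintype Ω] {γ : Type*} (P : Law Ω) (c : ℝ) (G : Ω → γ) (Kn : Ω → d.Ix → Prop) : Prop where
  su : d.Su P
  c0 : 0 ≤ c
  fn : ∀ ω ω', G ω' = G ω → ∀ p, Kn ω' p ↔ Kn ω p
  val : ∀ ω ω', G ω' = G ω → ∀ p, Kn ω p → d.A p ω' = d.A p ω
  cl : ∀ ω p, (∀ q, d.pa p = some q → Kn ω q) → ¬ Kn ω p → ∀ g : ℤ,
    prE P (fun ω' => G ω' = G ω ∧ |d.A p ω' - g| ≤ 2) < (1 - c) * P.pr G (G ω)

/-- the class of the level `a` at the depth `x` is known -/
def rv (K : d.Ix → Prop) (a : ℕ) (x : ℤ) : Prop :=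
  a ≤ d.N ∧ x ≤ d.rho a ∧ ∃ h : (d.rep a x, x) ∈ d.cls, K ⟨_, h⟩

lemma rv_lb {K : d.Ix → Prop} {a : ℕ} {x : ℤ} (h : d.rv K a x) : -(d.N : ℤ) ≤ x := by
  obtain ⟨_, _, h3, _⟩ := h
  exact (d.mem_cls.1 h3).2.1

variable {d}
variable [Fintype Ω] {P : Law Ω} {γ : Type*} {c : ℝ} {G : Ω → γ} {Kn : Ω → d.Ix → Prop}

/-- a full ball -/
lemma Kw.full (h : d.Kw P c G Kn) {ω : Ω} {p : d.Ix} (hel : ∀ q, d.pa p = some q → Kn ω q) (g : ℤ)
    (hall : ∀ ω', 0 < P.w ω' → G ω' = G ω → |d.A p ω' - g| ≤ 2) : Kn ω p := by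
  classical
  by_contra hcon
  have h1 := h.cl ω p hel hcon g
  have h2 : P.pr G (G ω) ≤ prE P (fun ω' => G ω' = G ω ∧ |d.A p ω' - g| ≤ 2) := by
    have e1 : P.pr G (G ω) = ∑ ω', if G ω' = G ω then P.w ω' else 0 := by
      unfold Law.pr
      rw [Finset.sum_filter]
    have e2 : prE P (fun ω' => G ω' = G ω ∧ |d.A p ω' - g| ≤ 2) =
        ∑ ω', if G ω' = G ω ∧ |d.A p ω' - g| ≤ 2 then P.w ω' else 0 := by
      unfold prE
      rw [Finset.sum_filter]
      refine Finset.sum_congr rfl fun ω' _ => ?_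
      by_cases hq : G ω' = G ω ∧ |d.A p ω' - g| ≤ 2
      · rw [if_pos hq, if_pos hq]
      · rw [if_neg hq, if_neg hq]
    rw [e1, e2]
    refine Finset.sum_le_sum fun ω' _ => ?_
    by_cases hq : G ω' = G ω
    · rw [if_pos hq]
      rcases (P.nn ω').eq_or_lt with h0 | h0
      · rw [← h0]
        split_ifs <;> exact le_rfl
      · rw [if_pos ⟨hq, hall ω' h0 hq⟩]
    · rw [if_neg hq]
      split_ifs
      · exact P.nn ω'
      · exact le_rfl
  have h3 := P.pr_nonneg G (G ω)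
  have h4 := h.c0
  nlinarith

/-- knowledge at the level `a` gives an interval -/
lemma Kw.int (h : d.Kw P c G Kn) {ω : Ω} {a : ℕ} {x : ℤ} (hr : d.rv (Kn ω) a x) :
    ∃ v : ℤ, ∀ ω', 0 < P.w ω' → G ω' = G ω →
      (v : ℝ) ≤ d.z (d.rep a x) x ω' ∧ d.z (d.rep a x) x ω' < v + 1 := by
  obtain ⟨_, _, h3, h4⟩ := hr
  refine ⟨d.A ⟨_, h3⟩ ω, fun ω' _ hG => ?_⟩
  rw [← h.val ω ω' hG _ h4]
  exact ⟨Int.floor_le _, Int.lt_floor_add_one _⟩

/-- the equivalence of all levels at the depth `x` -/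
def Eqv (d : Dt Ω) (K : d.Ix → Prop) (x : ℤ) : Prop :=
  ∀ a, a + 1 ≤ d.N → x ≤ d.rho a - 1 → (d.rv K a x ↔ d.rv K (a + 1) x)

lemma Eqv.chain {K : d.Ix → Prop} {x : ℤ} (h : Eqv d K x) {f a : ℕ} (hfa : f ≤ a) (ha : a ≤ d.N)
    (hr : ∀ a', f ≤ a' → a' < a → x ≤ d.rho a' - 1) : d.rv K f x ↔ d.rv K a x := by
  induction a, hfa using Nat.le_induction with
  | base => exact Iff.rfl
  | succ j hj ih =>
    rw [ih (by omega) fun a' h1 h2 => hr a' h1 (by omega)]
    exact h j ha (hr j hj (by omega))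

/-- a class whose predecessor at the level `a` is known -/
lemma elig {K : d.Ix → Prop} {x : ℤ} (h : Eqv d K (x - 1)) {a : ℕ} (ha : a ≤ d.N)
    (hp : (d.rep a x, x) ∈ d.cls) (h2 : -(d.N : ℤ) ≤ x - 1 → d.rv K a (x - 1)) :
    ∀ q, d.pa ⟨_, hp⟩ = some q → K q := by
  classical
  intro q hq
  unfold pa at hq
  split_ifs at hq with h3
  have h4 : q = ⟨_, h3⟩ := (Option.some_injective _ hq).symm
  rw [h4]
  have h5 := d.mem_cls.1 h3
  have h6 := h2 h5.2.1
  have h7 := d.rep_le a x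
  have h8 : d.rv K (d.rep a x) (x - 1) ↔ d.rv K a (x - 1) := by
    refine h.chain h7 ha fun a' h1 h2 => ?_
    have := d.rho_between h1 h2
    omega
  obtain ⟨_, _, h9, h10⟩ := h8.2 h6
  exact h10

/-- transfer at the same depth -/
lemma Kw.tr (h : d.Kw P c G Kn) {ω : Ω} {a b : ℕ} {x : ℤ} (hr : d.rv (Kn ω) a x) (hb : b ≤ d.N)
    (hx : x ≤ d.rho b) (hd : ∀ ω', 0 < P.w ω' → |d.z b x ω' - d.z a x ω'| ≤ 1)
    (he : Eqv d (Kn ω) (x - 1)) (h2 : -(d.N : ℤ) ≤ x - 1 → d.rv (Kn ω) b (x - 1)) :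
    d.rv (Kn ω) b x := by
  obtain ⟨v, hv⟩ := h.int hr
  have hp := d.rep_mem hb (d.rv_lb hr) hx
  refine ⟨hb, hx, hp, h.full (elig he hb hp h2) v fun ω' h0 hG => floor_ball ?_ ?_⟩
  all_goals
    obtain ⟨h3, h4⟩ := hv ω' h0 hG
    have h5 := abs_le.1 (h.su.z_rep (a := a) (x := x) h0)
    have h6 := abs_le.1 (h.su.z_rep (a := b) (x := x) h0)
    have h7 := abs_le.1 (hd ω' h0)
    simp only
    linarith [h5.1, h5.2, h6.1, h6.2, h7.1, h7.2]

/-- transfer to a smaller depth -/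
lemma Kw.tr' (h : d.Kw P c G Kn) {ω : Ω} {a : ℕ} {x y : ℤ} (hr : d.rv (Kn ω) a x) (hyx : y ≤ x)
    (hy : -(d.N : ℤ) ≤ y) (he : Eqv d (Kn ω) (y - 1))
    (h2 : -(d.N : ℤ) ≤ y - 1 → d.rv (Kn ω) a (y - 1)) : d.rv (Kn ω) a y := by
  obtain ⟨v, hv⟩ := h.int hr
  have ha := hr.1
  have hx : y ≤ d.rho a := hyx.trans hr.2.1
  have hp := d.rep_mem ha hy hx
  set β : ℝ := d.B ^ (y - x) with hβ
  have hβ0 : 0 < β := d.zp _
  have hβ1 : β ≤ 1 := d.zp_le_one (by omega)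
  refine ⟨ha, hx, hp, h.full (elig he ha hp h2) ⌊(v : ℝ) * β⌋ fun ω' h0 hG => floor_ball ?_ ?_⟩
  all_goals
    obtain ⟨h3, h4⟩ := hv ω' h0 hG
    have h5 := abs_le.1 (h.su.z_rep (a := a) (x := x) h0)
    have h6 := abs_le.1 (h.su.z_rep (a := a) (x := y) h0)
    have h7 : d.z a y ω' = d.z a x ω' * β := d.z_scale a ω'
    have h8 := Int.floor_le ((v : ℝ) * β)
    have h9 := Int.lt_floor_add_one ((v : ℝ) * β)
    simp only
    nlinarith [h5.1, h5.2, h6.1, h6.2]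

/-- closed downwards, given the equivalence at smaller depths -/
lemma Kw.dn (h : d.Kw P c G Kn) {ω : Ω} {a : ℕ} {x : ℤ} (hr : d.rv (Kn ω) a x)
    (he : ∀ y < x, Eqv d (Kn ω) y) {y : ℤ} (h1 : -(d.N : ℤ) ≤ y) (h2 : y ≤ x) : d.rv (Kn ω) a y := by
  obtain ⟨k, hk⟩ : ∃ k : ℕ, y = -(d.N : ℤ) + k := ⟨(y + d.N).toNat, by omega⟩
  induction k generalizing y with
  | zero =>
    refine h.tr' hr h2 h1 (he _ (by omega)) fun h3 => ?_
    omega
  | succ k ih =>
    refine h.tr' hr h2 h1 (he _ (by omega)) fun h3 => ?_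
    exact ih h3 (by omega) (by push_cast at hk; omega)

/-- **knowledge does not depend on the group** -/
theorem Kw.eqv (h : d.Kw P c G Kn) (ω : Ω) (x : ℤ) : Eqv d (Kn ω) x := by
  have key : ∀ k : ℕ, ∀ x : ℤ, x < -(d.N : ℤ) + k → Eqv d (Kn ω) x := by
    intro k
    induction k with
    | zero =>
      intro x hx a _ _
      constructor
      · intro hr
        have := d.rv_lb hr
        push_cast at hx
        omega
      · intro hr
        have := d.rv_lb hr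
        push_cast at hx
        omega
    | succ k ih =>
      intro x hx a ha hxa
      have he : ∀ y < x, Eqv d (Kn ω) y := fun y hy => ih y (by push_cast at hx; omega)
      have hd : ∀ ω', 0 < P.w ω' → |d.z (a + 1) x ω' - d.z a x ω'| ≤ 1 := fun ω' h0 =>
        (h.su.z_step h0).trans (d.dr_le_one hxa)
      have hρ := d.rho_succ a
      constructor
      · intro hr
        refine h.tr hr ha (by omega) hd (he _ (by omega)) fun h3 => ?_
        exact (he (x - 1) (by omega) a ha (by omega)).1 (h.dn hr he h3 (by omega))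
      · intro hr
        refine h.tr hr (by omega) (by omega) (fun ω' h0 => ?_) (he _ (by omega)) fun h3 => ?_
        · rw [abs_sub_comm]; exact hd ω' h0
        · exact (he (x - 1) (by omega) a ha (by omega)).2 (h.dn hr he h3 (by omega))
  exact key (x + d.N + 1).toNat x (by omega)

/-- **knowledge passes to the next level and back** -/
theorem Kw.rv_iff (h : d.Kw P c G Kn) {ω : Ω} {a : ℕ} {x : ℤ} (ha : a + 1 ≤ d.N) (hx : x ≤ d.rho a - 1) :
    d.rv (Kn ω) a x ↔ d.rv (Kn ω) (a + 1) x := h.eqv ω x a ha hx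

/-- **knowledge is closed downwards** -/
theorem Kw.rv_down (h : d.Kw P c G Kn) {ω : Ω} {a : ℕ} {x : ℤ} (hr : d.rv (Kn ω) a x) {y : ℤ}
    (h1 : -(d.N : ℤ) ≤ y) (h2 : y ≤ x) : d.rv (Kn ω) a y := h.dn hr (fun y _ => h.eqv ω y) h1 h2

/-- the class after the known ones may be revealed -/
theorem Kw.rv_el (h : d.Kw P c G Kn) {ω : Ω} {a : ℕ} {x : ℤ} (hr : d.rv (Kn ω) a (x - 1))
    (hp : (d.rep a x, x) ∈ d.cls) : ∀ q, d.pa ⟨_, hp⟩ = some q → Kn ω q :=
  elig (h.eqv ω _) hr.1 hp fun _ => hr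

/-- the large digits are known -/
theorem Kw.rv_low (h : d.Kw P c G Kn) {ω : Ω} {a : ℕ} {x : ℤ} (ha : a ≤ d.N) (h1 : -(d.N : ℤ) ≤ x)
    (h2 : x ≤ d.rho a) (h3 : x ≤ -(a : ℤ)) : d.rv (Kn ω) a x := by
  obtain ⟨k, hk⟩ : ∃ k : ℕ, x = -(d.N : ℤ) + k := ⟨(x + d.N).toNat, by omega⟩
  have hz : ∀ x : ℤ, x ≤ -(a : ℤ) → ∀ ω', 0 < P.w ω' → |d.z (d.rep a x) x ω'| ≤ 1 := by
    intro x h3 ω' h0
    have h4 := h.su.bd (d.rep a x) ω' h0
    have h5 : d.B ^ ((d.rep a x : ℕ) : ℤ) ≤ d.B ^ (-x) := d.zp_mono (by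
      have := d.rep_le a x
      omega)
    unfold z
    rw [abs_mul, abs_of_pos (d.zp x)]
    have h6 : d.B ^ (-x) * d.B ^ x = 1 := by rw [d.zp_mul]; simp
    have h7 := mul_le_mul_of_nonneg_right (h4.trans h5) (d.zp x).le
    rwa [h6] at h7
  have fin : ∀ x : ℤ, x ≤ -(a : ℤ) → -(d.N : ℤ) ≤ x → x ≤ d.rho a →
      (-(d.N : ℤ) ≤ x - 1 → d.rv (Kn ω) a (x - 1)) → d.rv (Kn ω) a x := by
    intro x h3 h1 h2 h4
    have hp := d.rep_mem ha h1 h2
    refine ⟨ha, h2, hp, h.full (elig (h.eqv ω _) ha hp h4) 0 fun ω' h0 _ => floor_ball ?_ ?_⟩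
    all_goals
      have h5 := abs_le.1 (hz x h3 ω' h0)
      simp only [Int.cast_zero]
      linarith [h5.1, h5.2]
  induction k generalizing x with
  | zero => exact fin x h3 h1 h2 fun h5 => by omega
  | succ k ih => exact fin x h3 h1 h2 fun h5 => ih h5 (by omega) (by omega) (by push_cast at hk; omega)

/-! ### the second path -/

variable (d) in
/-- the second path : the largest `R ≤ RI a - s` such that the class of the depth `R - a` is known -/
noncomputable def RT (K : d.Ix → Prop) (a : ℕ) : ℕ :=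
  @Nat.findGreatest (fun R => d.rv K a ((R : ℤ) - a)) (Classical.decPred _) (d.RI a - d.s)

lemma RT_le (K : d.Ix → Prop) (a : ℕ) : d.RT K a ≤ d.RI a - d.s :=
  @Nat.findGreatest_le (fun R => d.rv K a ((R : ℤ) - a)) (Classical.decPred _) _

lemma RT_le' (K : d.Ix → Prop) (a : ℕ) : d.RT K a ≤ d.RI a := (RT_le K a).trans (Nat.sub_le _ _)

lemma le_RT {K : d.Ix → Prop} {a R : ℕ} (h : R ≤ d.RI a - d.s) (hr : d.rv K a ((R : ℤ) - a)) :
    R ≤ d.RT K a :=
  @Nat.le_findGreatest _ (fun R => d.rv K a ((R : ℤ) - a)) (Classical.decPred _) _ h hr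

lemma rv_RT_pos {K : d.Ix → Prop} {a : ℕ} (h : 0 < d.RT K a) : d.rv K a ((d.RT K a : ℤ) - a) :=
  @Nat.findGreatest_of_ne_zero (d.RT K a) (fun R => d.rv K a ((R : ℤ) - a))
    (Classical.decPred _) (d.RI a - d.s) rfl h.ne'

lemma not_rv {K : d.Ix → Prop} {a : ℕ} (h : d.RT K a + d.s < d.RI a) :
    ¬ d.rv K a ((d.RT K a : ℤ) + 1 - a) := by
  intro hr
  have := le_RT (K := K) (a := a) (R := d.RT K a + 1) (by omega) (by push_cast; exact hr)
  omega

/-- monotone in the knowledge -/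
lemma RT_le_of {K K' : d.Ix → Prop} (h : ∀ p, K p → K' p) (a : ℕ) : d.RT K a ≤ d.RT K' a := by
  rcases Nat.eq_zero_or_pos (d.RT K a) with h0 | h0
  · rw [h0]; exact Nat.zero_le _
  · obtain ⟨h1, h2, h3, h4⟩ := rv_RT_pos h0
    exact le_RT (RT_le K a) ⟨h1, h2, h3, h _ h4⟩

lemma Kw.rv_RT (h : d.Kw P c G Kn) {ω : Ω} {a : ℕ} (ha : a ≤ d.N) (hs : d.s ≤ d.RI a) :
    d.rv (Kn ω) a ((d.RT (Kn ω) a : ℤ) - a) := by
  rcases Nat.eq_zero_or_pos (d.RT (Kn ω) a) with h0 | h0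
  · rw [h0]
    refine h.rv_low ha ?_ ?_ ?_
    · push_cast; omega
    · unfold rho; push_cast; omega
    · push_cast; omega
  · exact rv_RT_pos h0

/-- **the second path is nondecreasing** -/
lemma Kw.RT_succ (h : d.Kw P c G Kn) {ω : Ω} {a : ℕ} (ha : a + 1 ≤ d.N) :
    d.RT (Kn ω) a ≤ d.RT (Kn ω) (a + 1) := by
  rcases Nat.eq_zero_or_pos (d.RT (Kn ω) a) with h0 | h0
  · rw [h0]; exact Nat.zero_le _
  · have h1 := RT_le (Kn ω) a
    have h2 := d.hRI (Nat.le_succ a)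
    have h3 : d.RI a ≤ d.RI (a + 1) := h2
    refine le_RT (by omega) ?_
    have h4 : d.rv (Kn ω) a ((d.RT (Kn ω) a : ℤ) - ((a + 1 : ℕ) : ℤ)) :=
      h.rv_down (rv_RT_pos h0) (by push_cast; omega) (by push_cast; omega)
    exact (h.rv_iff ha (by unfold rho; push_cast; omega)).1 h4

lemma Kw.RT_mono (h : d.Kw P c G Kn) {ω : Ω} {a b : ℕ} (hab : a ≤ b) (hb : b ≤ d.N) :
    d.RT (Kn ω) a ≤ d.RT (Kn ω) b := by
  induction b, hab using Nat.le_induction with
  | base => exact le_rfl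
  | succ j _ ih => exact (ih (by omega)).trans (h.RT_succ hb)

/-- **exact step** : below the first path the second path goes up by one -/
theorem Kw.RT_eq (h : d.Kw P c G Kn) {ω : Ω} {a : ℕ} (ha : a + 1 ≤ d.N)
    (hR : d.RT (Kn ω) a + d.s + 2 ≤ d.RI a) : d.RT (Kn ω) (a + 1) = d.RT (Kn ω) a + 1 := by
  have h2 : d.RI a ≤ d.RI (a + 1) := d.hRI (Nat.le_succ a)
  have h3 := h.rv_RT (ω := ω) (a := a) (by omega) (by omega)
  refine le_antisymm ?_ ?_
  · by_contra hcon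
    push Not at hcon
    have h4 : d.rv (Kn ω) (a + 1) ((d.RT (Kn ω) (a + 1) : ℤ) - ((a + 1 : ℕ) : ℤ)) :=
      rv_RT_pos (by omega)
    have h5 : d.rv (Kn ω) (a + 1) ((d.RT (Kn ω) a : ℤ) + 1 - a) :=
      h.rv_down h4 (by have := d.rv_lb h3; omega) (by push_cast; omega)
    exact not_rv (by omega) ((h.rv_iff ha (by unfold rho; omega)).2 h5)
  · refine le_RT (by omega) ?_
    have h4 := (h.rv_iff ha (by unfold rho; omega)).1 h3
    have h5 : ((d.RT (Kn ω) a + 1 : ℕ) : ℤ) - ((a + 1 : ℕ) : ℤ) = (d.RT (Kn ω) a : ℤ) - a := by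
      push_cast; ring
    rw [h5]
    exact h4

/-- **jumps** : a jump of the second path starts near the first path -/
theorem Kw.RT_jump (h : d.Kw P c G Kn) {ω : Ω} {a : ℕ} (ha : a + 1 ≤ d.N)
    (hR : d.RT (Kn ω) a + 2 ≤ d.RT (Kn ω) (a + 1)) : d.RI a ≤ d.RT (Kn ω) a + 1 + d.s := by
  by_contra hcon
  push Not at hcon
  have := h.RT_eq ha (ω := ω) (by omega)
  omega

/-- **diagonal** : exact form -/
theorem Kw.RT_dg (h : d.Kw P c G Kn) {ω : Ω} {a : ℕ} (k : ℕ) (ha : a + k ≤ d.N)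
    (hR : d.RT (Kn ω) a + k + d.s + 1 ≤ d.RI a) : d.RT (Kn ω) (a + k) = d.RT (Kn ω) a + k := by
  induction k with
  | zero => rfl
  | succ k ih =>
    have h1 := ih (by omega) (by omega)
    have h2 := d.hRI (Nat.le_add_right a k)
    have h3 := h.RT_eq (a := a + k) (ω := ω) (by omega) (by rw [h1]; omega)
    rw [← add_assoc, h3, h1, add_assoc]

/-- **no flat stretch** : the form of helper785's `RW_diag` -/
theorem Kw.RT_diag (h : d.Kw P c G Kn) {ω : Ω} {a : ℕ} (k : ℕ) (ha : a + k ≤ d.N)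
    (hR : d.RT (Kn ω) a + k + d.s ≤ d.RI a) : d.RT (Kn ω) a + k ≤ d.RT (Kn ω) (a + k) + 1 := by
  rcases Nat.eq_zero_or_pos k with h0 | h0
  · subst h0; simp
  · have h1 := h.RT_dg (ω := ω) (a := a) (k - 1) (by omega) (by omega)
    have h2 := h.RT_mono (ω := ω) (a := a + (k - 1)) (b := a + k) (by omega) ha
    omega

/-! ### the value -/

variable (d) in
open Classical in
/-- the value of the curvature -/
noncomputable def gT (K : d.Ix → Prop) (a : ℕ) (ω : Ω) : ℝ :=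
  if h : 0 < d.RT K a ∧ (d.rep a ((d.RT K a : ℤ) - a), (d.RT K a : ℤ) - a) ∈ d.cls then
    ((d.A ⟨_, h.2⟩ ω : ℝ) + 1 / 2) * d.B ^ ((a : ℤ) - d.RT K a) else 0

/-- **the value** : no exceptional event -/
theorem Su.gT_spec (h : d.Su P) (K : d.Ix → Prop) (a : ℕ) {ω : Ω} (hω : 0 < P.w ω) :
    |d.al a ω - d.gT K a ω| ≤ d.B ^ ((a : ℤ) - d.RT K a) := by
  classical
  rcases Nat.eq_zero_or_pos (d.RT K a) with h0 | h0
  · have h1 : d.gT K a ω = 0 := by
      unfold gT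
      rw [dif_neg (fun h => by omega)]
    rw [h1, sub_zero, h0]
    have := h.bd a ω hω
    simpa using this
  · obtain ⟨h1, h2, h3, h4⟩ := rv_RT_pos h0
    have h5 : d.gT K a ω = ((d.A ⟨_, h3⟩ ω : ℝ) + 1 / 2) * d.B ^ ((a : ℤ) - d.RT K a) := by
      unfold gT
      rw [dif_pos ⟨h0, h3⟩]
    rw [h5]
    set x : ℤ := (d.RT K a : ℤ) - a with hx
    have h6 : d.B ^ ((a : ℤ) - d.RT K a) = d.B ^ (-x) := by rw [hx]; congr 1; ring
    rw [h6]
    have h7 := abs_le.1 (h.z_rep (a := a) (x := x) hω)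
    have h8 := Int.floor_le (d.z (d.rep a x) x ω)
    have h9 := Int.lt_floor_add_one (d.z (d.rep a x) x ω)
    have h10 : d.al a ω = d.z a x ω * d.B ^ (-x) := by
      unfold z
      rw [mul_assoc, d.zp_mul]
      simp
    have h11 : d.al a ω - ((d.A ⟨_, h3⟩ ω : ℝ) + 1 / 2) * d.B ^ (-x) =
        (d.z a x ω - ((⌊d.z (d.rep a x) x ω⌋ : ℝ) + 1 / 2)) * d.B ^ (-x) := by
      rw [h10]
      unfold A
      ring
    rw [h11, abs_mul, abs_of_pos (d.zp _)]
    refine mul_le_of_le_one_left (d.zp _).le ?_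
    rw [abs_le]
    constructor
    · linarith [h7.1, h7.2]
    · linarith [h7.1, h7.2]

/-- the path and the value are functions of `G` -/
theorem Kw.congr (h : d.Kw P c G Kn) {ω ω' : Ω} (hG : G ω' = G ω) (a : ℕ) :
    d.RT (Kn ω') a = d.RT (Kn ω) a ∧ d.gT (Kn ω') a ω' = d.gT (Kn ω) a ω := by
  classical
  have e : Kn ω' = Kn ω := funext fun p => propext (h.fn ω ω' hG p)
  rw [e]
  refine ⟨rfl, ?_⟩
  unfold gT
  by_cases hc : 0 < d.RT (Kn ω) a ∧ (d.rep a ((d.RT (Kn ω) a : ℤ) - a), (d.RT (Kn ω) a : ℤ) - a) ∈ d.cls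
  · rw [dif_pos hc, dif_pos hc]
    obtain ⟨_, _, h3, h4⟩ := rv_RT_pos hc.1
    rw [h.val ω ω' hG _ h4]
  · rw [dif_neg hc, dif_neg hc]

/-- consecutive values agree -/
theorem Kw.gT_close (h : d.Kw P c G Kn) {ω : Ω} (hω : 0 < P.w ω) {a : ℕ} (ha : a + 1 ≤ d.N)
    (hs : d.s ≤ d.RI a) :
    |d.gT (Kn ω) (a + 1) ω - d.gT (Kn ω) a ω| ≤ 2 * d.B ^ ((a : ℤ) + 1 - d.RT (Kn ω) a) := by
  have h1 := h.su.gT_spec (Kn ω) a hω
  have h2 := h.su.gT_spec (Kn ω) (a + 1) hω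
  have h3 := h.su.ag a ω hω
  have h4 := RT_le (Kn ω) a
  have h5 : d.B ^ ((a : ℤ) + d.s - d.RI a) ≤ d.B ^ ((a : ℤ) - d.RT (Kn ω) a) := d.zp_mono (by omega)
  have h6 : (d.B - 1) * d.B ^ ((a : ℤ) + d.s - d.RI a) ≤ (d.B - 1) * d.B ^ ((a : ℤ) - d.RT (Kn ω) a) :=
    mul_le_mul_of_nonneg_left h5 (by linarith [d.B1])
  have h7 : d.B ^ (((a + 1 : ℕ) : ℤ) - d.RT (Kn ω) (a + 1)) ≤ d.B ^ ((a : ℤ) + 1 - d.RT (Kn ω) a) := by
    refine d.zp_mono ?_
    have := h.RT_succ (ω := ω) ha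
    push_cast
    omega
  have h8 : d.B ^ ((a : ℤ) + 1 - d.RT (Kn ω) a) = d.B * d.B ^ ((a : ℤ) - d.RT (Kn ω) a) := by
    rw [← zpow_one_add₀ d.B0.ne']
    congr 1
    ring
  have h9 : |d.gT (Kn ω) (a + 1) ω - d.gT (Kn ω) a ω| ≤ |d.al (a + 1) ω - d.gT (Kn ω) (a + 1) ω| +
      (|d.al (a + 1) ω - d.al a ω| + |d.al a ω - d.gT (Kn ω) a ω|) := by
    have e : d.gT (Kn ω) (a + 1) ω - d.gT (Kn ω) a ω = -(d.al (a + 1) ω - d.gT (Kn ω) (a + 1) ω) +
        ((d.al (a + 1) ω - d.al a ω) + (d.al a ω - d.gT (Kn ω) a ω)) := by ring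
    rw [e]
    refine (abs_add_le _ _).trans ?_
    rw [abs_neg]
    gcongr
    exact abs_add_le _ _
  rw [h8] at h7 ⊢
  nlinarith

/-- the values of two levels agree -/
theorem Kw.gT_close_multi (h : d.Kw P c G Kn) {ω : Ω} (hω : 0 < P.w ω) {a : ℕ} (hs : d.s ≤ d.RI a)
    (k : ℕ) (ha : a + k ≤ d.N) :
    |d.gT (Kn ω) (a + k) ω - d.gT (Kn ω) a ω| ≤ 4 * d.B ^ (((a + k : ℕ) : ℤ) - d.RT (Kn ω) a) := by
  induction k with
  | zero =>
    simp only [add_zero, sub_self, abs_zero]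
    exact mul_nonneg (by norm_num) (d.zp _).le
  | succ k ih =>
    have h0 := ih (by omega)
    have h1 := h.gT_close hω (a := a + k) (by omega) (hs.trans (d.hRI (Nat.le_add_right a k)))
    have h2 : d.B ^ (((a + k : ℕ) : ℤ) + 1 - d.RT (Kn ω) (a + k)) ≤
        d.B ^ (((a + (k + 1) : ℕ) : ℤ) - d.RT (Kn ω) a) := by
      refine d.zp_mono ?_
      have := h.RT_mono (ω := ω) (Nat.le_add_right a k) (by omega)
      push_cast
      omega
    have h3 : d.B ^ (((a + (k + 1) : ℕ) : ℤ) - d.RT (Kn ω) a) =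
        d.B * d.B ^ (((a + k : ℕ) : ℤ) - d.RT (Kn ω) a) := by
      rw [← zpow_one_add₀ d.B0.ne']
      congr 1
      push_cast
      ring
    have h4 : |d.gT (Kn ω) (a + (k + 1)) ω - d.gT (Kn ω) a ω| ≤
        |d.gT (Kn ω) (a + k + 1) ω - d.gT (Kn ω) (a + k) ω| +
        |d.gT (Kn ω) (a + k) ω - d.gT (Kn ω) a ω| := by
      have e : d.gT (Kn ω) (a + (k + 1)) ω - d.gT (Kn ω) a ω =
          (d.gT (Kn ω) (a + k + 1) ω - d.gT (Kn ω) (a + k) ω) +
          (d.gT (Kn ω) (a + k) ω - d.gT (Kn ω) a ω) := by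
        rw [← add_assoc]; ring
      rw [e]
      exact abs_add_le _ _
    have h5 := d.zp (((a + k : ℕ) : ℤ) - d.RT (Kn ω) a)
    have h6 := d.hB8
    rw [h3] at h2 ⊢
    nlinarith

/-- **type (ii)** : the next block is not known, for EVERY value of `G` -/
theorem Kw.unk (h : d.Kw P c G Kn) {ω : Ω} {a : ℕ} (ha : a ≤ d.N)
    (hR : d.RT (Kn ω) a + d.s < d.RI a) (y : ℝ) :
    prE P (fun ω' => G ω' = G ω ∧ |d.al a ω' - y| ≤ d.B ^ ((a : ℤ) - (d.RT (Kn ω) a + 1))) <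
      (1 - c) * P.pr G (G ω) := by
  classical
  set x : ℤ := (d.RT (Kn ω) a : ℤ) + 1 - a with hx
  have h0 := h.rv_RT (ω := ω) ha (by omega)
  have h0' : d.rv (Kn ω) a (x - 1) := by
    have e : x - 1 = (d.RT (Kn ω) a : ℤ) - a := by omega
    rw [e]; exact h0
  have hp : (d.rep a x, x) ∈ d.cls := d.rep_mem ha (by have := d.rv_lb h0; omega) (by
    unfold rho; omega)
  have hnk : ¬ Kn ω ⟨_, hp⟩ := fun hk => not_rv hR ⟨ha, by unfold rho; omega, hp, hk⟩
  have h1 := h.cl ω ⟨_, hp⟩ (h.rv_el h0' hp) hnk ⌊y * d.B ^ x⌋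
  refine lt_of_le_of_lt ?_ h1
  have mono : ∀ E F : Ω → Prop, (∀ ω', 0 < P.w ω' → E ω' → F ω') → prE P E ≤ prE P F := by
    intro E F hEF
    unfold prE
    rw [Finset.sum_filter, Finset.sum_filter]
    refine Finset.sum_le_sum fun ω' _ => ?_
    by_cases hE : E ω'
    · rw [if_pos hE]
      rcases (P.nn ω').eq_or_lt with hw | hw
      · rw [← hw]; split_ifs <;> exact le_rfl
      · rw [if_pos (hEF ω' hw hE)]
    · rw [if_neg hE]
      split_ifs
      · exact P.nn ω'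
      · exact le_rfl
  refine mono _ _ fun ω' hw hE => ⟨hE.1, ?_⟩
  have e2 : (a : ℤ) - (d.RT (Kn ω) a + 1) = -x := by rw [hx]; ring
  have h2 := hE.2
  rw [e2] at h2
  have h3 : |d.z a x ω' - y * d.B ^ x| ≤ 1 := by
    have e3 : d.z a x ω' - y * d.B ^ x = (d.al a ω' - y) * d.B ^ x := by unfold z; ring
    rw [e3, abs_mul, abs_of_pos (d.zp x)]
    have h4 := mul_le_mul_of_nonneg_right h2 (d.zp x).le
    rwa [d.zp_mul, neg_add_cancel, zpow_zero] at h4
  have h5 := abs_le.1 h3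
  have h6 := abs_le.1 (h.su.z_rep (a := a) (x := x) hw)
  have h7 := Int.floor_le (y * d.B ^ x)
  have h8 := Int.lt_floor_add_one (y * d.B ^ x)
  refine floor_ball ?_ ?_
  all_goals
    simp only
    linarith [h5.1, h5.2, h6.1, h6.2]

/-- the class of the next block : it is a class, its parent is known, it is not known -/
theorem Kw.nxt (h : d.Kw P c G Kn) {ω : Ω} {a : ℕ} (ha : a ≤ d.N)
    (hR : d.RT (Kn ω) a + d.s < d.RI a) :
    ∃ hp : (d.rep a ((d.RT (Kn ω) a : ℤ) + 1 - a), (d.RT (Kn ω) a : ℤ) + 1 - a) ∈ d.cls,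
      (∀ q, d.pa ⟨_, hp⟩ = some q → Kn ω q) ∧ ¬ Kn ω ⟨_, hp⟩ := by
  have h0 := h.rv_RT (ω := ω) ha (by omega)
  have hp : (d.rep a ((d.RT (Kn ω) a : ℤ) + 1 - a), (d.RT (Kn ω) a : ℤ) + 1 - a) ∈ d.cls :=
    d.rep_mem ha (by have := d.rv_lb h0; omega) (by unfold rho; omega)
  refine ⟨hp, h.rv_el ?_ hp, fun hk => not_rv hR ⟨ha, by unfold rho; omega, hp, hk⟩⟩
  have e : (d.RT (Kn ω) a : ℤ) + 1 - a - 1 = (d.RT (Kn ω) a : ℤ) - a := by omega
  rw [e]
  exact h0

/-! ### the prefix letter -/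

variable (d) in
/-- the letter of the level `a` at the depth `y` -/
noncomputable def L (a : ℕ) (y : ℤ) (ω : Ω) : ℤ := ⌊d.z (d.rep a y) y ω⌋

lemma Su.L_near (h : d.Su P) (a : ℕ) (y : ℤ) {ω : Ω} (hω : 0 < P.w ω) :
    |d.al a ω * d.B ^ y - (d.L a y ω + 1 / 2)| ≤ 3 / 4 := by
  have h7 := abs_le.1 (h.z_rep (a := a) (x := y) hω)
  have h8 := Int.floor_le (d.z (d.rep a y) y ω)
  have h9 := Int.lt_floor_add_one (d.z (d.rep a y) y ω)
  have h10 : d.al a ω * d.B ^ y = d.z a y ω := rfl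
  rw [h10]
  unfold L
  rw [abs_le]
  constructor
  · linarith [h7.1, h7.2]
  · linarith [h7.1, h7.2]

/-- no cut : the letters of all smaller depths are unchanged -/
lemma L_step {a : ℕ} {x y : ℤ} (h : d.rep (a + 1) y ≠ a + 1) (hxy : x ≤ y) (ω : Ω) :
    d.L (a + 1) x ω = d.L a x ω := by
  unfold L
  rw [d.rep_stay h hxy]

variable (d) in
open Classical in
/-- **the prefix letter** : the letters of all revealed depths -/
noncomputable def pfv (K : d.Ix → Prop) (a : ℕ) (ω : Ω) : ℤ → Option ℤ := fun y =>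
  if d.rv K a y then some (d.L a y ω) else none

lemma pfv_some {K : d.Ix → Prop} {a : ℕ} {y : ℤ} (h : d.rv K a y) (ω : Ω) :
    d.pfv K a ω y = some (d.L a y ω) := if_pos h

lemma pfv_none {K : d.Ix → Prop} {a : ℕ} {y : ℤ} (h : ¬ d.rv K a y) (ω : Ω) : d.pfv K a ω y = none :=
  if_neg h

lemma rv_mono {K K' : d.Ix → Prop} (h : ∀ p, K p → K' p) {a : ℕ} {y : ℤ} (hr : d.rv K a y) :
    d.rv K' a y := by
  obtain ⟨h1, h2, h3, h4⟩ := hr
  exact ⟨h1, h2, h3, h _ h4⟩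

open Classical in
/-- **nested** : the prefix letter is the restriction of the prefix letter of any finer knowledge -/
theorem pfv_res {K K' : d.Ix → Prop} (h : ∀ p, K p → K' p) (a : ℕ) (ω : Ω) :
    d.pfv K a ω = fun y => if d.rv K a y then d.pfv K' a ω y else none := by
  funext y
  by_cases hr : d.rv K a y
  · rw [pfv_some hr, if_pos hr, pfv_some (rv_mono h hr)]
  · rw [pfv_none hr, if_neg hr]

lemma rv_le_RT {K : d.Ix → Prop} {a : ℕ} {y : ℤ} (h : d.rv K a y) : y ≤ (d.RT K a : ℤ) - a := by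
  rcases lt_or_ge y (-(a : ℤ)) with h1 | h1
  · omega
  · obtain ⟨R, hR⟩ : ∃ R : ℕ, y = (R : ℤ) - a := ⟨(y + a).toNat, by omega⟩
    have h2 := h.2.1
    unfold rho at h2
    have h3 := le_RT (K := K) (a := a) (R := R) (by omega) (hR ▸ h)
    omega

/-- the revealed depths -/
theorem Kw.rv_le (h : d.Kw P c G Kn) {ω : Ω} {a : ℕ} (ha : a ≤ d.N) (hs : d.s ≤ d.RI a) (y : ℤ) :
    d.rv (Kn ω) a y ↔ -(d.N : ℤ) ≤ y ∧ y ≤ (d.RT (Kn ω) a : ℤ) - a :=
  ⟨fun hr => ⟨d.rv_lb hr, rv_le_RT hr⟩, fun hy => h.rv_down (h.rv_RT ha hs) hy.1 hy.2⟩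

/-- the prefix letter determines the revealed depths -/
lemma pfv_rv {K K' : d.Ix → Prop} {a : ℕ} {ω ω' : Ω} (h : d.pfv K a ω = d.pfv K' a ω') (y : ℤ) :
    d.rv K a y ↔ d.rv K' a y := by
  have h1 := congrFun h y
  by_cases hr : d.rv K a y
  · by_cases hr' : d.rv K' a y
    · exact ⟨fun _ => hr', fun _ => hr⟩
    · rw [pfv_some hr, pfv_none hr'] at h1
      exact absurd h1 (Option.some_ne_none _)
  · by_cases hr' : d.rv K' a y
    · rw [pfv_none hr, pfv_some hr'] at h1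
      exact absurd h1.symm (Option.some_ne_none _)
    · exact ⟨fun h => absurd h hr, fun h => absurd h hr'⟩

/-- the prefix letter determines the path -/
theorem pfv_RT {K K' : d.Ix → Prop} {a : ℕ} {ω ω' : Ω} (h : d.pfv K a ω = d.pfv K' a ω') :
    d.RT K a = d.RT K' a := by
  refine le_antisymm ?_ ?_
  · rcases Nat.eq_zero_or_pos (d.RT K a) with h0 | h0
    · rw [h0]; exact Nat.zero_le _
    · exact le_RT (RT_le K a) ((pfv_rv h _).1 (rv_RT_pos h0))
  · rcases Nat.eq_zero_or_pos (d.RT K' a) with h0 | h0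
    · rw [h0]; exact Nat.zero_le _
    · exact le_RT (RT_le K' a) ((pfv_rv h _).2 (rv_RT_pos h0))

variable (d) in
/-- the number of the prefix letter `v`, `R` = the value of the path -/
noncomputable def gv (a R : ℕ) (v : ℤ → Option ℤ) : ℝ :=
  if 0 < R then (((v ((R : ℤ) - a)).getD 0 : ℤ) + 1 / 2) * d.B ^ ((a : ℤ) - R) else 0

/-- **the value is the number of the prefix letter** -/
theorem gT_pfv (K : d.Ix → Prop) (a : ℕ) (ω : Ω) : d.gT K a ω = d.gv a (d.RT K a) (d.pfv K a ω) := by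
  classical
  unfold gT gv
  rcases Nat.eq_zero_or_pos (d.RT K a) with h0 | h0
  · rw [dif_neg (fun h => by omega), if_neg (by omega)]
  · have h1 := rv_RT_pos h0
    rw [pfv_some h1, if_pos h0]
    obtain ⟨_, _, h3, _⟩ := h1
    rw [dif_pos ⟨h0, h3⟩]
    rfl

theorem gT_of_pfv {K K' : d.Ix → Prop} {a : ℕ} {ω ω' : Ω} (h : d.pfv K a ω = d.pfv K' a ω') :
    d.gT K a ω = d.gT K' a ω' := by
  rw [gT_pfv, gT_pfv, pfv_RT h, h]

/-- the prefix letter is a function of `G` -/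
theorem Kw.pfv_congr (h : d.Kw P c G Kn) {ω ω' : Ω} (hG : G ω' = G ω) (a : ℕ) :
    d.pfv (Kn ω') a ω' = d.pfv (Kn ω) a ω := by
  have e : Kn ω' = Kn ω := funext fun p => propext (h.fn ω ω' hG p)
  rw [e]
  funext y
  by_cases hr : d.rv (Kn ω) a y
  · rw [pfv_some hr, pfv_some hr]
    obtain ⟨_, _, h3, h4⟩ := hr
    exact congrArg some (h.val ω ω' hG _ h4)
  · rw [pfv_none hr, pfv_none hr]

/-- **the prefix letter is constant along the diagonal** off the cuts of the depths `≥ RT a - a` -/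
theorem Kw.pfv_step (h : d.Kw P c G Kn) {ω : Ω} {a : ℕ} (ha : a + 1 ≤ d.N) (hs : d.s ≤ d.RI a)
    (hR : d.RT (Kn ω) (a + 1) = d.RT (Kn ω) a + 1) {y0 : ℤ} (hy0 : (d.RT (Kn ω) a : ℤ) - a ≤ y0)
    (hc : d.rep (a + 1) y0 ≠ a + 1) (ω' : Ω) : d.pfv (Kn ω) (a + 1) ω' = d.pfv (Kn ω) a ω' := by
  funext y
  have e1 := h.rv_le (ω := ω) (a := a) (by omega) hs y
  have e2 := h.rv_le (ω := ω) (a := a + 1) ha (hs.trans (d.hRI (Nat.le_succ a))) y
  rw [hR] at e2
  by_cases hr : d.rv (Kn ω) a y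
  · have h1 := e1.1 hr
    have hr' : d.rv (Kn ω) (a + 1) y := e2.2 ⟨h1.1, by push_cast; omega⟩
    rw [pfv_some hr, pfv_some hr', L_step hc (by omega)]
  · have hr' : ¬ d.rv (Kn ω) (a + 1) y := fun h2 => hr (e1.2 ⟨(e2.1 h2).1, by
      have := (e2.1 h2).2
      push_cast at this
      omega⟩)
    rw [pfv_none hr, pfv_none hr']

/-! ### helper465's closure -/

variable (d) in
/-- the data of helper465's closure -/
noncomputable def clD (c : ℝ) : H465.Clo.Dat Ω d.Ix := ⟨d.A, d.pa, 2, c⟩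

/-- **the closure satisfies the interface at every base** : `Kn` = revealed -/
theorem kw_gb {T : Type*} (hs : d.Su P) (hc : 0 ≤ c) (Y : ℕ → Ω → T) (b : ℕ) :
    d.Kw P c ((d.clD c).Gb P Y b) ((d.clD c).Rd P Y b) where
  su := hs
  c0 := hc
  fn _ _ h _ := H465.Clo.Dat.rd_congr h
  val _ ω' h _ hk := H465.Clo.Dat.rd_kn hk ω' h
  cl _ _ hel hkn g := H465.Clo.Dat.rd_unk hel hkn g

/-- the second path at the base `b` is nondecreasing in the base -/
theorem gb_RT_mono {T : Type*} (Y : ℕ → Ω → T) {b b' : ℕ} (hb : b ≤ b') (ω : Ω) (a : ℕ) :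
    d.RT ((d.clD c).Rd P Y b ω) a ≤ d.RT ((d.clD c).Rd P Y b' ω) a :=
  RT_le_of (fun _ h => H465.Clo.Dat.rd_mono hb h) a

end Dt

end Vale.Agent.P106.U.H428.Cls
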