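import Vale.Agent.P106.U.H61.NrmDefs

/-!
# P106 / U / H428 : start slabs, common part (helper428)

* `keyFin` : coding of a finset.
* `nv_tr`, `G0_tr`, `G1_tr`, `Fa_win` : the label in the window of level `a`, its absolute functional.
* `cell_win` : the cell of level `4` of the ray of the window takes finitely many values.
* `mkS` : the slab with given frame centred at a ray.
-/

set_option autoImplicit false

namespace Vale.Agent.P106.U.H428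

open Vale.Agent.P127 Vale.Agent.P127.Stk Vale.Agent.P127.U Vale.Agent.P106.W Vale.Agent.P106.K
open Vale.Agent.P106.U Vale.Agent.P106.U.H416
open Vale.Agent.P106.U.H513 (dn dnB tau)
open Vale.Agent.P122.C2 (fn)

/-- coding of a finset -/
theorem keyFin {β : Type} (T : Finset β) {M : ℕ} (hM : T.card ≤ M) : ∃ e : β → Fin (M + 1), ∀ x y, x ∈ T → y ∈ T → e x = e y →
    x = y := by
  classical
  refine ⟨fun x => if h : x ∈ T then ⟨(T.equivFin ⟨x, h⟩).1, by have := (T.equivFin ⟨x, h⟩).2; omega⟩ else 0, ?_⟩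
  intro x y hx hy hxy
  simp only [hx, hy, dif_pos, Fin.mk.injEq] at hxy
  have h1 := T.equivFin.injective (Fin.ext hxy)
  exact congrArg Subtype.val h1

/-! ### translations -/

theorem G0_tr (o : Fin 2 → ℝ) (o0 : ℝ) (B : Cbx) (l : Ry) : G0 (H416.trB o o0 B) (trR o o0 l) = G0 B l := by
  simp only [G0, Cbx.g0, H416.trB, trR, fn, Fin.sum_univ_two, Pi.sub_apply]
  ring

theorem G1_tr (o : Fin 2 → ℝ) (o0 : ℝ) (B : Cbx) (l : Ry) : G1 (H416.trB o o0 B) (trR o o0 l) = G1 B l := by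
  simp only [G1, Cbx.g1, H416.trB, trR, fn, Fin.sum_univ_two, Pi.sub_apply]
  ring

theorem nv_tr (o : Fin 2 → ℝ) (o0 : ℝ) (B : Cbx) (l : Ry) : nv (H416.trB o o0 B) (trR o o0 l) = nv B l := by
  simp only [nv, Cbx.nn, H416.trB, trR]
  congr 1
  · ring
  · congr 1
    ring

theorem tau_wt (a w : ℕ) (t : ℝ) : tau 0 w (wt a t) = tau a w t := by
  unfold tau
  rw [Nat.zero_add, qa_wt_zero, qa_wt]
  simp

/-- the label in the window -/
noncomputable def wW (a w : ℕ) (W : Cbx) (l : Ry) (t : ℝ) : Cbx :=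
  H416.trB (fun k => 2 ^ w * (wo a l t k : ℝ)) (2 ^ w * (wh a l t : ℝ)) W

theorem Fa_win (a w : ℕ) (W : Cbx) (l : Ry) (t : ℝ) : Fa w (wW a w W l t) (wt a t) =
    H416.trB (fun k => (wo a l t k : ℝ)) (wh a l t : ℝ) (Fl a w W t) := by
  have h2 : (2 : ℝ) ^ w ≠ 0 := by positivity
  unfold Fa Fl wW
  rw [tau_wt]
  simp only [dnB, H416.trB, dn, Fin.sum_univ_two, Cbx.mk.injEq, true_and]
  refine ⟨?_, ?_⟩
  · funext k
    field_simp
    ring
  · field_simp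
    ring

/-- the ray of the window -/
theorem nv_Fa_win (a w : ℕ) (W : Cbx) (l : Ry) (t : ℝ) : nv (Fa w (wW a w W l t) (wt a t)) (wR a l t) =
    nv (Fl a w W t) (bl a l t) := by
  rw [Fa_win]
  exact nv_tr _ _ _ _

theorem G0_Fa_win (a w : ℕ) (W : Cbx) (l : Ry) (t : ℝ) : G0 (Fa w (wW a w W l t) (wt a t)) (wR a l t) =
    G0 (Fl a w W t) (bl a l t) := by
  rw [Fa_win]
  exact G0_tr _ _ _ _

theorem G1_Fa_win (a w : ℕ) (W : Cbx) (l : Ry) (t : ℝ) : G1 (Fa w (wW a w W l t) (wt a t)) (wR a l t) =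
    G1 (Fl a w W t) (bl a l t) := by
  rw [Fa_win]
  exact G1_tr _ _ _ _

/-- the label of level `w` in the window, at its own ray -/
theorem nv_wW (a w : ℕ) (W : Cbx) (l : Ry) (t : ℝ) : nv (wW a w W l t) (bl w (wR a l t) (wt a t)) = nv W (bl (a + w) l t) := by
  rw [bl_wR]
  exact nv_tr _ _ _ _

/-- the normal is the same at both levels -/
theorem nv_Fl (a w : ℕ) (W : Cbx) (l : Ry) (t : ℝ) : nv (Fl a w W t) (bl a l t) = nv W (bl (a + w) l t) := by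
  unfold Fl
  rw [H513.bl_dn a w l t, nv_dn]

/-- the cell of the ray of a window -/
theorem cell_win : ∃ T : Finset Cell, ∀ (a : ℕ) (l : Ry) (t : ℝ), RyOk l → pl 4 (wR a l t) ∈ T := by
  obtain ⟨M, hM⟩ := cells 2048 (by norm_num)
  obtain ⟨Q, -, hQ⟩ := hM 4 zr
  refine ⟨Q, fun a l t hl => hQ _ ?_⟩
  obtain ⟨hy, hs, hz⟩ := ryOk_wR (a := a) (t := t) hl.2.1
  refine ⟨fun k => ?_, fun k => ?_, ?_⟩
  · show |(wR a l t).y k - 0| ≤ _
    rw [sub_zero]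
    refine (hy k).trans (by norm_num)
  · show |(wR a l t).s k - 0| ≤ _
    rw [sub_zero]
    refine (hs k).trans (by norm_num)
  · have e : ze (wR a l t) zr = (wR a l t).z + ((wR a l t).y 0 * (wR a l t).s 0 + (wR a l t).y 1 * (wR a l t).s 1) := by
      simp [ze, zr, Fin.sum_univ_two]
    rw [e]
    have h1 := abs_add_le (wR a l t).z ((wR a l t).y 0 * (wR a l t).s 0 + (wR a l t).y 1 * (wR a l t).s 1)
    have h2 := abs_add_le ((wR a l t).y 0 * (wR a l t).s 0) ((wR a l t).y 1 * (wR a l t).s 1)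
    have h3 : ∀ k, |(wR a l t).y k * (wR a l t).s k| ≤ 1 := fun k => by
      rw [abs_mul]
      exact mul_le_one₀ (hy k) (abs_nonneg _) (hs k)
    have h4 : (1 / 2 : ℝ) ^ (2 * 4) = 1 / 256 := by norm_num
    rw [h4]
    linarith [h3 0, h3 1]

/-! ### the slab -/

theorem angle {n : Fin 2 → ℝ} {δ : ℝ} (hδ : δ ≤ 1 / 100) (h : |n 0 ^ 2 + n 1 ^ 2 - 1| ≤ δ) :
    ∃ L θ' : ℝ, |L - 1| ≤ δ ∧ n 0 = -(L * Real.sin θ') ∧ n 1 = L * Real.cos θ' := by
  set X := n 0 ^ 2 + n 1 ^ 2 with hX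
  have h1 := abs_le.1 h
  have hX0 : 0 < X := by linarith
  have hL0 : 0 < Real.sqrt X := Real.sqrt_pos.2 hX0
  have hLs : Real.sqrt X ^ 2 = X := Real.sq_sqrt hX0.le
  obtain ⟨θ', hc', hs'⟩ := exists_angle (x := n 1 / Real.sqrt X) (y := -(n 0) / Real.sqrt X) (by
    rw [div_pow, div_pow, hLs, ← add_div, div_eq_one_iff_eq hX0.ne', hX]; ring)
  refine ⟨Real.sqrt X, θ', ?_, ?_, ?_⟩
  · have h2 : |Real.sqrt X - 1| * (Real.sqrt X + 1) = |X - 1| := by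
      rw [← abs_of_pos (by linarith : 0 < Real.sqrt X + 1), ← abs_mul]
      congr 1
      nlinarith
    nlinarith [abs_nonneg (Real.sqrt X - 1)]
  · rw [hs']; field_simp
  · rw [hc']; field_simp

/-- the frame of the slab at another ray -/
def Nk (n : Fin 2 → ℝ) (κ α : ℝ) (m' m : Ry) (k : Fin 2) : ℝ := n k + κ * (m.s k - m'.s k) - 2 * α * (m.y k - m'.y k)

/-- **the slab with the frame `(n, κ, α)` centred at `m'`** -/
theorem mkS {δ : ℝ} (r : ℕ) (hδ0 : 0 ≤ δ) (hδ : δ ≤ 1 / 100) {n : Fin 2 → ℝ} {κ α : ℝ} {m' : Ry}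
    (hn : |n 0 ^ 2 + n 1 ^ 2 - 1| ≤ δ) (hκ : |κ| ≤ 1 / 10) (hα : |α| ≤ 1 / 10) (hy : ∀ k, |m'.y k| ≤ 1)
    (hs : ∀ k, |m'.s k| ≤ 1) :
    ∃ S : Cbx, S.u2 = 1 ∧ S.u1 = (1 / 2 : ℝ) ^ r ∧ |S.α| ≤ 1 / 8 ∧ |S.κ| ≤ 1 / 8 ∧ (∀ k, |S.p k| ≤ 1) ∧ (∀ k, |S.v k| ≤ 1) ∧
      |S.κ - κ| ≤ δ ∧ |S.α - α| ≤ δ ∧ (α = 0 → S.α = 0) ∧ ∀ m : Ry, Nr 6 4 m m' →
        |(n 0 * (m.y 0 - m'.y 0) + n 1 * (m.y 1 - m'.y 1)) + κ * ze m m' - α * ((m.y 0 - m'.y 0) ^ 2 + (m.y 1 - m'.y 1) ^ 2)| ≤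
          3 / 4 * (1 / 2 : ℝ) ^ r →
        |(n 0 * (m.s 0 - m'.s 0) + n 1 * (m.s 1 - m'.s 1)) + κ * ((m.s 0 - m'.s 0) ^ 2 + (m.s 1 - m'.s 1) ^ 2) / 2 +
          2 * α * (ze m m' - ((m.y 0 - m'.y 0) * (m.s 0 - m'.s 0) + (m.y 1 - m'.y 1) * (m.s 1 - m'.s 1)))| ≤
          3 / 4 * (1 / 2 : ℝ) ^ r →
        S.In 0 m.y m.s m.z ∧ ∀ k, |nrm S m k - Nk n κ α m' m k| ≤ 3 * δ := by
  obtain ⟨L, θ', hL, n0, n1⟩ := angle hδ hn
  have hr0 : (0 : ℝ) < (1 / 2 : ℝ) ^ r := by positivity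
  have hL' := abs_le.1 hL
  have hL1 : 99 / 100 ≤ L := by linarith [hL'.1]
  have hL2 : L ≤ 101 / 100 := by linarith [hL'.2]
  have hL0 : 0 < L := by linarith
  have hdiv : ∀ x B : ℝ, |x| ≤ B → |x / L - x| ≤ 2 * B * δ := by
    intro x B hx
    have hB : 0 ≤ B := (abs_nonneg _).trans hx
    have e : x / L - x = x * ((1 - L) / L) := by field_simp
    rw [e, abs_mul, abs_div, abs_of_pos hL0, abs_sub_comm 1 L]
    have h1 : |L - 1| / L ≤ 2 * δ := by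
      rw [div_le_iff₀ hL0]
      nlinarith
    calc |x| * (|L - 1| / L) ≤ B * (2 * δ) := mul_le_mul hx h1 (by positivity) hB
      _ = 2 * B * δ := by ring
  have hdl : ∀ x : ℝ, |x| ≤ 1 / 10 → |x / L| ≤ 1 / 8 := by
    intro x hx
    rw [abs_div, abs_of_pos hL0, div_le_iff₀ hL0]
    linarith
  have hdl2 : ∀ x : ℝ, |x| ≤ 3 / 4 * (1 / 2 : ℝ) ^ r → |x / L| ≤ (1 / 2 : ℝ) ^ r := by
    intro x hx
    rw [abs_div, abs_of_pos hL0, div_le_iff₀ hL0]
    nlinarith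
  refine ⟨⟨θ', (1 / 2 : ℝ) ^ r, 1, κ / L, α / L, m'.y, m'.s, m'.z⟩, rfl, rfl, hdl α hα, hdl κ hκ, hy, hs, ?_, ?_, ?_, ?_⟩
  · exact (hdiv κ _ hκ).trans (by linarith)
  · exact (hdiv α _ hα).trans (by linarith)
  · intro h0
    show α / L = 0
    rw [h0, zero_div]
  intro m hm h0 h1
  obtain ⟨a1, a2, a3⟩ := hm
  have q4 : (1 / 2 : ℝ) ^ 4 = 1 / 16 := by norm_num
  have q8 : (1 / 2 : ℝ) ^ (2 * 4) = 1 / 256 := by norm_num
  rw [q4] at a1 a2
  rw [q8] at a3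
  refine ⟨⟨fun k => ?_, fun k => ?_, ?_, ?_, ?_⟩, fun k => ?_⟩
  · exact (a1 k).trans (by norm_num)
  · exact (a2 k).trans (by norm_num)
  · show |m.z + ∑ k, m.y k * (m.s k - m'.s k) - m'.z| ≤ max ((1 : ℝ) ^ 2) 0
    rw [one_pow, max_eq_left zero_le_one]
    exact a3.trans (by norm_num)
  · have e : fn θ' (m.y - m'.y) + κ / L * (m.z + ∑ k, m.y k * (m.s k - m'.s k) - m'.z) -
        α / L * ∑ k, (m.y k - m'.y k) ^ 2 = ((n 0 * (m.y 0 - m'.y 0) + n 1 * (m.y 1 - m'.y 1)) + κ * ze m m' -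
          α * ((m.y 0 - m'.y 0) ^ 2 + (m.y 1 - m'.y 1) ^ 2)) / L := by
      rw [n0, n1]
      simp only [ze, Fin.sum_univ_two, fn, Pi.sub_apply]
      field_simp
    show |fn θ' (m.y - m'.y) + κ / L * (m.z + ∑ k, m.y k * (m.s k - m'.s k) - m'.z) -
        α / L * ∑ k, (m.y k - m'.y k) ^ 2| ≤ _
    rw [e]
    exact hdl2 _ h0
  · have e : fn θ' (m.s - m'.s) + κ / L * (∑ k, (m.s k - m'.s k) ^ 2) / 2 +
        2 * (α / L) * (m.z + ∑ k, m'.y k * (m.s k - m'.s k) - m'.z) =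
          ((n 0 * (m.s 0 - m'.s 0) + n 1 * (m.s 1 - m'.s 1)) + κ * ((m.s 0 - m'.s 0) ^ 2 + (m.s 1 - m'.s 1) ^ 2) / 2 +
          2 * α * (ze m m' - ((m.y 0 - m'.y 0) * (m.s 0 - m'.s 0) + (m.y 1 - m'.y 1) * (m.s 1 - m'.s 1)))) / L := by
      rw [n0, n1]
      simp only [ze, Fin.sum_univ_two, fn, Pi.sub_apply]
      field_simp
      ring
    show |fn θ' (m.s - m'.s) + κ / L * (∑ k, (m.s k - m'.s k) ^ 2) / 2 +
        2 * (α / L) * (m.z + ∑ k, m'.y k * (m.s k - m'.s k) - m'.z)| ≤ _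
    rw [e]
    exact hdl2 _ h1
  · have e : nrm ⟨θ', (1 / 2 : ℝ) ^ r, 1, κ / L, α / L, m'.y, m'.s, m'.z⟩ m k = Nk n κ α m' m k / L := by
      unfold nrm Nk
      fin_cases k
      · simp only [Fin.zero_eta, Matrix.cons_val_zero, n0]
        field_simp
      · simp only [Fin.mk_one, Matrix.cons_val_one, Matrix.cons_val_zero, n1]
        field_simp
    rw [e]
    have hnk : |Nk n κ α m' m k| ≤ 3 / 2 := by
      unfold Nk
      have b1 : |n k| ≤ 101 / 100 := by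
        have : |n k| ≤ L := by
          fin_cases k
          · show |n 0| ≤ L
            rw [n0, abs_neg, abs_mul, abs_of_pos hL0]
            exact mul_le_of_le_one_right hL0.le (Real.abs_sin_le_one _)
          · show |n 1| ≤ L
            rw [n1, abs_mul, abs_of_pos hL0]
            exact mul_le_of_le_one_right hL0.le (Real.abs_cos_le_one _)
        linarith
      have b2 : |κ * (m.s k - m'.s k)| ≤ 1 / 10 * (6 * (1 / 16)) := by
        rw [abs_mul]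
        exact mul_le_mul hκ (a2 k) (abs_nonneg _) (by norm_num)
      have b3 : |2 * α * (m.y k - m'.y k)| ≤ 2 * (1 / 10) * (6 * (1 / 16)) := by
        rw [abs_mul, abs_mul, abs_two]
        exact mul_le_mul (by linarith) (a1 k) (abs_nonneg _) (by norm_num)
      have b4 := abs_sub (n k + κ * (m.s k - m'.s k)) (2 * α * (m.y k - m'.y k))
      have b5 := abs_add_le (n k) (κ * (m.s k - m'.s k))
      linarith
    exact (hdiv _ _ hnk).trans (by linarith)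

end Vale.Agent.P106.U.H428
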