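import Vale.Agent.P106.U.H428.Alpha
import Vale.Agent.P106.U.H513.ExtFr

/-!
# P106 / U / H428 : from the agreement of the labels of level `0` to the agreement of the absolute functionals (helper428)

`ag_of_agr` : `A`, `A'` = labels of level `0` and shape `(h, q + h)` of two labels `W`, `W'` of level `h`, shape `(0, q)`
(`ext_lab_fr` of helper513); if their frames agree up to `K 2^X 2^-q` (cap units) at the ray, the absolute functionals of `W`, `W'`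
agree there up to `D 2^-(q - X - h)`.
-/

set_option autoImplicit false

namespace Vale.Agent.P106.U.H428

open Vale.Agent.P127 Vale.Agent.P127.Stk Vale.Agent.P127.U Vale.Agent.P106.W Vale.Agent.P106.K
open Vale.Agent.P106.U.H513 (dn dnB tau Frm)

theorem scal {x x' y y' Lf Lf' σ M E Y δ : ℝ} (hσ : σ = 1 ∨ σ = -1) (hx : x = Lf * y) (hx' : x' = Lf' * y')
    (hM : |Lf| ≤ M) (hE : |Lf - Lf'| ≤ E) (hY : |y'| ≤ Y) (hδ : |y - σ * y'| ≤ δ) (hM0 : 0 ≤ M) (hE0 : 0 ≤ E) :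
    |x - σ * x'| ≤ M * δ + E * Y := by
  have s1 : ∀ x : ℝ, |σ * x| = |x| := fun x => by
    rcases hσ with rfl | rfl
    · rw [one_mul]
    · rw [neg_one_mul, abs_neg]
  have e : x - σ * x' = Lf * (y - σ * y') + σ * ((Lf - Lf') * y') := by
    rw [hx, hx']
    ring
  rw [e]
  have h1 := abs_add_le (Lf * (y - σ * y')) (σ * ((Lf - Lf') * y'))
  rw [s1, abs_mul, abs_mul (Lf - Lf')] at h1
  have h2 : |Lf| * |y - σ * y'| ≤ M * δ := mul_le_mul hM hδ (abs_nonneg _) hM0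
  have h3 : |Lf - Lf'| * |y'| ≤ E * Y := mul_le_mul hE hY (abs_nonneg _) hE0
  linarith

/-- **agreement of the absolute functionals** -/
theorem ag_of_agr {c c' K : ℝ} (hc : 1 ≤ c) (hc' : 1 ≤ c') (hK : 0 ≤ K) : ∀ (d h q X : ℕ) (W W' A A' : Cbx) (l : Ry)
    (t t' : ℝ), W0 c h q W l t → W0 c h q W' l t' → fl1 0 t = fl1 0 t' → d ≤ q → X + h ≤ q →
    A.u2 = (1 / 2 : ℝ) ^ h → A'.u2 = (1 / 2 : ℝ) ^ h → |A'.α| * A'.u2 ≤ c' → |A'.κ| * A'.u2 ≤ c' → Bin c' A' 0 (bl 0 l t') →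
    Frm c d h (tau 0 h t) A W → Frm c d h (tau 0 h t') A' W' →
    Agr (K * (2 ^ X * (1 / 2) ^ q)) A A' (bl 0 l t) →
    ∃ σ : ℝ, (σ = 1 ∨ σ = -1) ∧
      Ag ((7 * c ^ 2 * K + 48 * c ^ 2 * c' ^ 2) * (1 / 2 : ℝ) ^ (q - X - h)) (Fa h W t) (Fa h W' t') (bl 0 l t) σ := by
  intro d h q X W W' A A' l t t' H H' ht hd hX hA2 hA2' hα' hκ' hin hF hF' hAg
  have ebl : bl 0 l t = bl 0 l t' := by
    have : qa 0 t = qa 0 t' := by unfold qa; rw [ht]
    unfold bl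
    rw [this]
  have hc0 : 0 < c := by linarith
  have hc2 : 1 ≤ c ^ 2 := one_le_pow₀ hc
  have hc'2 : c' ≤ c' ^ 2 := by nlinarith
  have hq0 : (0 : ℝ) < (1 / 2 : ℝ) ^ q := by positivity
  have hq1 : (1 / 2 : ℝ) ^ q ≤ 1 := pow_le_one₀ (by norm_num) (by norm_num)
  have hdq : ∀ W'' : Cbx, W''.u2 = 1 → W''.u1 = (1 / 2 : ℝ) ^ q → 2 ^ d * W''.u1 ≤ W''.u2 := by
    intro W'' h2 h1
    rw [h1, h2]
    have h3 : (1 / 2 : ℝ) ^ q ≤ (1 / 2 : ℝ) ^ d := pow_le_pow_of_le_one (by norm_num) (by norm_num) hd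
    calc (2 : ℝ) ^ d * (1 / 2 : ℝ) ^ q ≤ 2 ^ d * (1 / 2 : ℝ) ^ d := mul_le_mul_of_nonneg_left h3 (by positivity)
      _ = 1 := pw_b d
  obtain ⟨Lf, l1, l2, l3, l4, l5⟩ := hF (hdq W H.u2 H.u1)
  obtain ⟨Lf', l1', l2', l3', l4', l5'⟩ := hF' (hdq W' H'.u2 H'.u1)
  rw [H.u1, H.u2, div_one] at l2
  rw [H'.u1, H'.u2, div_one] at l2'
  have hL0 : Lf ≠ 0 := by intro h0; rw [h0] at l1; norm_num at l1
  have hL0' : Lf' ≠ 0 := by intro h0; rw [h0] at l1'; norm_num at l1'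
  have hM : |Lf| ≤ 7 * c ^ 2 := by
    have h1 : |Lf| ≤ |Lf - 1| + 1 := by
      have := abs_add_le (Lf - 1) 1
      rw [sub_add_cancel, abs_one] at this
      exact this
    nlinarith
  have hE : |Lf - Lf'| ≤ 12 * c ^ 2 * (1 / 2 : ℝ) ^ q := by
    have h1 := abs_sub (Lf - 1) (Lf' - 1)
    have e : Lf - 1 - (Lf' - 1) = Lf - Lf' := by ring
    rw [e] at h1
    linarith
  obtain ⟨σ, hσ, a1, a2, a3⟩ := hAg
  -- the powers
  have hpw : (1 / 2 : ℝ) ^ (q - X - h) = 2 ^ X * 2 ^ h * (1 / 2 : ℝ) ^ q := by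
    have e : q = X + h + (q - X - h) := by omega
    have e2 : (1 / 2 : ℝ) ^ q = (1 / 2 : ℝ) ^ X * (1 / 2 : ℝ) ^ h * (1 / 2 : ℝ) ^ (q - X - h) := by
      rw [← pow_add, ← pow_add, ← e]
    rw [e2]
    have h1 := pw_b X
    have h2 := pw_b h
    calc (1 / 2 : ℝ) ^ (q - X - h) = (2 ^ X * (1 / 2 : ℝ) ^ X) * (2 ^ h * (1 / 2 : ℝ) ^ h) * (1 / 2 : ℝ) ^ (q - X - h) := by
          rw [h1, h2]; ring
      _ = _ := by ring
  have hX1 : (1 : ℝ) ≤ 2 ^ X := one_le_pow₀ (by norm_num)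
  have hh1 : (1 : ℝ) ≤ 2 ^ h := one_le_pow₀ (by norm_num)
  set w : ℝ := (1 / 2 : ℝ) ^ (q - X - h) with hw
  have hw0 : 0 < w := by positivity
  have w1 : 2 ^ X * (1 / 2 : ℝ) ^ q ≤ w := by
    rw [hpw]
    have : 2 ^ X * (1 / 2 : ℝ) ^ q * 1 ≤ 2 ^ X * (1 / 2 : ℝ) ^ q * 2 ^ h := mul_le_mul_of_nonneg_left hh1 (by positivity)
    linarith
  have w2 : (1 / 2 : ℝ) ^ q * 2 ^ h ≤ w := by
    rw [hpw]
    have : (1 / 2 : ℝ) ^ q * 2 ^ h * 1 ≤ (1 / 2 : ℝ) ^ q * 2 ^ h * 2 ^ X := mul_le_mul_of_nonneg_left hX1 (by positivity)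
    linarith
  have w3 : (1 / 2 : ℝ) ^ q ≤ w := by
    have : (1 / 2 : ℝ) ^ q * 1 ≤ (1 / 2 : ℝ) ^ q * 2 ^ h := mul_le_mul_of_nonneg_left hh1 hq0.le
    linarith
  have w4 : 2 ^ X * (1 / 2 : ℝ) ^ q * 2 ^ h = w := by rw [hpw]; ring
  have flip : ∀ x y : ℝ, |x - σ * y| = |y - σ * x| := fun x y => by
    rcases hσ with rfl | rfl
    · rw [one_mul, one_mul, abs_sub_comm]
    · congr 1
      ring
  refine ⟨σ, hσ, fun k => ?_, ?_, ?_⟩
  · have b1 : |nv A (bl 0 l t) k - σ * nv A' (bl 0 l t) k| ≤ K * (2 ^ X * (1 / 2) ^ q) := by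
      have := a1 k
      rw [nrm_eq, nrm_eq] at this
      rw [flip]
      exact this
    have b2 : |nv A' (bl 0 l t) k| ≤ 4 * c' ^ 2 := by
      rw [ebl]
      exact H513.nn_le hc' hα' hκ' hin k
    have b3 := scal (x := nv (Fa h W t) (bl 0 l t) k) (x' := nv (Fa h W' t') (bl 0 l t) k) (Lf := Lf) (Lf' := Lf') hσ
      (by
        have := l5 (bl 0 l t).y (bl 0 l t).s k
        show (dnB h (tau 0 h t) W).nn _ _ k = Lf * A.nn _ _ k
        rw [this]; field_simp)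
      (by
        have := l5' (bl 0 l t).y (bl 0 l t).s k
        show (dnB h (tau 0 h t') W').nn _ _ k = Lf' * A'.nn _ _ k
        rw [this]; field_simp) hM hE b2 b1 (by positivity) (by positivity)
    refine b3.trans ?_
    have e1 : 7 * c ^ 2 * (K * (2 ^ X * (1 / 2) ^ q)) ≤ 7 * c ^ 2 * K * w := by
      rw [mul_assoc (7 * c ^ 2) K w]
      exact mul_le_mul_of_nonneg_left (mul_le_mul_of_nonneg_left w1 hK) (by positivity)
    have e2 : 12 * c ^ 2 * (1 / 2 : ℝ) ^ q * (4 * c' ^ 2) ≤ 48 * c ^ 2 * c' ^ 2 * w := by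
      have : 48 * c ^ 2 * c' ^ 2 * (1 / 2 : ℝ) ^ q ≤ 48 * c ^ 2 * c' ^ 2 * w := mul_le_mul_of_nonneg_left w3 (by positivity)
      linarith
    linarith
  · have b1 : |A.κ - σ * A'.κ| ≤ K * w := by
      have h1 := kap_le hA2 a2
      rw [flip]
      refine h1.trans (le_of_eq ?_)
      rw [mul_assoc, w4]
    have b2 : |A'.κ| ≤ c' * 2 ^ h := kap_le hA2' hκ'
    have b3 := scal (x := (Fa h W t).κ) (x' := (Fa h W' t').κ) (Lf := Lf) (Lf' := Lf') hσ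
      (by
        show (dnB h (tau 0 h t) W).κ = Lf * A.κ
        rw [l3]; field_simp)
      (by
        show (dnB h (tau 0 h t') W').κ = Lf' * A'.κ
        rw [l3']; field_simp) hM hE b2 b1 (by positivity) (by positivity)
    refine b3.trans ?_
    have e2 : 12 * c ^ 2 * (1 / 2 : ℝ) ^ q * (c' * 2 ^ h) ≤ 12 * c ^ 2 * c' * w := by
      have : 12 * c ^ 2 * c' * ((1 / 2 : ℝ) ^ q * 2 ^ h) ≤ 12 * c ^ 2 * c' * w := mul_le_mul_of_nonneg_left w2 (by positivity)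
      linarith
    have e3 : 12 * c ^ 2 * c' * w ≤ 48 * c ^ 2 * c' ^ 2 * w := by
      refine mul_le_mul_of_nonneg_right ?_ hw0.le
      have : 12 * c ^ 2 * c' ≤ 12 * c ^ 2 * c' ^ 2 := mul_le_mul_of_nonneg_left hc'2 (by positivity)
      have h5 : 0 ≤ 12 * c ^ 2 * c' ^ 2 := by positivity
      linarith
    linarith
  · have b1 : |A.α - σ * A'.α| ≤ K * w := by
      have h1 := kap_le hA2 a3
      rw [flip]
      refine h1.trans (le_of_eq ?_)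
      rw [mul_assoc, w4]
    have b2 : |A'.α| ≤ c' * 2 ^ h := kap_le hA2' hα'
    have b3 := scal (x := (Fa h W t).α) (x' := (Fa h W' t').α) (Lf := Lf) (Lf' := Lf') hσ
      (by
        show (dnB h (tau 0 h t) W).α = Lf * A.α
        rw [l4]; field_simp)
      (by
        show (dnB h (tau 0 h t') W').α = Lf' * A'.α
        rw [l4']; field_simp) hM hE b2 b1 (by positivity) (by positivity)
    refine b3.trans ?_
    have e2 : 12 * c ^ 2 * (1 / 2 : ℝ) ^ q * (c' * 2 ^ h) ≤ 12 * c ^ 2 * c' * w := by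
      have : 12 * c ^ 2 * c' * ((1 / 2 : ℝ) ^ q * 2 ^ h) ≤ 12 * c ^ 2 * c' * w := mul_le_mul_of_nonneg_left w2 (by positivity)
      linarith
    have e3 : 12 * c ^ 2 * c' * w ≤ 48 * c ^ 2 * c' ^ 2 * w := by
      refine mul_le_mul_of_nonneg_right ?_ hw0.le
      have : 12 * c ^ 2 * c' ≤ 12 * c ^ 2 * c' ^ 2 := mul_le_mul_of_nonneg_left hc'2 (by positivity)
      have h5 : 0 ≤ 12 * c ^ 2 * c' ^ 2 := by positivity
      linarith
    linarith

end Vale.Agent.P106.U.H428
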