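import Vale.Agent.P106.U.H416.Defs
import Vale.Agent.P106.W.Rec

/-!
# P106 / U / H428 : rounded labels of real boxes (helper428)

* `Nr D b l m` : the rays `l`, `m` are in a common natural ball of cap `D 2^-b`.
* `kf b R B q` : coefficients of the functional of the box `B` in the coordinates centred at the cell `q` of level `b`,
  rounded in units of the cap `2^-b` and the thickness `2^-R`;  `key b R B l = kf b R B (pl b l)`.
* `Hyp c b R B l` : `|κ|, |α| ≤ c 2^b`, `|G| ≤ c 2^-R` on the ray `l`.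
* `net` : a label (class `1`) which is a function of the key and contains all rays with this key.
* `Cl` : closeness of two functionals (up to a sign), `Cl.move`, `Cl.key` : the keys are then close too.
-/

set_option autoImplicit false

namespace Vale.Agent.P106.U.H428

open Vale.Agent.P127 Vale.Agent.P127.Stk Vale.Agent.P127.U Vale.Agent.P106.W Vale.Agent.P106.K
open Vale.Agent.P122.C2 (fn)

/-- type of the cells -/
abbrev Cell := (Fin 2 → ℤ) × (Fin 2 → ℤ) × ℤ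

/-- centre of a cell of level `b` -/
noncomputable def ctr (b : ℕ) (q : Cell) : Ry :=
  ⟨fun k => (q.2.1 k : ℝ) / 2 ^ b, fun k => (q.1 k : ℝ) / 2 ^ b, (q.2.2 : ℝ) / 2 ^ (2 * b)⟩

/-- the adapted coordinate of `l` with respect to `m` -/
def ze (l m : Ry) : ℝ := l.z + ∑ k, l.y k * (l.s k - m.s k) - m.z

/-- the rays `l` and `m` are in a common natural ball -/
structure Nr (D : ℝ) (b : ℕ) (l m : Ry) : Prop where
  y : ∀ k, |l.y k - m.y k| ≤ D * (1 / 2 : ℝ) ^ b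
  s : ∀ k, |l.s k - m.s k| ≤ D * (1 / 2 : ℝ) ^ b
  z : |ze l m| ≤ D * (1 / 2 : ℝ) ^ (2 * b)

theorem hp (b : ℕ) : (1 / 2 : ℝ) ^ b = 1 / 2 ^ b := by rw [div_pow, one_pow]

theorem fl1_near (m : ℕ) (x : ℝ) : |x - (fl1 m x : ℝ) / 2 ^ m| ≤ (1 / 2 : ℝ) ^ m := by
  unfold fl1
  have h2 : (0 : ℝ) < 2 ^ m := by positivity
  have h3 := Int.floor_le ((2 : ℝ) ^ m * x)
  have h4 := (Int.lt_floor_add_one ((2 : ℝ) ^ m * x)).le
  rw [hp, abs_le]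
  have e : x - (⌊(2 : ℝ) ^ m * x⌋ : ℝ) / 2 ^ m = (2 ^ m * x - ⌊(2 : ℝ) ^ m * x⌋) / 2 ^ m := by field_simp
  rw [e]
  constructor
  · have : (0 : ℝ) ≤ (2 ^ m * x - ⌊(2 : ℝ) ^ m * x⌋) / 2 ^ m := div_nonneg (by linarith) h2.le
    have h5 : (0 : ℝ) < 1 / 2 ^ m := by positivity
    linarith
  · exact div_le_div_of_nonneg_right (by linarith) h2.le

theorem fl1_eq_near {m : ℕ} {x y : ℝ} (h : fl1 m x = fl1 m y) : |x - y| ≤ (1 / 2 : ℝ) ^ m := by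
  unfold fl1 at h
  have h2 : (0 : ℝ) < 2 ^ m := by positivity
  have h1 : |(2:ℝ) ^ m * x - (2:ℝ) ^ m * y| < 1 := Int.abs_sub_lt_one_of_floor_eq_floor h
  rw [← mul_sub, abs_mul, abs_of_pos h2] at h1
  rw [hp, le_div_iff₀ h2]
  linarith

theorem nr_ctr (b : ℕ) (l : Ry) : Nr 1 b l (ctr b (pl b l)) := by
  refine ⟨fun k => ?_, fun k => ?_, ?_⟩
  · rw [one_mul]
    exact fl1_near b (l.y k)
  · rw [one_mul]
    exact fl1_near b (l.s k)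
  · rw [one_mul]
    exact fl1_near (2 * b) _

theorem ze_sub (l l' m : Ry) : ze l l' = ze l m - ze l' m - ∑ k, (l.y k - l'.y k) * (l'.s k - m.s k) := by
  simp only [ze, Fin.sum_univ_two]
  ring

theorem Nr.trans' {D E : ℝ} {b : ℕ} {l l' m : Ry} (hD : 0 ≤ D) (hE : 0 ≤ E) (h : Nr D b l m) (h' : Nr E b l' m) :
    Nr (D + E + 2 * (D + E) * E) b l l' := by
  have hb : (0 : ℝ) < (1 / 2 : ℝ) ^ b := by positivity
  have hDE : D + E ≤ D + E + 2 * (D + E) * E := by nlinarith [mul_nonneg hD hE, mul_nonneg hE hE]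
  have hy : ∀ k, |l.y k - l'.y k| ≤ (D + E) * (1 / 2 : ℝ) ^ b := fun k => by
    have e : l.y k - l'.y k = (l.y k - m.y k) - (l'.y k - m.y k) := by ring
    rw [e]
    have := abs_sub (l.y k - m.y k) (l'.y k - m.y k)
    linarith [h.y k, h'.y k]
  have hs : ∀ k, |l.s k - l'.s k| ≤ (D + E) * (1 / 2 : ℝ) ^ b := fun k => by
    have e : l.s k - l'.s k = (l.s k - m.s k) - (l'.s k - m.s k) := by ring
    rw [e]
    have := abs_sub (l.s k - m.s k) (l'.s k - m.s k)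
    linarith [h.s k, h'.s k]
  refine ⟨fun k => (hy k).trans (mul_le_mul_of_nonneg_right hDE hb.le),
    fun k => (hs k).trans (mul_le_mul_of_nonneg_right hDE hb.le), ?_⟩
  rw [ze_sub l l' m]
  have e2 : (1 / 2 : ℝ) ^ (2 * b) = (1 / 2 : ℝ) ^ b * (1 / 2 : ℝ) ^ b := by rw [two_mul, pow_add]
  have hk : ∀ k, |(l.y k - l'.y k) * (l'.s k - m.s k)| ≤ (D + E) * E * (1 / 2 : ℝ) ^ (2 * b) := fun k => by
    rw [abs_mul, e2]
    calc |l.y k - l'.y k| * |l'.s k - m.s k| ≤ ((D + E) * (1 / 2 : ℝ) ^ b) * (E * (1 / 2 : ℝ) ^ b) :=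
          mul_le_mul (hy k) (h'.s k) (abs_nonneg _) (by positivity)
      _ = (D + E) * E * ((1 / 2 : ℝ) ^ b * (1 / 2 : ℝ) ^ b) := by ring
  have h3 : |∑ k, (l.y k - l'.y k) * (l'.s k - m.s k)| ≤ 2 * ((D + E) * E * (1 / 2 : ℝ) ^ (2 * b)) := by
    rw [Fin.sum_univ_two]
    have := abs_add_le ((l.y 0 - l'.y 0) * (l'.s 0 - m.s 0)) ((l.y 1 - l'.y 1) * (l'.s 1 - m.s 1))
    linarith [hk 0, hk 1]
  have h4 := abs_sub (ze l m - ze l' m) (∑ k, (l.y k - l'.y k) * (l'.s k - m.s k))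
  have h5 := abs_sub (ze l m) (ze l' m)
  have := h.z
  have := h'.z
  have e : (D + E + 2 * (D + E) * E) * (1 / 2 : ℝ) ^ (2 * b) =
      D * (1 / 2 : ℝ) ^ (2 * b) + E * (1 / 2 : ℝ) ^ (2 * b) + 2 * ((D + E) * E * (1 / 2 : ℝ) ^ (2 * b)) := by ring
  linarith

theorem nr_cell {b : ℕ} {l l' : Ry} (h : pl b l = pl b l') : Nr 6 b l l' := by
  have h1 := nr_ctr b l
  have h2 := nr_ctr b l'
  rw [h] at h1
  have := Nr.trans' zero_le_one zero_le_one h1 h2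
  norm_num at this
  exact this

theorem Nr.symm' {D : ℝ} {b : ℕ} {l m : Ry} (hD : 0 ≤ D) (h : Nr D b l m) : Nr (D + 2 * D ^ 2) b m l := by
  have hb : (0 : ℝ) < (1 / 2 : ℝ) ^ b := by positivity
  have hDD : D ≤ D + 2 * D ^ 2 := by nlinarith [sq_nonneg D]
  refine ⟨fun k => ?_, fun k => ?_, ?_⟩
  · rw [abs_sub_comm]
    exact (h.y k).trans (mul_le_mul_of_nonneg_right hDD hb.le)
  · rw [abs_sub_comm]
    exact (h.s k).trans (mul_le_mul_of_nonneg_right hDD hb.le)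
  · have e : ze m l = -ze l m + ∑ k, (l.y k - m.y k) * (l.s k - m.s k) := by
      simp only [ze, Fin.sum_univ_two]
      ring
    rw [e]
    have e2 : (1 / 2 : ℝ) ^ (2 * b) = (1 / 2 : ℝ) ^ b * (1 / 2 : ℝ) ^ b := by rw [two_mul, pow_add]
    have hk : ∀ k, |(l.y k - m.y k) * (l.s k - m.s k)| ≤ D ^ 2 * (1 / 2 : ℝ) ^ (2 * b) := fun k => by
      rw [abs_mul, e2]
      calc |l.y k - m.y k| * |l.s k - m.s k| ≤ (D * (1 / 2 : ℝ) ^ b) * (D * (1 / 2 : ℝ) ^ b) :=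
            mul_le_mul (h.y k) (h.s k) (abs_nonneg _) (by positivity)
        _ = D ^ 2 * ((1 / 2 : ℝ) ^ b * (1 / 2 : ℝ) ^ b) := by ring
    have h3 : |∑ k, (l.y k - m.y k) * (l.s k - m.s k)| ≤ 2 * (D ^ 2 * (1 / 2 : ℝ) ^ (2 * b)) := by
      rw [Fin.sum_univ_two]
      have := abs_add_le ((l.y 0 - m.y 0) * (l.s 0 - m.s 0)) ((l.y 1 - m.y 1) * (l.s 1 - m.s 1))
      linarith [hk 0, hk 1]
    have h4 := abs_add_le (-ze l m) (∑ k, (l.y k - m.y k) * (l.s k - m.s k))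
    rw [abs_neg] at h4
    have := h.z
    have e3 : (D + 2 * D ^ 2) * (1 / 2 : ℝ) ^ (2 * b) =
      D * (1 / 2 : ℝ) ^ (2 * b) + 2 * (D ^ 2 * (1 / 2 : ℝ) ^ (2 * b)) := by ring
    linarith

theorem Nr.mono {D E : ℝ} {b : ℕ} {l m : Ry} (h : Nr D b l m) (hDE : D ≤ E) : Nr E b l m :=
  ⟨fun k => (h.y k).trans (mul_le_mul_of_nonneg_right hDE (by positivity)),
    fun k => (h.s k).trans (mul_le_mul_of_nonneg_right hDE (by positivity)),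
    h.z.trans (mul_le_mul_of_nonneg_right hDE (by positivity))⟩

/-- coarser balls -/
theorem Nr.down {D : ℝ} {b b' : ℕ} {l m : Ry} (hD : 0 ≤ D) (h : Nr D b l m) (hb : b' ≤ b) : Nr D b' l m := by
  have h1 : (1 / 2 : ℝ) ^ b ≤ (1 / 2 : ℝ) ^ b' := pow_le_pow_of_le_one (by norm_num) (by norm_num) hb
  have h2 : (1 / 2 : ℝ) ^ (2 * b) ≤ (1 / 2 : ℝ) ^ (2 * b') := pow_le_pow_of_le_one (by norm_num) (by norm_num) (by omega)
  exact ⟨fun k => (h.y k).trans (mul_le_mul_of_nonneg_left h1 hD),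
    fun k => (h.s k).trans (mul_le_mul_of_nonneg_left h1 hD), h.z.trans (mul_le_mul_of_nonneg_left h2 hD)⟩

/-! ### functionals -/

/-- value of the functional at the time `0` -/
noncomputable def G0 (B : Cbx) (l : Ry) : ℝ := B.g0 l.y l.s l.z

/-- increment of the functional -/
noncomputable def G1 (B : Cbx) (l : Ry) : ℝ := B.g1 l.y l.s l.z

/-- normal vector at the ray `m` -/
noncomputable def nv (B : Cbx) (m : Ry) : Fin 2 → ℝ := B.nn m.y m.s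

theorem nv_sub (B : Cbx) (l m : Ry) (k : Fin 2) :
    nv B l k = nv B m k + B.κ * (l.s k - m.s k) - 2 * B.α * (l.y k - m.y k) := by
  fin_cases k <;> simp [nv, Cbx.nn] <;> ring

theorem G0_eq (B : Cbx) (l m : Ry) : G0 B l = (∑ k, nv B m k * (l.y k - m.y k)) + B.κ * ze l m -
    B.α * (∑ k, (l.y k - m.y k) ^ 2) + G0 B m := B.g0_rec m.y m.s l.y l.s m.z l.z

theorem G1_eq (B : Cbx) (l m : Ry) : G1 B l = (∑ k, nv B m k * (l.s k - m.s k)) + B.κ * (∑ k, (l.s k - m.s k) ^ 2) / 2 +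
    2 * B.α * (ze l m - ∑ k, (l.y k - m.y k) * (l.s k - m.s k)) + G1 B m := by
  have h := B.g1_rec m.y m.s l.y l.s m.z l.z
  have e : ze l m - ∑ k, (l.y k - m.y k) * (l.s k - m.s k) = l.z + ∑ k, m.y k * (l.s k - m.s k) - m.z := by
    simp only [ze, Fin.sum_univ_two]
    ring
  rw [e]
  exact h

theorem nv_sq (B : Cbx) (m : Ry) : nv B m 0 ^ 2 + nv B m 1 ^ 2 = 1 + 2 * B.κ * G1 B m - 4 * B.α * G0 B m :=
  B.nn_sq m.y m.s m.z

/-- the functionals of `B` and `σ B'` are close in the natural ball of cap `2^-b` around `m` : thickness `D 2^-R` -/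
structure Cl (D : ℝ) (b R : ℕ) (σ : ℝ) (B B' : Cbx) (m : Ry) : Prop where
  n : ∀ k, |nv B m k - σ * nv B' m k| ≤ D * (2 ^ b * (1 / 2 : ℝ) ^ R)
  κ : |B.κ - σ * B'.κ| ≤ D * (2 ^ (2 * b) * (1 / 2 : ℝ) ^ R)
  α : |B.α - σ * B'.α| ≤ D * (2 ^ (2 * b) * (1 / 2 : ℝ) ^ R)
  g0 : |G0 B m - σ * G0 B' m| ≤ D * (1 / 2 : ℝ) ^ R
  g1 : |G1 B m - σ * G1 B' m| ≤ D * (1 / 2 : ℝ) ^ R

theorem Cl.mono {D E : ℝ} {b R : ℕ} {σ : ℝ} {B B' : Cbx} {m : Ry} (h : Cl D b R σ B B' m) (hDE : D ≤ E) :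
    Cl E b R σ B B' m :=
  ⟨fun k => (h.n k).trans (mul_le_mul_of_nonneg_right hDE (by positivity)),
    h.κ.trans (mul_le_mul_of_nonneg_right hDE (by positivity)), h.α.trans (mul_le_mul_of_nonneg_right hDE (by positivity)),
    h.g0.trans (mul_le_mul_of_nonneg_right hDE (by positivity)), h.g1.trans (mul_le_mul_of_nonneg_right hDE (by positivity))⟩

theorem pw_b (b : ℕ) : (2 : ℝ) ^ b * (1 / 2 : ℝ) ^ b = 1 := by rw [hp]; field_simp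

theorem prod_b {D E x y ρ : ℝ} {b : ℕ} (hD : 0 ≤ D) (hρ : 0 ≤ ρ) (hx : |x| ≤ D * (2 ^ (2 * b) * ρ))
    (hy : |y| ≤ E * (1 / 2 : ℝ) ^ b) : |x * y| ≤ D * E * (2 ^ b * ρ) := by
  rw [abs_mul]
  calc |x| * |y| ≤ (D * (2 ^ (2 * b) * ρ)) * (E * (1 / 2 : ℝ) ^ b) :=
        mul_le_mul hx hy (abs_nonneg _) (by positivity)
    _ = D * E * (2 ^ b * ρ) * (2 ^ b * (1 / 2 : ℝ) ^ b) := by rw [two_mul, pow_add]; ring
    _ = D * E * (2 ^ b * ρ) := by rw [pw_b, mul_one]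

theorem prod_n {D E x y ρ : ℝ} {b : ℕ} (hD : 0 ≤ D) (hρ : 0 ≤ ρ) (hx : |x| ≤ D * (2 ^ b * ρ))
    (hy : |y| ≤ E * (1 / 2 : ℝ) ^ b) : |x * y| ≤ D * E * ρ := by
  rw [abs_mul]
  calc |x| * |y| ≤ (D * (2 ^ b * ρ)) * (E * (1 / 2 : ℝ) ^ b) :=
        mul_le_mul hx hy (abs_nonneg _) (by positivity)
    _ = D * E * ρ * (2 ^ b * (1 / 2 : ℝ) ^ b) := by ring
    _ = D * E * ρ := by rw [pw_b, mul_one]

theorem prod_q {D E x y ρ : ℝ} {b : ℕ} (hD : 0 ≤ D) (hρ : 0 ≤ ρ) (hx : |x| ≤ D * (2 ^ (2 * b) * ρ))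
    (hy : |y| ≤ E * (1 / 2 : ℝ) ^ (2 * b)) : |x * y| ≤ D * E * ρ := by
  rw [abs_mul]
  calc |x| * |y| ≤ (D * (2 ^ (2 * b) * ρ)) * (E * (1 / 2 : ℝ) ^ (2 * b)) :=
        mul_le_mul hx hy (abs_nonneg _) (by positivity)
    _ = D * E * ρ * (2 ^ (2 * b) * (1 / 2 : ℝ) ^ (2 * b)) := by ring
    _ = D * E * ρ := by rw [pw_b, mul_one]

theorem prod_p {E x y : ℝ} {b : ℕ} (hx : |x| ≤ E * (1 / 2 : ℝ) ^ b)
    (hy : |y| ≤ E * (1 / 2 : ℝ) ^ b) : |x * y| ≤ E ^ 2 * (1 / 2 : ℝ) ^ (2 * b) := by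
  rw [abs_mul]
  calc |x| * |y| ≤ (E * (1 / 2 : ℝ) ^ b) * (E * (1 / 2 : ℝ) ^ b) :=
        mul_le_mul hx hy (abs_nonneg _) ((abs_nonneg _).trans hx)
    _ = E ^ 2 * (1 / 2 : ℝ) ^ (2 * b) := by rw [two_mul, pow_add]; ring

theorem abs5 (a b c d e : ℝ) : |a + b + c + d + e| ≤ |a| + |b| + |c| + |d| + |e| := by
  have h1 := abs_add_le (a + b + c + d) e
  have h2 := abs_add_le (a + b + c) d
  have h3 := abs_add_le (a + b) c
  have h4 := abs_add_le a b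
  linarith

theorem Cl.move_n {D E : ℝ} (hD : 0 ≤ D) {b R : ℕ} {σ : ℝ} {B B' : Cbx} {m l : Ry}
    (h : Cl D b R σ B B' m) (hl : Nr E b l m) (k : Fin 2) :
    |nv B l k - σ * nv B' l k| ≤ D * (1 + 3 * E) * (2 ^ b * (1 / 2 : ℝ) ^ R) := by
  have e : nv B l k - σ * nv B' l k = (nv B m k - σ * nv B' m k) + (B.κ - σ * B'.κ) * (l.s k - m.s k) +
      -((B.α - σ * B'.α) * (l.y k - m.y k)) + -((B.α - σ * B'.α) * (l.y k - m.y k)) + 0 := by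
    rw [nv_sub B l m k, nv_sub B' l m k]; ring
  rw [e]
  refine (abs5 _ _ _ _ _).trans ?_
  rw [abs_neg, abs_zero]
  have h1 := h.n k
  have h2 := prod_b hD (by positivity) h.κ (hl.s k)
  have h3 := prod_b hD (by positivity) h.α (hl.y k)
  have e2 : D * (1 + 3 * E) * (2 ^ b * (1 / 2 : ℝ) ^ R) = D * (2 ^ b * (1 / 2 : ℝ) ^ R) +
      3 * (D * E * (2 ^ b * (1 / 2 : ℝ) ^ R)) := by ring
  rw [e2]
  linarith

theorem Cl.move_g0 {D E : ℝ} (hD : 0 ≤ D) {b R : ℕ} {σ : ℝ} {B B' : Cbx} {m l : Ry}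
    (h : Cl D b R σ B B' m) (hl : Nr E b l m) :
    |G0 B l - σ * G0 B' l| ≤ D * (1 + 3 * E + 2 * E ^ 2) * (1 / 2 : ℝ) ^ R := by
  have e : G0 B l - σ * G0 B' l = (nv B m 0 - σ * nv B' m 0) * (l.y 0 - m.y 0) +
        (nv B m 1 - σ * nv B' m 1) * (l.y 1 - m.y 1) + (B.κ - σ * B'.κ) * ze l m +
        -((B.α - σ * B'.α) * ((l.y 0 - m.y 0) * (l.y 0 - m.y 0) + (l.y 1 - m.y 1) * (l.y 1 - m.y 1))) +
        (G0 B m - σ * G0 B' m) := by
    rw [G0_eq B l m, G0_eq B' l m]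
    simp only [Fin.sum_univ_two]
    ring
  rw [e]
  refine (abs5 _ _ _ _ _).trans ?_
  rw [abs_neg]
  have hsum : |(l.y 0 - m.y 0) * (l.y 0 - m.y 0) + (l.y 1 - m.y 1) * (l.y 1 - m.y 1)| ≤
      (2 * E ^ 2) * (1 / 2 : ℝ) ^ (2 * b) := by
    have h1 := abs_add_le ((l.y 0 - m.y 0) * (l.y 0 - m.y 0)) ((l.y 1 - m.y 1) * (l.y 1 - m.y 1))
    have h2 := prod_p (hl.y 0) (hl.y 0)
    have h3 := prod_p (hl.y 1) (hl.y 1)
    linarith
  have a1 := prod_n hD (by positivity) (h.n 0) (hl.y 0)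
  have a2 := prod_n hD (by positivity) (h.n 1) (hl.y 1)
  have a3 := prod_q hD (by positivity) h.κ hl.z
  have a4 := prod_q hD (by positivity) h.α hsum
  have a5 := h.g0
  have e2 : D * (1 + 3 * E + 2 * E ^ 2) * (1 / 2 : ℝ) ^ R = 3 * (D * E * (1 / 2 : ℝ) ^ R) +
      D * (2 * E ^ 2) * (1 / 2 : ℝ) ^ R + D * (1 / 2 : ℝ) ^ R := by ring
  rw [e2]
  linarith

theorem Cl.move_g1 {D E : ℝ} (hD : 0 ≤ D) {b R : ℕ} {σ : ℝ} {B B' : Cbx} {m l : Ry}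
    (h : Cl D b R σ B B' m) (hl : Nr E b l m) :
    |G1 B l - σ * G1 B' l| ≤ D * (1 + 4 * E + 5 * E ^ 2) * (1 / 2 : ℝ) ^ R := by
  have e : G1 B l - σ * G1 B' l = (nv B m 0 - σ * nv B' m 0) * (l.s 0 - m.s 0) +
        (nv B m 1 - σ * nv B' m 1) * (l.s 1 - m.s 1) +
        (B.κ - σ * B'.κ) * (((l.s 0 - m.s 0) * (l.s 0 - m.s 0) + (l.s 1 - m.s 1) * (l.s 1 - m.s 1)) / 2) +
        (B.α - σ * B'.α) * (2 * (ze l m - ((l.y 0 - m.y 0) * (l.s 0 - m.s 0) + (l.y 1 - m.y 1) * (l.s 1 - m.s 1)))) +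
        (G1 B m - σ * G1 B' m) := by
    rw [G1_eq B l m, G1_eq B' l m]
    simp only [Fin.sum_univ_two]
    ring
  rw [e]
  refine (abs5 _ _ _ _ _).trans ?_
  have hsum : |((l.s 0 - m.s 0) * (l.s 0 - m.s 0) + (l.s 1 - m.s 1) * (l.s 1 - m.s 1)) / 2| ≤
      E ^ 2 * (1 / 2 : ℝ) ^ (2 * b) := by
    rw [abs_div, abs_two]
    have h1 := abs_add_le ((l.s 0 - m.s 0) * (l.s 0 - m.s 0)) ((l.s 1 - m.s 1) * (l.s 1 - m.s 1))
    have h2 := prod_p (hl.s 0) (hl.s 0)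
    have h3 := prod_p (hl.s 1) (hl.s 1)
    linarith
  have hsum2 : |2 * (ze l m - ((l.y 0 - m.y 0) * (l.s 0 - m.s 0) + (l.y 1 - m.y 1) * (l.s 1 - m.s 1)))| ≤
      (2 * E + 4 * E ^ 2) * (1 / 2 : ℝ) ^ (2 * b) := by
    rw [abs_mul, abs_two]
    have h1 := abs_sub (ze l m) ((l.y 0 - m.y 0) * (l.s 0 - m.s 0) + (l.y 1 - m.y 1) * (l.s 1 - m.s 1))
    have h2 := abs_add_le ((l.y 0 - m.y 0) * (l.s 0 - m.s 0)) ((l.y 1 - m.y 1) * (l.s 1 - m.s 1))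
    have h3 := prod_p (hl.y 0) (hl.s 0)
    have h4 := prod_p (hl.y 1) (hl.s 1)
    have h5 := hl.z
    have e3 : (2 * E + 4 * E ^ 2) * (1 / 2 : ℝ) ^ (2 * b) = 2 * (E * (1 / 2 : ℝ) ^ (2 * b) +
      (E ^ 2 * (1 / 2 : ℝ) ^ (2 * b) + E ^ 2 * (1 / 2 : ℝ) ^ (2 * b))) := by ring
    rw [e3]
    linarith
  have a1 := prod_n hD (by positivity) (h.n 0) (hl.s 0)
  have a2 := prod_n hD (by positivity) (h.n 1) (hl.s 1)
  have a3 := prod_q hD (by positivity) h.κ hsum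
  have a4 := prod_q hD (by positivity) h.α hsum2
  have a5 := h.g1
  have e2 : D * (1 + 4 * E + 5 * E ^ 2) * (1 / 2 : ℝ) ^ R = D * E * (1 / 2 : ℝ) ^ R + D * E * (1 / 2 : ℝ) ^ R +
      D * E ^ 2 * (1 / 2 : ℝ) ^ R + D * (2 * E + 4 * E ^ 2) * (1 / 2 : ℝ) ^ R + D * (1 / 2 : ℝ) ^ R := by ring
  rw [e2]
  linarith

/-- closeness at another ray of the same ball -/
theorem Cl.move {D E : ℝ} (hD : 0 ≤ D) (hE : 0 ≤ E) {b R : ℕ} {σ : ℝ} {B B' : Cbx} {m l : Ry} (h : Cl D b R σ B B' m)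
    (hl : Nr E b l m) : Cl (D * (1 + 4 * E + 5 * E ^ 2)) b R σ B B' l := by
  have h1 : D * (1 + 3 * E) ≤ D * (1 + 4 * E + 5 * E ^ 2) := mul_le_mul_of_nonneg_left (by nlinarith [sq_nonneg E]) hD
  have h2 : D * (1 + 3 * E + 2 * E ^ 2) ≤ D * (1 + 4 * E + 5 * E ^ 2) :=
    mul_le_mul_of_nonneg_left (by nlinarith [sq_nonneg E]) hD
  have h3 : D ≤ D * (1 + 4 * E + 5 * E ^ 2) := le_mul_of_one_le_right hD (by nlinarith [sq_nonneg E])
  exact ⟨fun k => (h.move_n hD hl k).trans (mul_le_mul_of_nonneg_right h1 (by positivity)),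
    h.κ.trans (mul_le_mul_of_nonneg_right h3 (by positivity)), h.α.trans (mul_le_mul_of_nonneg_right h3 (by positivity)),
    (h.move_g0 hD hl).trans (mul_le_mul_of_nonneg_right h2 (by positivity)), h.move_g1 hD hl⟩

end Vale.Agent.P106.U.H428
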