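import Vale.Agent.P106.U.H428.SlbC

/-!
# P106 / U / H428 : the start slab from the rounded absolute functional (helper428)

`pSlb2 : PSlb2` (literal Prop of helper61, U/H61/NrmDefs.lean).  The slab = functional of a representative with the same rounded
absolute functional, the same letter of the window and the same cell of level `4` of the ray of the window, centred at the ray of
the window of the representative.
-/

set_option autoImplicit false

namespace Vale.Agent.P106.U.H428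

open Vale.Agent.P127 Vale.Agent.P127.Stk Vale.Agent.P127.U Vale.Agent.P106.W Vale.Agent.P106.K
open Vale.Agent.P106.U Vale.Agent.P106.U.H416 Vale.Agent.P106.U.H61
open Vale.Agent.P106.U.H513 (dn dnB tau)

/-- data of one label (window coordinates) -/
structure Dt (a w q : ℕ) (W : Cbx) (l : Ry) (t : ℝ) : Prop where
  κ : |(Fl a w W t).κ| ≤ 1 / 100
  α : |(Fl a w W t).α| ≤ 1 / 1000
  g0 : |G0 (Fl a w W t) (bl a l t)| ≤ 1 / 500 * (1 / 2 : ℝ) ^ q
  g1 : |G1 (Fl a w W t) (bl a l t)| ≤ 1 / 1000 * (1 / 2 : ℝ) ^ q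

theorem dt_of {a w q : ℕ} {W : Cbx} {l : Ry} {t : ℝ} (H : W0 (1 / 1000) (a + w) q W l t)
    (hα : |(Fa (a + w) W t).α| * 2 ^ 20 ≤ 2 ^ a) : Dt a w q W l t := by
  have h2 : (0 : ℝ) < 2 ^ a := by positivity
  have hα1 : |2 ^ w * W.α| ≤ 1 / 2 ^ 20 := by
    have e : (Fa (a + w) W t).α = 2 ^ a * (2 ^ w * W.α) := by
      simp only [Fa, dnB, pow_add]; ring
    rw [e, abs_mul, abs_of_pos h2] at hα
    rw [le_div_iff₀ (by positivity)]
    by_contra hcon
    push Not at hcon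
    nlinarith
  have t0 := H513.tau_nonneg a w t
  have t1 := H513.tau_le a w t
  have hg := g_dn_le (w := w) t0 t1 H.g.1 H.g.2
  rw [← H513.bl_dn a w l t] at hg
  refine ⟨?_, hα1.trans (by norm_num), hg.1.trans (by linarith [(by positivity : (0 : ℝ) < (1 / 2 : ℝ) ^ q)]), hg.2⟩
  have e : (Fl a w W t).κ = W.κ - 2 * (tau a w t * (2 ^ w * W.α)) := by
    simp only [Fl, dnB]; ring
  rw [e]
  have h3 := abs_sub W.κ (2 * (tau a w t * (2 ^ w * W.α)))
  have h4 : |2 * (tau a w t * (2 ^ w * W.α))| ≤ 2 * (1 / 2 ^ 20) := by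
    rw [abs_mul, abs_two, abs_mul, abs_of_nonneg t0]
    have := mul_le_mul t1 hα1 (abs_nonneg _) zero_le_one
    linarith
  have h5 := H.κ
  have h6 : 2 * (1 / 2 ^ 20 : ℝ) ≤ 1 / 1000 := by norm_num
  linarith

theorem Dt.n {a w q : ℕ} {W : Cbx} {l : Ry} {t : ℝ} (V : Dt a w q W l t) :
    |nv (Fl a w W t) (bl a l t) 0 ^ 2 + nv (Fl a w W t) (bl a l t) 1 ^ 2 - 1| ≤ 1 / 100 * (1 / 2 : ℝ) ^ q := by
  rw [nv_sq]
  obtain ⟨h1, h2, h3, h4⟩ := V
  set F := Fl a w W t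
  have e : 1 + 2 * F.κ * G1 F (bl a l t) - 4 * F.α * G0 F (bl a l t) - 1 =
      2 * (F.κ * G1 F (bl a l t)) - 4 * (F.α * G0 F (bl a l t)) := by ring
  rw [e]
  have hq : (0 : ℝ) < (1 / 2 : ℝ) ^ q := by positivity
  have a1 : |F.κ * G1 F (bl a l t)| ≤ 1 / 100 * (1 / 1000 * (1 / 2 : ℝ) ^ q) := by
    rw [abs_mul]
    exact mul_le_mul h1 h4 (abs_nonneg _) (by norm_num)
  have a2 : |F.α * G0 F (bl a l t)| ≤ 1 / 1000 * (1 / 500 * (1 / 2 : ℝ) ^ q) := by
    rw [abs_mul]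
    exact mul_le_mul h2 h3 (abs_nonneg _) (by norm_num)
  have a3 := abs_sub (2 * (F.κ * G1 F (bl a l t))) (4 * (F.α * G0 F (bl a l t)))
  rw [abs_mul 2, abs_mul 4, abs_two, abs_of_pos (by norm_num : (0 : ℝ) < 4)] at a3
  linarith

/-- closeness of the functionals of two labels with the same rounded absolute functional -/
theorem cl_gk {a w r q : ℕ} {W W' : Cbx} {l : Ry} {t t' : ℝ} (H : W0 (1 / 1000) (a + w) q W l t)
    (ht : fl1 a t = fl1 a t')
    (hk : gk (a + w) (r + a + 20) W t = gk (a + w) (r + a + 20) W' t') :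
    Cl (3 * (1 * (1 + 4 * 9 + 5 * 9 ^ 2))) 0 (r + 20) 1 (Fl a w W t) (Fl a w W' t') (bl a l t) := by
  have e1 : Cl 1 0 (r + a + 20) 1 (Fa (a + w) W t) (Fa (a + w) W' t') zr := cf_eq (Nat.zero_le _) hk
  have e2 := e1.move zero_le_one (by norm_num) (nr_zr H.ok H.t0 H.t1).2
  have eτ : tau 0 a t = tau 0 a t' := H513.tau_fn 0 a _ _ (by rw [Nat.zero_add]; exact ht)
  rw [Fa_Fl, Fa_Fl, ← eτ, bl_zero a l t] at e2
  have e4 : r + a + 20 = (r + 20) + a := by ring
  rw [e4] at e2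
  exact cl_up (by norm_num) (H513.tau_nonneg 0 a _) (H513.tau_le 0 a _) e2

/-- **the slab from the rounded absolute functional** -/
theorem pSlb2 : PSlb2 := by
  classical
  obtain ⟨T, hT⟩ := cell_win
  refine ⟨1, 20, zero_le_one, T.card + 1, fun a w q r hrq => ?_⟩
  obtain ⟨e, he⟩ := keyFin T le_rfl
  let Hx : Cbx × Ry × ℝ → Prop := fun x => W0 (1 / 1000) (a + w) q x.1 x.2.1 x.2.2 ∧
    |(Fa (a + w) x.1 x.2.2).α| * 2 ^ 20 ≤ 2 ^ a
  let kx : Cbx × Ry × ℝ → (ℤ × (Fin 2 → ℤ) × ℤ) × Cf × Fin (T.card + 1) := fun x =>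
    ((fl1 a x.2.2, wo a x.2.1 x.2.2, wh a x.2.1 x.2.2), gk (a + w) (r + a + 20) x.1 x.2.2, e (pl 4 (wR a x.2.1 x.2.2)))
  have hq0 : (0 : ℝ) < (1 / 2 : ℝ) ^ q := by positivity
  have hr0 : (0 : ℝ) < (1 / 2 : ℝ) ^ r := by positivity
  have hqr : (1 / 2 : ℝ) ^ q ≤ (1 / 2 : ℝ) ^ r := pow_le_pow_of_le_one (by norm_num) (by norm_num) hrq
  have hq1 : (1 / 2 : ℝ) ^ q ≤ 1 := pow_le_one₀ (by norm_num) (by norm_num)
  have hr20 : (1 / 2 : ℝ) ^ (r + 20) = (1 / 2 : ℝ) ^ r / 1048576 := by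
    rw [pow_add]; norm_num; ring
  have hex : ∀ k : (ℤ × (Fin 2 → ℤ) × ℤ) × Cf × Fin (T.card + 1), ∃ S : Cbx, ∀ x, Hx x → kx x = k →
      SlbOk 1 r S w (wW a w x.1 x.2.1 x.2.2) (wR a x.2.1 x.2.2) (wt a x.2.2) := by
    intro k
    by_cases hk : ∃ x, Hx x ∧ kx x = k
    · obtain ⟨x', ⟨H', hα'⟩, hk'⟩ := hk
      have V' := dt_of H' hα'
      set F' := Fl a w x'.1 x'.2.2 with hF'
      set m' := wR a x'.2.1 x'.2.2 with hm'
      obtain ⟨hy', hs', -⟩ := ryOk_wR (a := a) (t := x'.2.2) H'.ok.2.1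
      obtain ⟨S, s1, s2, s3, s4, s5, s6, s7, s8, -, s9⟩ := mkS r (δ := 1 / 100 * (1 / 2 : ℝ) ^ q)
        (n := nv F' (bl a x'.2.1 x'.2.2)) (κ := F'.κ) (α := F'.α) (m' := m') (by positivity) (by linarith) V'.n
        (V'.κ.trans (by norm_num)) (V'.α.trans (by norm_num)) hy' hs'
      refine ⟨S, fun x hx hkx => ?_⟩
      obtain ⟨H, hα⟩ := hx
      have V := dt_of H hα
      have hkk : kx x = kx x' := hkx.trans hk'.symm
      simp only [kx, Prod.mk.injEq] at hkk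
      obtain ⟨⟨k1, k2, k3⟩, k4, k5⟩ := hkk
      have k6 := he _ _ (hT a x.2.1 x.2.2 H.ok) (hT a x'.2.1 x'.2.2 H'.ok) k5
      have hnr : Nr 6 4 (wR a x.2.1 x.2.2) m' := nr_cell k6
      have hcl := cl_gk (r := r) H k1 k4
      set F := Fl a w x.1 x.2.2 with hF
      set m := wR a x.2.1 x.2.2 with hm
      -- the functional of the representative in the window
      set o : Fin 2 → ℝ := fun k => (wo a x'.2.1 x'.2.2 k : ℝ) with ho
      set o0 : ℝ := (wh a x'.2.1 x'.2.2 : ℝ) with ho0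
      set B' := H416.trB o o0 F' with hB'
      have em : m = trR o o0 (bl a x.2.1 x.2.2) := by
        rw [hm, ho, ho0, ← k2, ← k3]
        rfl
      have em' : m' = trR o o0 (bl a x'.2.1 x'.2.2) := rfl
      have f0 : G0 B' m = G0 F' (bl a x.2.1 x.2.2) := by rw [em]; exact G0_tr _ _ _ _
      have f1 : G1 B' m = G1 F' (bl a x.2.1 x.2.2) := by rw [em]; exact G1_tr _ _ _ _
      have fn' : nv B' m = nv F' (bl a x.2.1 x.2.2) := by rw [em]; exact nv_tr _ _ _ _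
      have f0' : G0 B' m' = G0 F' (bl a x'.2.1 x'.2.2) := by rw [em']; exact G0_tr _ _ _ _
      have f1' : G1 B' m' = G1 F' (bl a x'.2.1 x'.2.2) := by rw [em']; exact G1_tr _ _ _ _
      have fn'' : nv B' m' = nv F' (bl a x'.2.1 x'.2.2) := by rw [em']; exact nv_tr _ _ _ _
      -- closeness
      obtain ⟨c1, c2, c3, c4, c5⟩ := hcl
      rw [hr20] at c1 c2 c3 c4 c5
      simp only [Nat.mul_zero, pow_zero, one_mul] at c1 c2 c3 c4 c5
      have d0 : |G0 B' m| ≤ 1 / 100 * (1 / 2 : ℝ) ^ r := by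
        rw [f0]
        have h1 := abs_sub (G0 F (bl a x.2.1 x.2.2)) (G0 F (bl a x.2.1 x.2.2) - G0 F' (bl a x.2.1 x.2.2))
        have e4 : G0 F (bl a x.2.1 x.2.2) - (G0 F (bl a x.2.1 x.2.2) - G0 F' (bl a x.2.1 x.2.2)) =
          G0 F' (bl a x.2.1 x.2.2) := by ring
        rw [e4] at h1
        have h2 := V.g0
        linarith
      have d1 : |G1 B' m| ≤ 1 / 100 * (1 / 2 : ℝ) ^ r := by
        rw [f1]
        have h1 := abs_sub (G1 F (bl a x.2.1 x.2.2)) (G1 F (bl a x.2.1 x.2.2) - G1 F' (bl a x.2.1 x.2.2))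
        have e4 : G1 F (bl a x.2.1 x.2.2) - (G1 F (bl a x.2.1 x.2.2) - G1 F' (bl a x.2.1 x.2.2)) =
          G1 F' (bl a x.2.1 x.2.2) := by ring
        rw [e4] at h1
        have h2 := V.g1
        linarith
      have d0' : |G0 B' m'| ≤ 1 / 100 * (1 / 2 : ℝ) ^ r := by
        rw [f0']
        have h2 := V'.g0
        linarith
      have d1' : |G1 B' m'| ≤ 1 / 100 * (1 / 2 : ℝ) ^ r := by
        rw [f1']
        have h2 := V'.g1
        linarith
      have g0 := G0_eq B' m m'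
      have g1 := G1_eq B' m m'
      rw [fn''] at g0 g1
      simp only [Fin.sum_univ_two] at g0 g1
      have hBκ : B'.κ = F'.κ := rfl
      have hBα : B'.α = F'.α := rfl
      rw [hBκ, hBα] at g0 g1
      obtain ⟨hin, hfr⟩ := s9 m hnr (by
        have h1 := abs_sub (G0 B' m) (G0 B' m')
        have e5 : G0 B' m - G0 B' m' = (nv F' (bl a x'.2.1 x'.2.2) 0 * (m.y 0 - m'.y 0) +
          nv F' (bl a x'.2.1 x'.2.2) 1 * (m.y 1 - m'.y 1)) + F'.κ * ze m m' -
          F'.α * ((m.y 0 - m'.y 0) ^ 2 + (m.y 1 - m'.y 1) ^ 2) := by linarith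
        rw [e5] at h1
        linarith) (by
        have h1 := abs_sub (G1 B' m) (G1 B' m')
        have e5 : G1 B' m - G1 B' m' = (nv F' (bl a x'.2.1 x'.2.2) 0 * (m.s 0 - m'.s 0) +
          nv F' (bl a x'.2.1 x'.2.2) 1 * (m.s 1 - m'.s 1)) + F'.κ * ((m.s 0 - m'.s 0) ^ 2 + (m.s 1 - m'.s 1) ^ 2) / 2 +
          2 * F'.α * (ze m m' - ((m.y 0 - m'.y 0) * (m.s 0 - m'.s 0) + (m.y 1 - m'.y 1) * (m.s 1 - m'.s 1))) := by
          linarith
        rw [e5] at h1
        linarith)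
      refine ⟨s1, s2, s3, s4, s5, s6, hin, 1, Or.inl rfl, fun k => ?_, ?_⟩
      · rw [one_mul, nrm_eq, nv_wW, ← nv_Fl, one_mul]
        have h1 := hfr k
        have h2 : Nk (nv F' (bl a x'.2.1 x'.2.2)) F'.κ F'.α m' m k = nv F' (bl a x.2.1 x.2.2) k := by
          rw [← fn', nv_sub B' m m' k, fn'']
          rfl
        rw [h2] at h1
        have h3 := c1 k
        have h4 := abs_sub (nv F (bl a x.2.1 x.2.2) k - nv F' (bl a x.2.1 x.2.2) k)
          (nrm S m k - nv F' (bl a x.2.1 x.2.2) k)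
        have e6 : nv F (bl a x.2.1 x.2.2) k - nv F' (bl a x.2.1 x.2.2) k - (nrm S m k - nv F' (bl a x.2.1 x.2.2) k) =
          nv F (bl a x.2.1 x.2.2) k - nrm S m k := by ring
        rw [e6] at h4
        linarith
      · rw [one_mul, one_mul]
        show |x.1.κ - (S.κ + 2 * qa w (wt a x.2.2) * S.α)| ≤ _
        have hqa : qa w (wt a x.2.2) = tau a w x.2.2 := by
          rw [qa_wt]
          rfl
        rw [hqa]
        have t0 := H513.tau_nonneg a w x.2.2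
        have t1 := H513.tau_le a w x.2.2
        set τ := tau a w x.2.2 with hτ
        have hκW : x.1.κ = F.κ + 2 * τ * F.α := by
          rw [hF]
          simp only [Fl, dnB, ← hτ]
          ring
        rw [hκW]
        have e7 : F.κ + 2 * τ * F.α - (S.κ + 2 * τ * S.α) = (F.κ - F'.κ) + 2 * (τ * (F.α - F'.α)) + -(S.κ - F'.κ) +
          -(2 * (τ * (S.α - F'.α))) + 0 := by ring
        rw [e7]
        refine (abs5 _ _ _ _ _).trans ?_
        rw [abs_neg, abs_neg, abs_zero, abs_mul, abs_mul 2, abs_two]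
        have h5 : |τ * (F.α - F'.α)| ≤ |F.α - F'.α| := by
          rw [abs_mul, abs_of_nonneg t0]
          exact mul_le_of_le_one_left (abs_nonneg _) t1
        have h6 : |τ * (S.α - F'.α)| ≤ |S.α - F'.α| := by
          rw [abs_mul, abs_of_nonneg t0]
          exact mul_le_of_le_one_left (abs_nonneg _) t1
        linarith
    · exact ⟨⟨0, 0, 0, 0, 0, 0, 0, 0⟩, fun x hx hkx => absurd ⟨x, hx, hkx⟩ hk⟩
  choose S hS using hex
  refine ⟨fun _ l t => e (pl 4 (wR a l t)), fun z c i => S (z, c, i), ?_⟩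
  intro L W l t hl h0 h1 hL h2 h3 h4
  exact hS _ (W, l, t) ⟨W0.of hl h0 h1 hL h2 h3, h4⟩ rfl

end Vale.Agent.P106.U.H428
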