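import Vale.Agent.P106.U.H61.Nrm
import Vale.Agent.P106.U.H457.Ev
import Vale.Agent.P106.U.H428.Slb1
import Vale.Agent.P106.U.H428.Slb2

/-! # P106 / U / H428 : the normal form of the start, unconditional (helper61, helper457, helper428) -/

set_option autoImplicit false

namespace Vale.Agent.P106.U.H428

/-- **normal form of the start** -/
theorem pNrm : Vale.Agent.P106.U.H61.PNrm :=
  Vale.Agent.P106.U.H61.pNrm_of Vale.Agent.P106.U.H457.pEv pSlb1 pSlb2

end Vale.Agent.P106.U.H428
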