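import Vale.Agent.P106.U.H565.PF2
import Vale.Agent.P106.U.H428.VXC

/-!
# P106 / U / H428 : `PF2` from the sums (helper428)

* `C0.VsP`, `C0.XsP`, `C2.k0P` : young levels, exceptional levels, line of the first cap, at one place of the selection.
* `PSum` : the sums `F2o` at every place with small cost; a cost `ψ` of average `≤ 1 / 2`, all large numbers `Tc` of caps.
* **`pF2_of_sum`** : `PSum → PF2` (costs `psX` of helper339, `psR` of helper715 for the other fields of `S3.F2`).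
-/

set_option autoImplicit false

namespace Vale.Agent.P106.U.H565

open Finset Vale.Agent.P127 Vale.Agent.P127.Stk Vale.Agent.P127.U Vale.Agent.P106.W
open Vale.Agent.P106.K (Ry RyOk bl Bin)
open Vale.Agent.P106.U Vale.Agent.P106.U.H449
open Vale.Agent.P106.U.H823.NumG Vale.Agent.P106.U.H823.NumW Vale.Agent.P106.U.H823.PathNum
open Vale.Agent.P127.U.Nonat Vale.Agent.P127.U.YPat Vale.Agent.P127.U.JSB
open Vale.Agent.P106.U.H715.RegC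

variable {Ω : Type} [Fintype Ω]

/-- young levels at the place -/
noncomputable def C0.VsP (c : C0 Ω) (E1 : List (Lt 2)) (D0 g k1 kk : ℕ) (e : ℕ → ℕ → ℕ) : Finset ℕ :=
  H661.Yng.Vs (H339W.RCz c.I.ha kk e) (Rw c.I.pm.n E1 1) c.I.ha D0 g (kk - k1) kk

/-- exceptional levels at the place -/
noncomputable def C0.XsP (c : C0 Ω) (E1 : List (Lt 2)) (B βV s D0 g k1 b0 kk : ℕ) (e : ℕ → ℕ → ℕ) : Finset ℕ :=
  H661.Yng.Xs (H339W.RCz c.I.ha kk e) (Rw c.I.pm.n E1 1) c.I.ha D0 g (kk - k1) kk ∪ hits (Fo c E1) c.I.ha B βV s b0 kk e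

/-- line of the first cap, at the level before -/
noncomputable def C2.k0P (c : C2 Ω) (e : ℕ → ℕ → ℕ) : ℕ → ℕ := H715.RegR.k0 c.D (RCe c.I.ha e 0)

/-- **the sums** -/
def PSum : Prop :=
  ∀ σ : S5.Cst, σ.Ok → ∀ (K Cψ cc : ℝ) (J M Md : ℕ), 648 ≤ K → 0 ≤ Cψ → 0 < cc → cc ≤ 1 / 4 →
    1 ≤ M → M + 2 ≤ Md → A1 M + 1 ≤ J → A3 0 M 0 + 1 ≤ J → 3 * (Md + 1) ≤ J →
    ∃ m0 : ℕ, ∀ m : ℕ, m0 ≤ m → ∃ B0 : ℕ, ∀ B : ℕ, B0 ≤ B →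
    ∃ g D0 k1 s βS βV : ℕ, 1 ≤ g ∧ 1 ≤ s ∧ 2 * B + 5 ≤ D0 ∧ B ≤ βS ∧ βS ≤ βV ∧ ∃ Tc1 : ℕ, ∀ Tc : ℕ, Tc1 ≤ Tc →
    ∃ X0 R0 h0 : ℕ,
    ∀ (Ω : Type) [Fintype Ω] (c : C0 Ω) (hm : 3 ≤ c.I.m) (Rm : ℕ) (St : c.St Rm) (good : c.I.Good (σ.K1 + 1 / 2) 4)
      (thr : ℝ), c.thr = thr → c.I.C1 = σ.C1 → c.I.δ1 = σ.δ1 → c.I.m = m → c.I.B = B → c.I.J = J → c.I.M = M → c.Md = Md →
      h0 ≤ c.I.h → X0 ≤ c.I.rs → R0 ≤ Rm → (∀ ω, 0 ≤ c.t ω ∧ c.t ω < 1) → ∀ (hc : 0 ≤ cc) (bt : Law Ω → ℕ → ℕ → Ω → Bool)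
      (Q1 : Law Ω) (E1 : List (Lt 2)) (x1 : ℝ) (cn : Cn c.rule c.P Q1 c.I.pm.n E1 x1),
      (∀ b0 kk, Dtm Q1 (c.Gb hm cc Q1 (b0 + kk * s)) (bt Q1 b0 kk)) →
      (∀ (b0 k : ℕ) (z : (ℕ → Bool) × (ℕ → ℕ → ℕ)) (hz : 0 < Q1.pr (c.zW hm cc s bt Q1 b0 k) z), (∀ j ≤ k, z.1 j = true) →
        ∀ (o : Fin 7 → ℝ) (oK oG oN : ℝ), ∃ Ac rc : ℕ,
          (c.c2 hm cc good cn St.in0 hc s bt b0 k z hz o oK oG oN).Hyp Rm cc Ac rc) →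
      ∃ (o : Fin 7 → ℝ) (oK oG oN : ℝ) (ψ : ℕ → ℕ → (ℕ → Bool) × (ℕ → ℕ → ℕ) → ℝ),
        (∀ b0 kk, ∀ ω, 0 < Q1.w ω → 0 ≤ ψ b0 kk (c.zW hm cc s bt Q1 b0 kk ω)) ∧
        ∑ b0 ∈ range (nBl (σ.δ1 / 2) c.I.h m + 1 - Tc * s), ∑ kk ∈ range Tc,
          Q1.ex (fun ω => ψ b0 kk (c.zW hm cc s bt Q1 b0 kk ω)) ≤ nBl (σ.δ1 / 2) c.I.h m * Tc / 2 ∧
        ∀ (b0 kk : ℕ) (e2 : (ℕ → Bool) × (ℕ → ℕ → ℕ)) (hz : 0 < Q1.pr (c.zW hm cc s bt Q1 b0 kk) e2), kk < Tc →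
          b0 + Tc * s ≤ nBl (σ.δ1 / 2) c.I.h m → 8 * B < b0 → ψ b0 kk e2 ≤ Cψ → (∀ j ≤ kk, e2.1 j = true) → k1 ≤ kk →
          ∀ (hk : Monotone ((c.c2 hm cc good cn St.in0 hc s bt b0 kk e2 hz o oK oG oN).k0P e2.2))
            (hl : ∀ i, (c.c2 hm cc good cn St.in0 hc s bt b0 kk e2 hz o oK oG oN).k0P e2.2 i ≤
              (c.c2 hm cc good cn St.in0 hc s bt b0 kk e2 hz o oK oG oN).D.L.k
                ((c.c2 hm cc good cn St.in0 hc s bt b0 kk e2 hz o oK oG oN).D.ix i)),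
          ∀ μ ≤ B, m ≤ μ → ∀ K' : ℝ, (100 * K) ^ 20 ≤ K' → K' ≤ B → ∃ (o1 : Fin 7 → ℝ) (o' : ℕ → ℝ),
            S3.F2o ((c.c2 hm cc good cn St.in0 hc s bt b0 kk e2 hz o oK oG oN).erun hm)
              (c.c2 hm cc good cn St.in0 hc s bt b0 kk e2 hz o oK oG oN).num B (c.I.m * (b0 + kk * s + βS))
              (c.I.m * (b0 + kk * s + βV))
              ((c.c2 hm cc good cn St.in0 hc s bt b0 kk e2 hz o oK oG oN).pfd hm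
                ((c.c2 hm cc good cn St.in0 hc s bt b0 kk e2 hz o oK oG oN).k0P e2.2) hk hl B)
              (c.VsP E1 D0 g k1 kk e2.2) (c.XsP E1 B βV s D0 g k1 b0 kk e2.2) μ K' o1 o'

/-- **`PF2` from the sums** -/
theorem pF2_of_sum (h : PSum) : PF2 := by
  intro σ hσ K Cψ cc J M Md hK hCψ hcc hcc4 hM hMd hJ1 hJ3 hJM
  obtain ⟨m0, hm0⟩ := h σ hσ K Cψ cc J M Md hK hCψ hcc hcc4 hM hMd hJ1 hJ3 hJM
  have hδ := hσ.δ0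
  have hδ3 : 3 * σ.δ1 ≤ 1 := by
    have h1 := hσ.δθ
    have h2 := hσ.θ4
    linarith
  have hK1 : (0 : ℝ) ≤ σ.K1 + 1 / 2 := by
    have := hσ.bs.K10
    linarith
  refine ⟨max m0 1, fun m hm => ?_⟩
  have hm1 : 1 ≤ m := (le_max_right _ _).trans hm
  obtain ⟨B0, hB0⟩ := hm0 m ((le_max_left _ _).trans hm)
  refine ⟨max B0 1, fun B hB => ?_⟩
  have hB1 : 1 ≤ B := (le_max_right _ _).trans hB
  obtain ⟨g, D0, k1, s, βS, βV, hg, hs, hD0, hβS, hβ, Tc1, hTc1⟩ := hB0 B ((le_max_left _ _).trans hB)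
  obtain ⟨Tc0, hTc0, HV⟩ := C1.mk2_vx_num hK1 hδ hδ3 (by linarith : (0 : ℝ) ≤ 6 * Cψ) m B B g k1 D0 s βS βV 4 hm1 hB1 hg hs
    hD0 (by omega) hβS hβ
  obtain ⟨Tc, hTc⟩ : ∃ Tc, Tc = max Tc0 Tc1 := ⟨_, rfl⟩
  have hTa : Tc0 ≤ Tc := hTc ▸ le_max_left _ _
  have hTb : Tc1 ≤ Tc := hTc ▸ le_max_right _ _
  have hT0 : 0 < Tc := hTc0.trans_le hTa
  obtain ⟨hv, HV1⟩ := HV Tc hTa
  obtain ⟨X0, R0, h0, H⟩ := hTc1 Tc hTb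
  obtain ⟨h1, hh1⟩ := exists_nat_ge ((Tc * s + 1 : ℕ) * m / (σ.δ1 / 2) : ℝ)
  refine ⟨Tc, s, X0, R0, hT0, hs, max h0 (max hv (max h1 m)), ?_⟩
  intro Ω _ c hmc Rm St good thr e1 e2 e3 e4 e5 e6 e7 e8 hh hX0 hR0 ht hc bt Q1 E1 x1 cn dtm HB
  have g0 : h0 ≤ c.I.h := (le_max_left _ _).trans hh
  have g1 : hv ≤ c.I.h := ((le_max_left _ _).trans (le_max_right _ _)).trans hh
  have g2 : h1 ≤ c.I.h := (((le_max_left _ _).trans (le_max_right _ _)).trans (le_max_right _ _)).trans hh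
  have g3 : m ≤ c.I.h := (((le_max_right _ _).trans (le_max_right _ _)).trans (le_max_right _ _)).trans hh
  have hmr : (0 : ℝ) < m := by exact_mod_cast hm1
  -- number of places
  have hn1 : Tc * s + 1 ≤ nBl (σ.δ1 / 2) c.I.h m := by
    unfold nBl
    refine Nat.le_floor ?_
    rw [le_div_iff₀ hmr]
    have h2 : ((Tc * s + 1 : ℕ) * m / (σ.δ1 / 2) : ℝ) ≤ c.I.h := hh1.trans (by exact_mod_cast g2)
    rw [div_le_iff₀ (by positivity)] at h2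
    linarith
  have hha : 1 ≤ c.I.ha := by
    have h2 : c.I.ha = c.I.h / c.I.m := rfl
    rw [h2, e4]
    exact Nat.div_pos g3 hm1
  obtain ⟨o, oK, oG, oN, ψ, n1, n2, n3⟩ := H Ω c hmc Rm St good thr e1 e2 e3 e4 e5 e6 e7 e8 g0 hX0 hR0 ht hc bt Q1 E1 x1 cn
    dtm HB
  obtain ⟨nB, hnB⟩ : ∃ nB, nB = nBl (σ.δ1 / 2) c.I.h m := ⟨_, rfl⟩
  rw [← hnB] at n2 hn1
  refine ⟨o, oK, oG, oN, fun b0 kk z => ψ b0 kk z + (H339W.psX c.I.ha Tc s k1 D0 nB (c.XR E1) kk z.2 +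
    psR c E1 B βV s Tc nB b0 kk z.2) / 6, ?_, ?_, ?_⟩
  · intro b0 kk ω hω
    have a1 := n1 b0 kk ω hω
    have a2 := H339W.psX_nonneg c.I.ha Tc s k1 D0 nB (c.XR E1) kk (c.zW hmc cc s bt Q1 b0 kk ω).2
    have a3 := psR_nonneg c E1 B βV s Tc nB b0 kk (c.zW hmc cc s bt Q1 b0 kk ω).2
    show 0 ≤ _ + _
    linarith
  · rw [← hnB]
    have a1 := H339W.psX_avg (hm := hmc) cn St.in0 hc (Tc := Tc) (s := s) (K1 := k1) (D0 := D0) (nB := nB) (by omega) hs hT0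
      (by omega)
    have a2 := psR_avg (hm := hmc) cn St.in0 hc hha B βV s Tc nB (nB + 1 - Tc * s)
    have a3 : ∀ b0 kk, Q1.ex (fun ω => ψ b0 kk (c.zW hmc cc s bt Q1 b0 kk ω) +
        (H339W.psX c.I.ha Tc s k1 D0 nB (c.XR E1) kk (c.zW hmc cc s bt Q1 b0 kk ω).2 +
          psR c E1 B βV s Tc nB b0 kk (c.zW hmc cc s bt Q1 b0 kk ω).2) / 6) =
        Q1.ex (fun ω => ψ b0 kk (c.zW hmc cc s bt Q1 b0 kk ω)) +
        (1 / 6) * Q1.ex (fun ω => H339W.psX c.I.ha Tc s k1 D0 nB (c.XR E1) kk (c.Zr hmc cc s Q1 b0 kk ω)) +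
        (1 / 6) * Q1.ex (fun ω => psR c E1 B βV s Tc nB b0 kk (c.Zr hmc cc s Q1 b0 kk ω)) := by
      intro b0 kk
      rw [← Q1.ex_const_mul, ← Q1.ex_const_mul, ← Q1.ex_add, ← Q1.ex_add]
      refine congrArg Q1.ex (funext fun ω => ?_)
      show _ + (H339W.psX c.I.ha Tc s k1 D0 nB (c.XR E1) kk (c.Zr hmc cc s Q1 b0 kk ω) +
          psR c E1 B βV s Tc nB b0 kk (c.Zr hmc cc s Q1 b0 kk ω)) / 6 = _
      ring
    simp only [a3, Finset.sum_add_distrib, ← Finset.mul_sum]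
    have a4 : (0 : ℝ) ≤ nB * Tc := by positivity
    linarith
  · intro b0 kk z hz hkk hb0 hb8 hψ hbits
    obtain ⟨ω₀, hω₀, hwz⟩ := C1.mk2_pt (c := c.c1 good cn) hz
    have a1 := n1 b0 kk ω₀ hω₀
    rw [hwz] at a1
    have a2 := H339W.psX_nonneg c.I.ha Tc s k1 D0 nB (c.XR E1) kk z.2
    have a3 := psR_nonneg c E1 B βV s Tc nB b0 kk z.2
    have a4 : ψ b0 kk z + (H339W.psX c.I.ha Tc s k1 D0 nB (c.XR E1) kk z.2 +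
      psR c E1 B βV s Tc nB b0 kk z.2) / 6 ≤ Cψ := hψ
    have a5 : ψ b0 kk z ≤ Cψ := by linarith
    have a6 : H339W.psX c.I.ha Tc s k1 D0 (nBl (σ.δ1 / 2) c.I.h m) (c.XR E1) kk z.2 ≤ 6 * Cψ := by
      rw [← hnB]
      linarith
    have a7 : psR c E1 B βV s Tc (nBl (σ.δ1 / 2) c.I.h m) b0 kk z.2 ≤ 6 * Cψ := by
      rw [← hnB]
      linarith
    obtain ⟨Ac, rc, Hy⟩ := HB b0 kk z hz hbits o oK oG oN
    have he : ∀ ω, 0 < (c.c1 good cn).Q1.w ω → c.zW hmc cc s bt Q1 b0 kk ω = z →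
        (c.c1 good cn).Zr hmc cc s (c.c1 good cn).Q1 b0 kk ω = z.2 := fun ω _ e => congrArg Prod.snd e
    obtain ⟨q1, hk, hl, hV⟩ := HV1 Ω (c.c1 good cn) hmc cc St.in0 hc b0 kk _ (c.zW hmc cc s bt Q1 b0 kk) z hz o oK oG oN Rm
      Ac rc z.2 rfl e3 e4 e5 g1 Hy he hkk hb0 a6 a7
    exact C1.mk2_f2 Hy (C1.zr_ok s b0 kk (c.zW hmc cc s bt Q1 b0 kk) fun ω ω' _ _ e => congrArg Prod.snd e)
      (by linarith) hk hl hV fun μ hμ hmμ => n3 b0 kk z hz hkk hb0 hb8 a5 hbits q1 hk hl μ hμ (by rw [← e4]; exact hmμ)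

end Vale.Agent.P106.U.H565
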