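import Vale.Agent.P106.U.H428.Cls

/-!
# P106 / U / H428 : the prefix letters of the curvature (helper428)

Complement of `Cls.lean` for the letter `pf` of helper785's `Mtr` (points of helper470 and helper127).

* `pfR RC a` : the letters `L a y`, `-N ≤ y ≤ RC a - a`, of ONE level, `RC` a deterministic path (the value of the word);
  `pfA RC a` : the letters of all levels `≤ a`.
* `Kw.pfv_eq` : on `{RT = RC}` this is the prefix letter `pfv`; `Kw.pfR_congr`, `Kw.pfA_congr` : function of `G`.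
* `pfR_res`, `pfA_res` : nested in the path (exact restriction) and in the level.
* `pfR_step`, `pfA_step` : along the diagonal (`RC (a+1) = RC a + 1`) off the cuts of the depth `y0 ≥ RC a - a` the letter
  of the level `a + 1` is the letter of the level `a`.
* `Kw.gT_num`, `Su.gv_near` : the number; `pfR_some`, `pfA_ent` : the letter `L a y` (e.g. `Ab`) is an entry.
* `Kw.fn_A`, `Kw.fn_R`, `fn_A_res`, `fn_R_A`, `fn_A_step` : the same as `Fn` over a law.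
-/

set_option autoImplicit false
set_option linter.unusedSectionVars false

namespace Vale.Agent.P106.U.H428.Cls

open Finset Vale.Agent.P127 Vale.Agent.P127.Stk

namespace Dt

variable {Ω : Type} (d : Dt Ω)

/-- letters of the level `a` up to the depth `RC a - a` -/
noncomputable def pfR (RC : ℕ → ℕ) (a : ℕ) (ω : Ω) : ℤ → Option ℤ := fun y =>
  if -(d.N : ℤ) ≤ y ∧ y ≤ (RC a : ℤ) - a then some (d.L a y ω) else none

/-- letters of all levels `≤ a` -/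
noncomputable def pfA (RC : ℕ → ℕ) (a : ℕ) (ω : Ω) : ℕ → ℤ → Option ℤ := fun b y =>
  if b ≤ a then d.pfR RC b ω y else none

/-- restriction of a vector -/
def cutR (d : Dt Ω) (RC : ℕ → ℕ) (a : ℕ) (v : ℤ → Option ℤ) : ℤ → Option ℤ := fun y =>
  if -(d.N : ℤ) ≤ y ∧ y ≤ (RC a : ℤ) - a then v y else none

/-- restriction of a matrix -/
def cutA (d : Dt Ω) (RC : ℕ → ℕ) (a : ℕ) (v : ℕ → ℤ → Option ℤ) : ℕ → ℤ → Option ℤ := fun b y =>
  if b ≤ a then d.cutR RC b (v b) y else none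

variable {d}

lemma pfR_some {RC : ℕ → ℕ} {a : ℕ} {y : ℤ} (h1 : -(d.N : ℤ) ≤ y) (h2 : y ≤ (RC a : ℤ) - a) (ω : Ω) :
    d.pfR RC a ω y = some (d.L a y ω) := if_pos ⟨h1, h2⟩

lemma pfR_none {RC : ℕ → ℕ} {a : ℕ} {y : ℤ} (h : ¬ (-(d.N : ℤ) ≤ y ∧ y ≤ (RC a : ℤ) - a)) (ω : Ω) :
    d.pfR RC a ω y = none := if_neg h

lemma pfA_le {RC : ℕ → ℕ} {a b : ℕ} (h : b ≤ a) (ω : Ω) : d.pfA RC a ω b = d.pfR RC b ω := by
  funext y
  exact if_pos h

lemma pfA_gt {RC : ℕ → ℕ} {a b : ℕ} (h : a < b) (ω : Ω) : d.pfA RC a ω b = fun _ => none := by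
  funext y
  exact if_neg (by omega)

/-- **nested in the path** -/
theorem pfR_res {RC RC' : ℕ → ℕ} {a : ℕ} (h : RC a ≤ RC' a) (ω : Ω) :
    d.pfR RC a ω = d.cutR RC a (d.pfR RC' a ω) := by
  funext y
  unfold cutR
  by_cases hy : -(d.N : ℤ) ≤ y ∧ y ≤ (RC a : ℤ) - a
  · rw [pfR_some hy.1 hy.2, if_pos hy, pfR_some hy.1 (by omega)]
  · rw [pfR_none hy, if_neg hy]

/-- **nested in the path and in the level** -/
theorem pfA_res {RC RC' : ℕ → ℕ} {a a' : ℕ} (ha : a ≤ a') (h : ∀ b ≤ a, RC b ≤ RC' b) (ω : Ω) :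
    d.pfA RC a ω = d.cutA RC a (d.pfA RC' a' ω) := by
  funext b y
  by_cases hb : b ≤ a
  · have h1 : d.cutA RC a (d.pfA RC' a' ω) b y = d.cutR RC b (d.pfA RC' a' ω b) y := if_pos hb
    rw [h1, pfA_le hb, pfA_le (hb.trans ha), pfR_res (h b hb)]
  · have h1 : d.cutA RC a (d.pfA RC' a' ω) b y = none := if_neg hb
    rw [h1, pfA_gt (by omega)]

/-- **constant along the diagonal off the cuts** -/
theorem pfR_step {RC : ℕ → ℕ} {a : ℕ} (hR : RC (a + 1) = RC a + 1) {y0 : ℤ} (hy0 : (RC a : ℤ) - a ≤ y0)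
    (hc : d.rep (a + 1) y0 ≠ a + 1) (ω : Ω) : d.pfR RC (a + 1) ω = d.pfR RC a ω := by
  funext y
  by_cases hy : -(d.N : ℤ) ≤ y ∧ y ≤ (RC a : ℤ) - a
  · rw [pfR_some hy.1 hy.2, pfR_some hy.1 (by rw [hR]; push_cast; omega)]
    unfold L
    rw [d.rep_stay hc (by omega)]
  · rw [pfR_none hy, pfR_none]
    intro h
    refine hy ⟨h.1, ?_⟩
    have := h.2
    rw [hR] at this
    push_cast at this
    omega

/-- the matrix of the level `a + 1` from the matrix of the level `a` -/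
theorem pfA_step {RC : ℕ → ℕ} {a : ℕ} {ω : Ω} (h : d.pfR RC (a + 1) ω = d.pfR RC a ω) :
    d.pfA RC (a + 1) ω = fun b => if b = a + 1 then d.pfA RC a ω a else d.pfA RC a ω b := by
  funext b
  by_cases hb : b = a + 1
  · rw [if_pos hb, hb, pfA_le le_rfl, pfA_le le_rfl, h]
  · rw [if_neg hb]
    rcases Nat.lt_or_ge a b with h1 | h1
    · rw [pfA_gt (by omega), pfA_gt h1]
    · rw [pfA_le (by omega), pfA_le h1]

/-- an entry -/
theorem pfA_ent {RC : ℕ → ℕ} {a b : ℕ} {y : ℤ} (hb : b ≤ a) (h1 : -(d.N : ℤ) ≤ y) (h2 : y ≤ (RC b : ℤ) - b)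
    (ω : Ω) : d.pfA RC a ω b y = some (d.L b y ω) := by
  rw [pfA_le hb, pfR_some h1 h2]

/-- equal letters : equal entries -/
theorem pfR_L {RC : ℕ → ℕ} {a : ℕ} {y : ℤ} {ω ω' : Ω} (h : d.pfR RC a ω = d.pfR RC a ω')
    (h1 : -(d.N : ℤ) ≤ y) (h2 : y ≤ (RC a : ℤ) - a) : d.L a y ω = d.L a y ω' := by
  have h3 := congrFun h y
  rw [pfR_some h1 h2, pfR_some h1 h2] at h3
  exact Option.some_injective _ h3

theorem pfA_R {RC : ℕ → ℕ} {a b : ℕ} (hb : b ≤ a) {ω ω' : Ω} (h : d.pfA RC a ω = d.pfA RC a ω') :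
    d.pfR RC b ω = d.pfR RC b ω' := by
  have h1 := congrFun h b
  rwa [pfA_le hb, pfA_le hb] at h1

/-- the number of the letter : within one unit of the curvature -/
theorem Su.gv_near [Fintype Ω] {P : Law Ω} (h : d.Su P) {RC : ℕ → ℕ} {a : ℕ} (h0 : 0 < RC a)
    (h1 : -(d.N : ℤ) ≤ (RC a : ℤ) - a) {ω : Ω} (hω : 0 < P.w ω) :
    |d.al a ω - d.gv a (RC a) (d.pfR RC a ω)| ≤ 3 / 4 * d.B ^ ((a : ℤ) - RC a) := by
  have h2 := h.L_near a ((RC a : ℤ) - a) hω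
  have h3 : d.gv a (RC a) (d.pfR RC a ω) = ((d.L a ((RC a : ℤ) - a) ω : ℝ) + 1 / 2) * d.B ^ ((a : ℤ) - RC a) := by
    unfold gv
    rw [if_pos h0, pfR_some h1 le_rfl]
    rfl
  rw [h3]
  have h4 : d.B ^ ((RC a : ℤ) - a) * d.B ^ ((a : ℤ) - RC a) = 1 := by
    rw [d.zp_mul]
    simp
  have h5 : d.al a ω - ((d.L a ((RC a : ℤ) - a) ω : ℝ) + 1 / 2) * d.B ^ ((a : ℤ) - RC a) =
      (d.al a ω * d.B ^ ((RC a : ℤ) - a) - ((d.L a ((RC a : ℤ) - a) ω : ℝ) + 1 / 2)) *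
        d.B ^ ((a : ℤ) - RC a) := by
    rw [sub_mul, mul_assoc, h4, mul_one]
  rw [h5, abs_mul, abs_of_pos (d.zp _)]
  exact mul_le_mul_of_nonneg_right h2 (d.zp _).le

/-! ### the closure -/

variable [Fintype Ω] {P : Law Ω} {γ : Type*} {c : ℝ} {G : Ω → γ} {Kn : Ω → d.Ix → Prop}

/-- **on `{RT = RC}` the letter is the prefix letter** -/
theorem Kw.pfv_eq (h : d.Kw P c G Kn) {RC : ℕ → ℕ} {ω : Ω} {a : ℕ} (ha : a ≤ d.N) (hs : d.s ≤ d.RI a)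
    (hR : d.RT (Kn ω) a = RC a) (ω' : Ω) : d.pfv (Kn ω) a ω' = d.pfR RC a ω' := by
  funext y
  have e1 := h.rv_le (ω := ω) ha hs y
  rw [hR] at e1
  by_cases hy : -(d.N : ℤ) ≤ y ∧ y ≤ (RC a : ℤ) - a
  · rw [pfR_some hy.1 hy.2, pfv_some (e1.2 hy)]
  · rw [pfR_none hy, pfv_none (fun h2 => hy (e1.1 h2))]

/-- **function of `G`** -/
theorem Kw.pfR_congr (h : d.Kw P c G Kn) {RC : ℕ → ℕ} {ω ω' : Ω} {a : ℕ} (ha : a ≤ d.N) (hs : d.s ≤ d.RI a)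
    (hR : d.RT (Kn ω) a = RC a) (hG : G ω' = G ω) : d.pfR RC a ω' = d.pfR RC a ω := by
  have h1 := h.pfv_congr hG a
  have hR' : d.RT (Kn ω') a = RC a := by rw [(h.congr hG a).1]; exact hR
  rw [h.pfv_eq ha hs hR, h.pfv_eq ha hs hR'] at h1
  exact h1

/-- **function of `G`**, all levels -/
theorem Kw.pfA_congr (h : d.Kw P c G Kn) {RC : ℕ → ℕ} {ω ω' : Ω} {a : ℕ} (ha : a ≤ d.N) (hs : d.s ≤ d.RI 0)
    (hR : ∀ b ≤ a, d.RT (Kn ω) b = RC b) (hG : G ω' = G ω) : d.pfA RC a ω' = d.pfA RC a ω := by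
  funext b
  rcases Nat.lt_or_ge a b with h1 | h1
  · rw [pfA_gt h1, pfA_gt h1]
  · rw [pfA_le h1, pfA_le h1]
    exact h.pfR_congr (h1.trans ha) (hs.trans (d.hRI (Nat.zero_le b))) (hR b h1) hG

/-- the value of the closure is the number of the letter -/
theorem Kw.gT_num (h : d.Kw P c G Kn) {RC : ℕ → ℕ} {ω : Ω} {a : ℕ} (ha : a ≤ d.N) (hs : d.s ≤ d.RI a)
    (hR : d.RT (Kn ω) a = RC a) (ω' : Ω) : d.gT (Kn ω) a ω' = d.gv a (RC a) (d.pfR RC a ω') := by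
  rw [gT_pfv, hR, h.pfv_eq ha hs hR]

/-! ### laws -/

/-- function of the closure over a law supported in `{RT = RC}` -/
theorem Kw.fn_A (h : d.Kw P c G Kn) {Q : Law Ω} {RC : ℕ → ℕ} {a : ℕ} (ha : a ≤ d.N) (hs : d.s ≤ d.RI 0)
    (hR : ∀ ω, 0 < Q.w ω → ∀ b ≤ a, d.RT (Kn ω) b = RC b) : Fn Q (d.pfA RC a) G :=
  fun ω _ hω _ hG => (h.pfA_congr ha hs (hR ω hω) hG.symm).symm

theorem Kw.fn_R (h : d.Kw P c G Kn) {Q : Law Ω} {RC : ℕ → ℕ} {a : ℕ} (ha : a ≤ d.N) (hs : d.s ≤ d.RI a)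
    (hR : ∀ ω, 0 < Q.w ω → d.RT (Kn ω) a = RC a) : Fn Q (d.pfR RC a) G :=
  fun ω _ hω _ hG => (h.pfR_congr ha hs (hR ω hω) hG.symm).symm

/-- nested in the path and in the level -/
theorem fn_A_res (Q : Law Ω) {RC RC' : ℕ → ℕ} {a a' : ℕ} (ha : a ≤ a') (h : ∀ b ≤ a, RC b ≤ RC' b) :
    Fn Q (d.pfA RC a) (d.pfA RC' a') := fun ω ω' _ _ e => by
  rw [pfA_res ha h ω, pfA_res ha h ω', e]

theorem fn_R_A (Q : Law Ω) {RC : ℕ → ℕ} {a b : ℕ} (hb : b ≤ a) : Fn Q (d.pfR RC b) (d.pfA RC a) :=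
  fun _ _ _ _ e => pfA_R hb e

/-- along the diagonal off the cuts -/
theorem fn_A_step (Q : Law Ω) {RC : ℕ → ℕ} {a : ℕ} (hR : RC (a + 1) = RC a + 1) {y0 : ℤ}
    (hy0 : (RC a : ℤ) - a ≤ y0) (hc : d.rep (a + 1) y0 ≠ a + 1) : Fn Q (d.pfA RC (a + 1)) (d.pfA RC a) :=
  fun ω ω' _ _ e => by
    rw [pfA_step (pfR_step hR hy0 hc ω), pfA_step (pfR_step hR hy0 hc ω'), e]

end Dt

end Vale.Agent.P106.U.H428.Cls
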